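import Vale.Agent.P229.Est.Side

/-!
# P229: band traces on the left of the source

The three levels `v`, `v_p`, `v_pp`, run through LEFT and TRAPEZOID with one weight, give the
band trace on the left; `Reflect` gives the right side.
-/

open MeasureTheory
open scoped ContDiff

namespace Vale.Agent.P229.Est

/-- The six derivatives measured on the band. -/
noncomputable def traceSq (v : ℝ × ℝ → ℝ) (q : ℝ × ℝ) : ℝ :=
  dy v q ^ 2 + dp v q ^ 2 + dy (dp v) q ^ 2 + dp (dp v) q ^ 2 + dy (dp (dp v)) q ^ 2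
    + dp (dp (dp v)) q ^ 2

/-- The constant absorbing all coefficient bounds. -/
noncomputable def bigP (β Kc : ℝ) : ℝ := 100 * (1 + Kc) ^ 2 * (1 + 1 / β) * Real.exp 1

variable {β d0 γ Kc ε r : ℝ} {c : Coef} {v E : ℝ × ℝ → ℝ}

theorem poly_le_bigP (hβ : 0 < β) (hKc : 0 ≤ Kc) {a b c d : ℝ} (ha : a ≤ 100) (hb : b ≤ 100)
    (hc : c ≤ 100) (hd : d ≤ 100) (_ha0 : 0 ≤ a) (_hb0 : 0 ≤ b)
    (_hc0 : 0 ≤ c) (_hd0 : 0 ≤ d) :
    a + b * Kc ^ 2 + c * (1 / β) + d * Kc ^ 2 * (1 / β) ≤ 100 * (1 + Kc) ^ 2 * (1 + 1 / β) ∧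
    a + b * Kc ^ 2 + c * (1 / β) + d * Kc ^ 2 * (1 / β) ≤ bigP β Kc := by
  have hu : 0 ≤ 1 / β := by positivity
  have h : a + b * Kc ^ 2 + c * (1 / β) + d * Kc ^ 2 * (1 / β) ≤
      100 * (1 + Kc) ^ 2 * (1 + 1 / β) := by
    linarith [mul_le_mul_of_nonneg_right hb (sq_nonneg Kc), mul_le_mul_of_nonneg_right hc hu,
      mul_le_mul_of_nonneg_right hd (mul_nonneg (sq_nonneg Kc) hu), mul_nonneg hKc hu]
  exact ⟨h, h.trans (le_mul_of_one_le_right (by positivity) (Real.one_le_exp zero_le_one))⟩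

theorem bigP_nonneg (hβ : 0 < β) : 0 ≤ bigP β Kc := by unfold bigP; positivity

/-- The first LEFT step. -/
noncomputable def th1 (β : ℝ) : ℝ × ℝ → ℝ :=
  fallP (lam * Real.sqrt β / 2) (-(3 * lam * Real.sqrt β / 2))

/-- The second LEFT step. -/
noncomputable def th2 (β : ℝ) : ℝ × ℝ → ℝ :=
  fallP (lam * Real.sqrt β / 2) (-(5 * lam * Real.sqrt β / 2))

/-- The weight of TRAPEZOID with its band. -/
noncomputable def tbw (β r : ℝ) (q : ℝ × ℝ) : ℝ :=
  trap (Real.sqrt β) r q + bandW (Real.sqrt β) r q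

theorem tbw_nonneg (hr : 0 < r) (q : ℝ × ℝ) : 0 ≤ tbw β r q :=
  add_nonneg trap_nonneg (bandW_nonneg hr)

theorem tbw_continuous : Continuous (tbw β r) := trap_contDiff.continuous.add bandW_continuous

theorem lam_sqrt_pos (hβ : 0 < β) : 0 < lam * Real.sqrt β := by
  have : (0 : ℝ) < lam := by norm_num [lam]
  have := Real.sqrt_pos.2 hβ
  positivity

theorem th2_le_th1 (hβ : 0 < β) (q : ℝ × ℝ) : th2 β q ≤ th1 β q := by
  have := lam_sqrt_pos hβ
  exact step_antitone (div_le_div_of_nonneg_right (by linarith) (by linarith))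

theorem trap_le_exp (hβ : 0 < β) {q : ℝ × ℝ} (hq : InTrap (Real.sqrt β) r q) :
    trap (Real.sqrt β) r q ≤ Real.exp 1 := by
  have hs0 := Real.sqrt_pos.2 hβ
  set s := Real.sqrt β
  have he : expW s q ≤ Real.exp 1 := Real.exp_le_exp.2 ((div_le_one hs0).2 (by
    have := hq.1; rw [show lam = 1 / 200 from rfl] at this; linarith))
  refine le_trans ?_ he
  have r1 := (fallP_mem (h := lam * s / 4) (x₀ := -(7 * lam * s / 2)) (q := q))
  have hr0 : rise s q ≤ 1 := by simp only [rise]; linarith [r1.1]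
  have hr2 : 0 ≤ rise s q := by simp only [rise]; linarith [r1.2]
  calc trap s r q ≤ 1 * 1 * 1 * expW s q := by
        refine mul_le_mul_of_nonneg_right (mul_le_mul (mul_le_mul (step_mem _).2 hr0 hr2
          zero_le_one) (step_mem _).2 (step_mem _).1 (by norm_num)) (Real.exp_pos _).le
    _ = _ := by ring

/-- What is provided by `left_level`. -/
def LeftBound (β h Kc K : ℝ) : Prop :=
  ∀ (c : Coef) (w : ℝ × ℝ → ℝ) (x₀ γ : ℝ) (W : ℝ × ℝ → ℝ),
    c.Smooth → ContDiff ℝ 2 w → HasCompactSupport w → Integrable W → (∀ q, 0 ≤ W q) →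
    (∀ q ∈ tsupport w, q.1 ≤ x₀ + h →
      c.Bd Kc q ∧ |c.a q| ≤ 2 * β ∧ |c.et q| ≤ lam * β / 40 ∧ |c.d q| ≤ γ ∧
      c.g q - dp c.a q / 2 - dy c.d q ≤ -(lam * β * Real.sqrt β) ∧
      c.op w q ^ 2 + w q ^ 2 + γ ^ 2 * dp w q ^ 2 ≤ W q) →
    ∫ q, fallP h x₀ q * en β w q ≤ K * ∫ q, W q

/-- What is provided by `trap_level`. -/
def TrapBound (β K : ℝ) : Prop :=
  ∀ (c : Coef) (w : ℝ × ℝ → ℝ) (r : ℝ) (W : ℝ × ℝ → ℝ),
    0 < r → c.Smooth → ContDiff ℝ 2 w → HasCompactSupport w → Integrable W → (∀ q, 0 ≤ W q) →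
    (∀ q ∈ tsupport w, InTrap (Real.sqrt β) r q →
      c.a q ≤ -(7 / 10 * β) ∧ |c.a q| ≤ 2 * β ∧ |c.g q| ≤ 8 * β ∧ |dp c.a q| ≤ 8 * β ∧
      |dy c.d q| ≤ β ∧ |c.et q| ≤ β ∧ |c.d q| ≤ Real.sqrt β / 5 ∧
      trap (Real.sqrt β) r q * (c.op w q ^ 2 + (c.ze q * w q) ^ 2)
        + fallP (lam * Real.sqrt β / 2) (-(5 * lam * Real.sqrt β / 2)) q * en β w q ≤ W q) →
    ∫ q, (trap (Real.sqrt β) r q + bandW (Real.sqrt β) r q) * en β w q ≤ K * ∫ q, W q

/-- The standing assumptions of the chain. -/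
structure ChainHyp (β d0 γ Kc r : ℝ) : Prop where
  hβ : 0 < β
  hβ1 : β ≤ 1 / 10000
  hKc : 0 ≤ Kc
  hd0 : d0 ≤ 1 / 20000
  hγ : γ ≤ lam * β * Real.sqrt β / 100
  hr : 0 < r
  hr1 : r ≤ lam * Real.sqrt β / 4

theorem SideHyp.compact (H : SideHyp β d0 γ Kc ε r c v E) : HasCompactSupport v :=
  HasCompactSupport.of_support_subset_isCompact
    (isCompact_Icc.prod isCompact_Icc : IsCompact (Set.Icc (-2 : ℝ) 2 ×ˢ Set.Icc (-2 : ℝ) 2))
    fun q hq => by
      have h := H.hvs q (subset_tsupport v hq)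
      exact Set.mk_mem_prod
        (Set.mem_Icc.2 ⟨by nlinarith [sq_nonneg q.2], by nlinarith [sq_nonneg q.2]⟩)
        (Set.mem_Icc.2 ⟨by nlinarith [sq_nonneg q.1], by nlinarith [sq_nonneg q.1]⟩)

theorem tsupport_dp_le (f : ℝ × ℝ → ℝ) : tsupport (dp f) ⊆ tsupport f :=
  tsupport_fderiv_apply_subset ℝ _

theorem left_one {KL : ℝ}
    (left : LeftBound β (lam * Real.sqrt β / 2) (5 * Kc + 4) KL) (C : ChainHyp β d0 γ Kc r)
    (H : SideHyp β d0 γ Kc ε r c v E) :
    ∫ q, th1 β q * en β (dp v) q ≤ KL * (bigP β Kc * ((∫ q, boxInd q) * ε ^ 2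
      + (∫ q, en β v q) + γ ^ 2 * ∫ q, en β (dp v) q)) := by
  have hβ := C.hβ
  obtain ⟨-, hc1, -⟩ := H.smooth
  have hs := H.compact
  have s1 : HasCompactSupport (dp v) := hasCompactSupport_dp hs
  have w1 : ContDiff ℝ 3 (dp v) := contDiff_dp H.hv (by norm_num)
  have ib := boxInd_integrable.mul_const (ε ^ 2)
  have iv := integrable_en (β := β) (H.hv.of_le (by norm_num)) hs
  have i1 := integrable_en (β := β) (w1.of_le (by norm_num)) s1
  have hP : 0 ≤ bigP β Kc := bigP_nonneg hβ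
  refine (left c.next (dp v) (-(3 * lam * Real.sqrt β / 2)) γ
    (fun q => bigP β Kc * (boxInd q * ε ^ 2 + en β v q + γ ^ 2 * en β (dp v) q))
    hc1 (w1.of_le (by norm_num)) s1 (((ib.fun_add iv).fun_add (i1.const_mul _)).const_mul _)
    (fun q => mul_nonneg hP (by
      have := boxInd_nonneg q; have := en_nonneg (w := v) hβ.le q
      have := en_nonneg (w := dp v) hβ.le q
      positivity)) ?_).trans (le_of_eq ?_)
  · intro q hq hp
    have hqv := tsupport_dp_le v hq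
    have hls := lam_sqrt_pos hβ
    have hp' : q.1 ≤ -(lam * Real.sqrt β) := by linarith
    obtain ⟨hb, -, ha, he, -, hd, hG, -⟩ := H.farFacts hβ C.hβ1 C.hKc C.hd0 C.hγ hqv hp'
    refine ⟨hb, ha, he, hd, hG, ?_⟩
    obtain ⟨f0, -, -, f1, -⟩ := H.rhs hqv (by linarith [C.hr1])
    obtain ⟨u1, u2⟩ := en_parts hβ v q
    obtain ⟨-, u4⟩ := en_parts hβ (dp v) q
    rw [f0, one_mul]
    have t1 := mul_le_mul_of_nonneg_right (poly_le_bigP (β := β) (Kc := Kc) hβ C.hKc (a := 4) (b := 0)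
      (c := 0) (d := 0) (by norm_num) (by norm_num) (by norm_num) (by norm_num) (by norm_num)
      le_rfl le_rfl le_rfl).2 (sq_nonneg ε)
    have t2 := mul_le_mul_of_nonneg_right (poly_le_bigP (β := β) (Kc := Kc) hβ C.hKc (a := 0) (b := 4)
      (c := 1) (d := 0) (by norm_num) (by norm_num) (by norm_num) (by norm_num) le_rfl
      (by norm_num) (by norm_num) le_rfl).2 (en_nonneg (w := v) hβ.le q)
    have t3 := mul_le_mul_of_nonneg_right (poly_le_bigP (β := β) (Kc := Kc) hβ C.hKc (a := 0) (b := 0)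
      (c := 1) (d := 0) (by norm_num) (by norm_num) (by norm_num) (by norm_num) le_rfl le_rfl
      (by norm_num) le_rfl).2 (mul_nonneg (sq_nonneg γ) (en_nonneg (w := dp v) hβ.le q))
    linarith [mul_le_mul_of_nonneg_left u1 (by positivity : 0 ≤ 4 * Kc ^ 2),
      mul_le_mul_of_nonneg_left u4 (sq_nonneg γ)]
  · rw [integral_const_mul, integral_add (ib.fun_add iv) (i1.const_mul _), integral_add ib iv,
      integral_mul_const, integral_const_mul]

theorem left_two {KL : ℝ}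
    (left : LeftBound β (lam * Real.sqrt β / 2) (5 * Kc + 4) KL) (C : ChainHyp β d0 γ Kc r)
    (H : SideHyp β d0 γ Kc ε r c v E) :
    ∫ q, th2 β q * en β (dp (dp v)) q ≤ KL * (bigP β Kc * ((∫ q, boxInd q) * ε ^ 2
      + (∫ q, en β v q) + (∫ q, th1 β q * en β (dp v) q)
      + γ ^ 2 * ∫ q, en β (dp (dp v)) q)) := by
  have hβ := C.hβ
  obtain ⟨-, -, hc2⟩ := H.smooth
  have hs := H.compact
  have s1 : HasCompactSupport (dp v) := hasCompactSupport_dp hs
  have s2 : HasCompactSupport (dp (dp v)) := hasCompactSupport_dp s1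
  have w1 : ContDiff ℝ 3 (dp v) := contDiff_dp H.hv (by norm_num)
  have w2 : ContDiff ℝ 2 (dp (dp v)) := contDiff_dp w1 (by norm_num)
  have ib := boxInd_integrable.mul_const (ε ^ 2)
  have iv := integrable_en (β := β) (H.hv.of_le (by norm_num)) hs
  have it1 := integrable_mul_en (β := β) (θ := th1 β) (fallP_contDiff (n := 0)).continuous
    (w1.of_le (by norm_num)) s1
  have i2 := integrable_en (β := β) (w2.of_le one_le_two) s2
  have hP : 0 ≤ bigP β Kc := bigP_nonneg hβ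
  refine (left c.next.next (dp (dp v)) (-(5 * lam * Real.sqrt β / 2)) γ
    (fun q => bigP β Kc * (boxInd q * ε ^ 2 + en β v q + th1 β q * en β (dp v) q
      + γ ^ 2 * en β (dp (dp v)) q))
    hc2 w2 s2 ((((ib.fun_add iv).fun_add it1).fun_add (i2.const_mul _)).const_mul _)
    (fun q => mul_nonneg hP (by
      have := boxInd_nonneg q; have := en_nonneg (w := v) hβ.le q
      have := mul_nonneg (fallP_mem (h := lam * Real.sqrt β / 2)
        (x₀ := -(3 * lam * Real.sqrt β / 2)) (q := q)).1 (en_nonneg (w := dp v) hβ.le q)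
      have := en_nonneg (w := dp (dp v)) hβ.le q
      unfold th1
      positivity)) ?_).trans (le_of_eq ?_)
  · intro q hq hp
    have hqv := tsupport_dp_le v (tsupport_dp_le (dp v) hq)
    have hls := lam_sqrt_pos hβ
    have hp' : q.1 ≤ -(lam * Real.sqrt β) := by linarith
    obtain ⟨-, hb, ha, -, he, hd, -, hG⟩ := H.farFacts hβ C.hβ1 C.hKc C.hd0 C.hγ hqv hp'
    refine ⟨hb, ha, he, hd, hG, ?_⟩
    obtain ⟨f0, -, -, -, -, f2⟩ := H.rhs hqv (by linarith [C.hr1])
    obtain ⟨u1, u2⟩ := en_parts hβ v q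
    obtain ⟨u3, u4⟩ := en_parts hβ (dp v) q
    obtain ⟨-, u6⟩ := en_parts hβ (dp (dp v)) q
    rw [f0, one_mul, show th1 β q = 1 from fallP_eq_one (by linarith) (by linarith), one_mul]
    have t1 := mul_le_mul_of_nonneg_right (poly_le_bigP (β := β) (Kc := Kc) hβ C.hKc (a := 4) (b := 0)
      (c := 0) (d := 0) (by norm_num) (by norm_num) (by norm_num) (by norm_num) (by norm_num)
      le_rfl le_rfl le_rfl).2 (sq_nonneg ε)
    have t2 := mul_le_mul_of_nonneg_right (poly_le_bigP (β := β) (Kc := Kc) hβ C.hKc (a := 0) (b := 4)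
      (c := 0) (d := 4) (by norm_num) (by norm_num) (by norm_num) (by norm_num) le_rfl
      (by norm_num) le_rfl (by norm_num)).2 (en_nonneg (w := v) hβ.le q)
    have t3 := mul_le_mul_of_nonneg_right (poly_le_bigP (β := β) (Kc := Kc) hβ C.hKc (a := 0) (b := 64)
      (c := 1) (d := 0) (by norm_num) (by norm_num) (by norm_num) (by norm_num) le_rfl
      (by norm_num) (by norm_num) le_rfl).2 (en_nonneg (w := dp v) hβ.le q)
    have t4 := mul_le_mul_of_nonneg_right (poly_le_bigP (β := β) (Kc := Kc) hβ C.hKc (a := 0) (b := 0)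
      (c := 1) (d := 0) (by norm_num) (by norm_num) (by norm_num) (by norm_num) le_rfl le_rfl
      (by norm_num) le_rfl).2 (mul_nonneg (sq_nonneg γ) (en_nonneg (w := dp (dp v)) hβ.le q))
    linarith [mul_le_mul_of_nonneg_left u1 (by positivity : 0 ≤ 4 * Kc ^ 2),
      mul_le_mul_of_nonneg_left u2 (by positivity : 0 ≤ 4 * Kc ^ 2),
      mul_le_mul_of_nonneg_left u3 (by positivity : 0 ≤ 64 * Kc ^ 2),
      mul_le_mul_of_nonneg_left u6 (sq_nonneg γ)]
  · rw [integral_const_mul, integral_add ((ib.fun_add iv).fun_add it1) (i2.const_mul _),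
      integral_add (ib.fun_add iv) it1, integral_add ib iv, integral_mul_const,
      integral_const_mul]

theorem trap_zero {KT : ℝ} (trapz : TrapBound β KT) (C : ChainHyp β d0 γ Kc r)
    (H : SideHyp β d0 γ Kc ε r c v E) :
    ∫ q, tbw β r q * en β v q ≤ KT * (bigP β Kc * ((∫ q, boxInd q) * ε ^ 2
      + (∫ q, en β v q))) := by
  have hβ := C.hβ
  obtain ⟨hc0, -, -⟩ := H.smooth
  have hs := H.compact
  have v2 : ContDiff ℝ 2 v := H.hv.of_le (by norm_num)
  have ib := boxInd_integrable.mul_const (ε ^ 2)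
  have iv := integrable_en (β := β) (v2.of_le one_le_two) hs
  have hP : 0 ≤ bigP β Kc := bigP_nonneg hβ
  refine (trapz c v r (fun q => bigP β Kc * (boxInd q * ε ^ 2 + en β v q)) C.hr hc0 v2 hs
    ((ib.fun_add iv).const_mul _) (fun q => mul_nonneg hP (by
      have := boxInd_nonneg q; have := en_nonneg (w := v) hβ.le q; positivity)) ?_).trans
    (le_of_eq ?_)
  · intro q hq hT
    obtain ⟨⟨h1, h2, h3, h4, h5⟩, ⟨hg, -, -⟩, he, -, -⟩ :=
      H.trapFacts hβ C.hβ1 C.hd0 C.hγ C.hr hq hT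
    refine ⟨h1, h2, hg, h3, h4, he, h5, ?_⟩
    obtain ⟨f0, f1, -⟩ := H.rhs hq (by linarith [hT.2.1, C.hr])
    obtain ⟨k1, k2⟩ := poly_le_bigP (β := β) (Kc := Kc) hβ C.hKc (a := 1) (b := 0) (c := 0)
      (d := 0) (by norm_num) (by norm_num) (by norm_num) (by norm_num) zero_le_one le_rfl le_rfl
      le_rfl
    rw [show c.ze q = 0 by rw [H.hze], f0, one_mul]
    have he1 : Real.exp 1 ≤ bigP β Kc := by
      rw [bigP]; exact le_mul_of_one_le_left (Real.exp_pos 1).le (by linarith)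
    have t1 : trap (Real.sqrt β) r q * (c.op v q ^ 2 + (0 * v q) ^ 2) ≤ bigP β Kc * ε ^ 2 :=
      mul_le_mul ((trap_le_exp hβ hT).trans he1) (by rw [zero_mul]; linarith) (by positivity) hP
    have t2 := mul_le_mul_of_nonneg_right
      ((fallP_mem (h := lam * Real.sqrt β / 2) (x₀ := -(5 * lam * Real.sqrt β / 2)) (q := q)).2.trans
        (by linarith : (1 : ℝ) ≤ bigP β Kc)) (en_nonneg (w := v) hβ.le q)
    linarith
  · rw [integral_const_mul, integral_add ib iv, integral_mul_const]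

theorem trap_one {KT : ℝ} (trapz : TrapBound β KT) (C : ChainHyp β d0 γ Kc r)
    (H : SideHyp β d0 γ Kc ε r c v E) :
    ∫ q, tbw β r q * en β (dp v) q ≤ KT * (bigP β Kc * ((∫ q, boxInd q) * ε ^ 2
      + (∫ q, en β v q) + ∫ q, th1 β q * en β (dp v) q)) := by
  have hβ := C.hβ
  obtain ⟨-, hc1, -⟩ := H.smooth
  have hs := H.compact
  have s1 : HasCompactSupport (dp v) := hasCompactSupport_dp hs
  have w1 : ContDiff ℝ 3 (dp v) := contDiff_dp H.hv (by norm_num)
  have ib := boxInd_integrable.mul_const (ε ^ 2)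
  have iv := integrable_en (β := β) (H.hv.of_le (by norm_num)) hs
  have it1 := integrable_mul_en (β := β) (θ := th1 β) (fallP_contDiff (n := 0)).continuous
    (w1.of_le (by norm_num)) s1
  have hP : 0 ≤ bigP β Kc := bigP_nonneg hβ
  have h1n : ∀ q, 0 ≤ th1 β q * en β (dp v) q := fun q =>
    mul_nonneg fallP_mem.1 (en_nonneg hβ.le q)
  refine (trapz c.next (dp v) r
    (fun q => bigP β Kc * (boxInd q * ε ^ 2 + en β v q + th1 β q * en β (dp v) q)) C.hr hc1
    (w1.of_le (by norm_num)) s1 (((ib.fun_add iv).fun_add it1).const_mul _)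
    (fun q => mul_nonneg hP (by
      have := boxInd_nonneg q; have := en_nonneg (w := v) hβ.le q; have := h1n q
      positivity)) ?_).trans (le_of_eq ?_)
  · intro q hq hT
    have hqv := tsupport_dp_le v hq
    obtain ⟨⟨h1, h2, h3, h4, h5⟩, ⟨-, hg, -⟩, -, he, -⟩ :=
      H.trapFacts hβ C.hβ1 C.hd0 C.hγ C.hr hqv hT
    refine ⟨h1, h2, hg, h3, h4, he, h5, ?_⟩
    obtain ⟨f0, -, fz, f1, -⟩ := H.rhs hqv (by linarith [hT.2.1, C.hr])
    obtain ⟨u1, u2⟩ := en_parts hβ v q
    obtain ⟨k1, -⟩ := poly_le_bigP (β := β) (Kc := Kc) hβ C.hKc (a := 4) (b := 0) (c := 0)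
      (d := 0) (by norm_num) (by norm_num) (by norm_num) (by norm_num) (by norm_num) le_rfl le_rfl
      le_rfl
    obtain ⟨k2, k3⟩ := poly_le_bigP (β := β) (Kc := Kc) hβ C.hKc (a := 1) (b := 4) (c := 0)
      (d := 1) (by norm_num) (by norm_num) (by norm_num) (by norm_num) zero_le_one (by norm_num)
      le_rfl zero_le_one
    rw [f0, one_mul]
    have hsum : c.next.op (dp v) q ^ 2 + (c.next.ze q * dp v q) ^ 2 ≤
        100 * (1 + Kc) ^ 2 * (1 + 1 / β) * (ε ^ 2 + en β v q) := by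
      linarith [mul_le_mul_of_nonneg_right k1 (sq_nonneg ε),
        mul_le_mul_of_nonneg_right k2 (en_nonneg (w := v) hβ.le q),
        mul_le_mul_of_nonneg_left u1 (by positivity : 0 ≤ 4 * Kc ^ 2),
        mul_le_mul_of_nonneg_left u2 (sq_nonneg Kc), en_nonneg (w := v) hβ.le q]
    have t1 := mul_le_mul (trap_le_exp hβ hT) hsum (by positivity) (Real.exp_pos 1).le
    have hk : (0 : ℝ) ≤ 4 * Kc ^ 2 + 1 * Kc ^ 2 * (1 / β) := by positivity
    have t2 : th2 β q * en β (dp v) q ≤ bigP β Kc * (th1 β q * en β (dp v) q) :=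
      (mul_le_mul_of_nonneg_right (th2_le_th1 hβ q) (en_nonneg hβ.le q)).trans
        (le_mul_of_one_le_left (h1n q) (by linarith))
    unfold th2 at t2
    unfold bigP at t2 ⊢
    linarith
  · rw [integral_const_mul, integral_add (ib.fun_add iv) it1, integral_add ib iv,
      integral_mul_const]

theorem trap_two {KT : ℝ} (trapz : TrapBound β KT) (C : ChainHyp β d0 γ Kc r)
    (H : SideHyp β d0 γ Kc ε r c v E) :
    ∫ q, tbw β r q * en β (dp (dp v)) q ≤ KT * (bigP β Kc * ((∫ q, boxInd q) * ε ^ 2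
      + (∫ q, en β v q) + (∫ q, tbw β r q * en β (dp v) q)
      + ∫ q, th2 β q * en β (dp (dp v)) q)) := by
  have hβ := C.hβ
  obtain ⟨-, -, hc2⟩ := H.smooth
  have hs := H.compact
  have s1 : HasCompactSupport (dp v) := hasCompactSupport_dp hs
  have s2 : HasCompactSupport (dp (dp v)) := hasCompactSupport_dp s1
  have w1 : ContDiff ℝ 3 (dp v) := contDiff_dp H.hv (by norm_num)
  have w2 : ContDiff ℝ 2 (dp (dp v)) := contDiff_dp w1 (by norm_num)
  have ib := boxInd_integrable.mul_const (ε ^ 2)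
  have iv := integrable_en (β := β) (H.hv.of_le (by norm_num)) hs
  have itr := integrable_mul_en (β := β) (θ := tbw β r) tbw_continuous
    (w1.of_le (by norm_num)) s1
  have it2 := integrable_mul_en (β := β) (θ := th2 β) (fallP_contDiff (n := 0)).continuous
    (w2.of_le one_le_two) s2
  have hP : 0 ≤ bigP β Kc := bigP_nonneg hβ
  have h2n : ∀ q, 0 ≤ th2 β q * en β (dp (dp v)) q := fun q =>
    mul_nonneg fallP_mem.1 (en_nonneg hβ.le q)
  refine (trapz c.next.next (dp (dp v)) r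
    (fun q => bigP β Kc * (boxInd q * ε ^ 2 + en β v q + tbw β r q * en β (dp v) q
      + th2 β q * en β (dp (dp v)) q)) C.hr hc2 w2 s2
    ((((ib.fun_add iv).fun_add itr).fun_add it2).const_mul _)
    (fun q => mul_nonneg hP (by
      have := boxInd_nonneg q; have := en_nonneg (w := v) hβ.le q; have := h2n q
      have := mul_nonneg (tbw_nonneg (β := β) C.hr q) (en_nonneg (w := dp v) hβ.le q)
      positivity)) ?_).trans (le_of_eq ?_)
  · intro q hq hT
    have hqv := tsupport_dp_le v (tsupport_dp_le (dp v) hq)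
    obtain ⟨⟨h1, h2, h3, h4, h5⟩, ⟨-, -, hg⟩, -, -, he⟩ :=
      H.trapFacts hβ C.hβ1 C.hd0 C.hγ C.hr hqv hT
    refine ⟨h1, h2, hg, h3, h4, he, h5, ?_⟩
    obtain ⟨f0, -, -, -, fz, f2⟩ := H.rhs hqv (by linarith [hT.2.1, C.hr])
    obtain ⟨u1, u2⟩ := en_parts hβ v q
    obtain ⟨u3, u4⟩ := en_parts hβ (dp v) q
    obtain ⟨k1, -⟩ := poly_le_bigP (β := β) (Kc := Kc) hβ C.hKc (a := 4) (b := 0) (c := 0)
      (d := 0) (by norm_num) (by norm_num) (by norm_num) (by norm_num) (by norm_num) le_rfl le_rfl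
      le_rfl
    obtain ⟨k2, -⟩ := poly_le_bigP (β := β) (Kc := Kc) hβ C.hKc (a := 1) (b := 4) (c := 0)
      (d := 4) (by norm_num) (by norm_num) (by norm_num) (by norm_num) zero_le_one (by norm_num)
      le_rfl (by norm_num)
    obtain ⟨k3, k4⟩ := poly_le_bigP (β := β) (Kc := Kc) hβ C.hKc (a := 1) (b := 64) (c := 0)
      (d := 9) (by norm_num) (by norm_num) (by norm_num) (by norm_num) zero_le_one (by norm_num)
      le_rfl (by norm_num)
    rw [f0, one_mul]
    set S := 100 * (1 + Kc) ^ 2 * (1 + 1 / β) with hS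
    have ee := en_nonneg (w := v) hβ.le q
    have ee1 := en_nonneg (w := dp v) hβ.le q
    have hsum : c.next.next.op (dp (dp v)) q ^ 2 + (c.next.next.ze q * dp (dp v) q) ^ 2 ≤
        S * (ε ^ 2 + en β v q) + S * en β (dp v) q := by
      linarith [mul_le_mul_of_nonneg_right k1 (sq_nonneg ε), mul_le_mul_of_nonneg_right k2 ee,
        mul_le_mul_of_nonneg_right k3 ee1,
        mul_le_mul_of_nonneg_left u1 (by positivity : 0 ≤ 4 * Kc ^ 2),
        mul_le_mul_of_nonneg_left u2 (by positivity : 0 ≤ 4 * Kc ^ 2),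
        mul_le_mul_of_nonneg_left u3 (by positivity : 0 ≤ 64 * Kc ^ 2),
        mul_le_mul_of_nonneg_left u4 (by positivity : 0 ≤ 9 * Kc ^ 2)]
    have hS0 : 0 ≤ S := by positivity
    have t0 : 0 ≤ trap (Real.sqrt β) r q := trap_nonneg
    have t2 := mul_le_mul_of_nonneg_left hsum t0
    have t3 := mul_le_mul_of_nonneg_right (trap_le_exp (r := r) hβ hT)
      (mul_nonneg hS0 (by positivity : 0 ≤ ε ^ 2 + en β v q))
    have hP' : bigP β Kc = S * Real.exp 1 := rfl
    have hb : trap (Real.sqrt β) r q ≤ tbw β r q := le_add_of_nonneg_right (bandW_nonneg C.hr)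
    have hk : (0 : ℝ) ≤ 64 * Kc ^ 2 + 9 * Kc ^ 2 * (1 / β) := by positivity
    have hSP : S ≤ bigP β Kc := by
      rw [hP']; exact le_mul_of_one_le_right hS0 (Real.one_le_exp zero_le_one)
    have t4 : trap (Real.sqrt β) r q * (S * en β (dp v) q) ≤
        bigP β Kc * (tbw β r q * en β (dp v) q) := by
      rw [mul_left_comm]
      exact mul_le_mul hSP (mul_le_mul_of_nonneg_right hb ee1) (mul_nonneg t0 ee1) hP
    have t5 : th2 β q * en β (dp (dp v)) q ≤ bigP β Kc * (th2 β q * en β (dp (dp v)) q) :=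
      le_mul_of_one_le_left (h2n q) (by linarith)
    unfold th2 at t5 ⊢
    rw [hP'] at t4 t5 ⊢
    linarith
  · rw [integral_const_mul, integral_add ((ib.fun_add iv).fun_add itr) it2,
      integral_add (ib.fun_add iv) itr, integral_add ib iv, integral_mul_const]

theorem band_pointwise (hβ : 0 < β) (hβ1 : β ≤ 1 / 10000) (hr : 0 < r)
    (hr1 : r ≤ lam * Real.sqrt β / 4) {q : ℝ × ℝ}
    (hq : q ∈ Set.Icc (-(7 * r)) (-(6 * r)) ×ˢ Set.Icc (-(3 / 10) : ℝ) (3 / 10)) :
    traceSq v q ≤ 2 * r / β *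
      (tbw β r q * en β v q + tbw β r q * en β (dp v) q + tbw β r q * en β (dp (dp v)) q) := by
  have hls := lam_sqrt_pos hβ
  obtain ⟨⟨p1, p2⟩, ⟨y1, y2⟩⟩ := Set.mem_prod.1 hq
  have hc : chi (Real.sqrt β) q = 1 := by
    refine step_eq_one ?_
    rw [phi, div_le_iff₀ (by norm_num)]
    have : q.1 / Real.sqrt β ≤ 0 :=
      div_nonpos_of_nonpos_of_nonneg (by linarith) (Real.sqrt_nonneg β)
    nlinarith
  have hri : rise (Real.sqrt β) q = 1 := by
    rw [rise, fallP_eq_zero (by linarith) (by linarith), sub_zero]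
  have hsl := half_le_slopeP (x₀ := -(13 * r / 2)) (q := q) hr
    (by rw [abs_le]; constructor <;> linarith)
  have he : 1 ≤ expW (Real.sqrt β) q :=
    Real.one_le_exp (div_nonneg (by linarith) (Real.sqrt_nonneg β))
  have hb : 1 ≤ 2 * r * tbw β r q := by
    have h1 : 1 / (2 * r) ≤ bandW (Real.sqrt β) r q := by
      rw [bandW, hc, hri, one_mul, one_mul]
      exact hsl.trans (le_mul_of_one_le_right (slopeP_nonneg hr) he)
    have h2 := h1.trans (le_add_of_nonneg_left (trap_nonneg (s := Real.sqrt β) (r := r) (q := q)))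
    rwa [div_le_iff₀' (by positivity)] at h2
  obtain ⟨u1, u2⟩ := en_parts hβ v q
  have hu : 1 ≤ 1 / β := by rw [one_le_div hβ]; linarith
  have v3 : ∀ w : ℝ × ℝ → ℝ, dy w q ^ 2 + dp w q ^ 2 ≤ 1 / β * en β w q := fun w => by
    rw [div_mul_eq_mul_div, one_mul, le_div_iff₀ hβ, en]
    nlinarith [sq_nonneg (dy w q), sq_nonneg (dp w q)]
  have e : ∀ w : ℝ × ℝ → ℝ, 1 / β * en β w q ≤ 2 * r / β * (tbw β r q * en β w q) := fun w => by
    have := mul_le_mul_of_nonneg_right hb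
      (mul_nonneg (by positivity : (0 : ℝ) ≤ 1 / β) (en_nonneg (w := w) hβ.le q))
    calc 1 / β * en β w q ≤ 2 * r * tbw β r q * (1 / β * en β w q) := by linarith
      _ = _ := by ring
  unfold traceSq
  linarith [e v, e (dp v), e (dp (dp v)), v3 v, v3 (dp v), v3 (dp (dp v))]

/-- Band traces on the left. -/
theorem band_traces_left (βm Kc : ℝ) (hβm : 0 < βm) (hKc : 0 ≤ Kc) :
    ∃ K, 0 ≤ K ∧ ∀ (β d0 γ ε r : ℝ) (c : Coef) (v E : ℝ × ℝ → ℝ),
      βm ≤ β → β ≤ 1 / 10000 →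
      d0 ≤ 1 / 20000 → γ ≤ lam * β * Real.sqrt β / 100 → 0 < r →
      r ≤ lam * Real.sqrt β / 4 → SideHyp β d0 γ Kc ε r c v E →
      ∫ q in Set.Icc (-(7 * r)) (-(6 * r)) ×ˢ Set.Icc (-(3 / 10) : ℝ) (3 / 10), traceSq v q ≤
        K * r * ((∫ q, en β v q) + ε ^ 2
          + γ ^ 2 * ((∫ q, en β (dp v) q) + ∫ q, en β (dp (dp v)) q)) := by
  have hlsm := lam_sqrt_pos hβm
  obtain ⟨KL, hKL, left0⟩ := left_level βm (lam * Real.sqrt βm / 2) (5 * Kc + 4) hβm (by linarith)
    (by linarith)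
  obtain ⟨KT, hKT, trap0⟩ := trap_level βm hβm
  set P := bigP βm Kc with hP'
  have hP : 0 ≤ P := bigP_nonneg hβm
  set V := ∫ q, boxInd q with hV'
  have hV : 0 ≤ V := integral_nonneg boxInd_nonneg
  refine ⟨2 / βm * (KT * P * (V + 1) + KT * P * (V + 1 + KL * P * (V + 2))
      + KT * P * (V + 1 + KT * P * (V + 1 + KL * P * (V + 2))
        + KL * P * (V + 2 + KL * P * (V + 2)))), by positivity,
    fun β d0 γ ε r c v E hβl hβ1 hd0 hγ hr hr1 H => ?_⟩
  have hβ : 0 < β := hβm.trans_le hβl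
  have hls := lam_sqrt_pos hβ
  have hl : lam * Real.sqrt β / 2 ≤ 1 := by
    have : Real.sqrt β ≤ 1 := by rw [Real.sqrt_le_iff]; constructor <;> linarith
    rw [show lam = 1 / 200 from rfl]; linarith
  have hhm : lam * Real.sqrt βm / 2 ≤ lam * Real.sqrt β / 2 := by
    have := mul_le_mul_of_nonneg_left (Real.sqrt_le_sqrt hβl)
      (by norm_num [lam] : (0 : ℝ) ≤ lam)
    linarith
  have left : LeftBound β (lam * Real.sqrt β / 2) (5 * Kc + 4) KL := left0 β _ hβl hhm hl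
  have trapz : TrapBound β KT := trap0 β hβl hβ1
  have hPP : bigP β Kc ≤ P := by
    rw [hP']; unfold bigP; gcongr
  have C : ChainHyp β d0 γ Kc r := ⟨hβ, hβ1, hKc, hd0, hγ, hr, hr1⟩
  set Q := (∫ q, en β v q) + ε ^ 2
    + γ ^ 2 * ((∫ q, en β (dp v) q) + ∫ q, en β (dp (dp v)) q) with hQ
  have G0n : (0 : ℝ) ≤ ∫ q, en β v q := integral_nonneg (en_nonneg hβ.le)
  have g1 : 0 ≤ γ ^ 2 * ∫ q, en β (dp v) q :=
    mul_nonneg (sq_nonneg γ) (integral_nonneg (en_nonneg hβ.le))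
  have g2 : 0 ≤ γ ^ 2 * ∫ q, en β (dp (dp v)) q :=
    mul_nonneg (sq_nonneg γ) (integral_nonneg (en_nonneg hβ.le))
  have hVε : 0 ≤ V * ε ^ 2 := mul_nonneg hV (sq_nonneg ε)
  have n1 : 0 ≤ ∫ q, th1 β q * en β (dp v) q :=
    integral_nonneg fun q => mul_nonneg fallP_mem.1 (en_nonneg hβ.le q)
  have n2 : 0 ≤ ∫ q, th2 β q * en β (dp (dp v)) q :=
    integral_nonneg fun q => mul_nonneg fallP_mem.1 (en_nonneg hβ.le q)
  have nw : ∀ w : ℝ × ℝ → ℝ, 0 ≤ ∫ q, tbw β r q * en β w q := fun w =>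
    integral_nonneg fun q => mul_nonneg (tbw_nonneg hr q) (en_nonneg hβ.le q)
  have hεV : V * ε ^ 2 ≤ V * Q := mul_le_mul_of_nonneg_left (by linarith) hV
  have L1 : ∫ q, th1 β q * en β (dp v) q ≤ KL * P * (V + 2) * Q := by
    refine (left_one left C H).trans ?_
    rw [show KL * P * (V + 2) * Q = KL * (P * (V * Q + 2 * Q)) by ring]
    refine mul_le_mul_of_nonneg_left (mul_le_mul hPP ?_ (by linarith [nw (dp v)]) hP) hKL
    linarith [sq_nonneg ε]
  have L2 : ∫ q, th2 β q * en β (dp (dp v)) q ≤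
      KL * P * (V + 2 + KL * P * (V + 2)) * Q := by
    refine (left_two left C H).trans ?_
    rw [show KL * P * (V + 2 + KL * P * (V + 2)) * Q
      = KL * (P * (V * Q + 2 * Q + KL * P * (V + 2) * Q)) by ring]
    refine mul_le_mul_of_nonneg_left (mul_le_mul hPP ?_ (by linarith [nw (dp v)]) hP) hKL
    linarith [sq_nonneg ε]
  have B0 : ∫ q, tbw β r q * en β v q ≤ KT * P * (V + 1) * Q := by
    refine (trap_zero trapz C H).trans ?_
    rw [show KT * P * (V + 1) * Q = KT * (P * (V * Q + Q)) by ring]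
    refine mul_le_mul_of_nonneg_left (mul_le_mul hPP ?_ (by linarith [nw (dp v)]) hP) hKT
    linarith [sq_nonneg ε]
  have B1 : ∫ q, tbw β r q * en β (dp v) q ≤ KT * P * (V + 1 + KL * P * (V + 2)) * Q := by
    refine (trap_one trapz C H).trans ?_
    rw [show KT * P * (V + 1 + KL * P * (V + 2)) * Q
      = KT * (P * (V * Q + Q + KL * P * (V + 2) * Q)) by ring]
    refine mul_le_mul_of_nonneg_left (mul_le_mul hPP ?_ (by linarith [nw (dp v)]) hP) hKT
    linarith [sq_nonneg ε]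
  have B2 : ∫ q, tbw β r q * en β (dp (dp v)) q ≤
      KT * P * (V + 1 + KT * P * (V + 1 + KL * P * (V + 2))
        + KL * P * (V + 2 + KL * P * (V + 2))) * Q := by
    refine (trap_two trapz C H).trans ?_
    rw [show KT * P * (V + 1 + KT * P * (V + 1 + KL * P * (V + 2))
        + KL * P * (V + 2 + KL * P * (V + 2))) * Q
      = KT * (P * (V * Q + Q + KT * P * (V + 1 + KL * P * (V + 2)) * Q
        + KL * P * (V + 2 + KL * P * (V + 2)) * Q)) by ring]
    refine mul_le_mul_of_nonneg_left (mul_le_mul hPP ?_ (by linarith [nw (dp v)]) hP) hKT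
    linarith [sq_nonneg ε]
  have hs := H.compact
  have w1 : ContDiff ℝ 3 (dp v) := contDiff_dp H.hv (by norm_num)
  have w2 : ContDiff ℝ 2 (dp (dp v)) := contDiff_dp w1 (by norm_num)
  have j0 := integrable_mul_en (β := β) (θ := tbw β r) tbw_continuous
    (H.hv.of_le (by norm_num)) hs
  have j1 := integrable_mul_en (β := β) (θ := tbw β r) tbw_continuous
    (w1.of_le (by norm_num)) (hasCompactSupport_dp hs)
  have j2 := integrable_mul_en (β := β) (θ := tbw β r) tbw_continuous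
    (w2.of_le one_le_two) (hasCompactSupport_dp (hasCompactSupport_dp hs))
  have key : ∫ q in Set.Icc (-(7 * r)) (-(6 * r)) ×ˢ Set.Icc (-(3 / 10) : ℝ) (3 / 10),
      traceSq v q ≤ ∫ q, 2 * r / β * (tbw β r q * en β v q + tbw β r q * en β (dp v) q
        + tbw β r q * en β (dp (dp v)) q) := by
    rw [← integral_indicator (measurableSet_Icc.prod measurableSet_Icc)]
    refine integral_mono_of_nonneg (Filter.Eventually.of_forall fun q => ?_)
      (((j0.fun_add j1).fun_add j2).const_mul _) (Filter.Eventually.of_forall fun q => ?_)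
    · exact Set.indicator_nonneg (fun q _ => by unfold traceSq; positivity) q
    · refine Set.indicator_le' (fun q hq => band_pointwise hβ hβ1 hr hr1 hq) (fun q _ => ?_) q
      have n : ∀ w : ℝ × ℝ → ℝ, 0 ≤ tbw β r q * en β w q := fun w =>
        mul_nonneg (tbw_nonneg hr q) (en_nonneg hβ.le q)
      have := n v; have := n (dp v); have := n (dp (dp v))
      positivity
  refine key.trans ?_
  rw [integral_const_mul, integral_add (j0.fun_add j1) j2, integral_add j0 j1]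
  calc 2 * r / β * ((∫ q, tbw β r q * en β v q) + (∫ q, tbw β r q * en β (dp v) q)
        + ∫ q, tbw β r q * en β (dp (dp v)) q)
      ≤ 2 * r / βm * (KT * P * (V + 1) * Q + KT * P * (V + 1 + KL * P * (V + 2)) * Q
        + KT * P * (V + 1 + KT * P * (V + 1 + KL * P * (V + 2))
          + KL * P * (V + 2 + KL * P * (V + 2))) * Q) :=
        mul_le_mul (div_le_div_of_nonneg_left (by linarith) hβm hβl) (by linarith)
          (by linarith [nw v, nw (dp v), nw (dp (dp v))]) (by positivity)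
    _ = _ := by ring

end Vale.Agent.P229.Est
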