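import Vale.Agent.P229.Est.Data

/-!
# P229: the statements that make up section 7

`Hyp` is the situation of the estimates with unit amplitude; `BandSpec` is the band trace bound;
`EstCore` is the contradiction.
-/

open MeasureTheory
open scoped ContDiff

namespace Vale.Agent.P229.Est

/-- The source with unit amplitude. -/
structure Src where
  c0 : ℝ × ℝ → ℝ
  c1 : ℝ × ℝ → ℝ
  c2 : ℝ × ℝ → ℝ
  c3 : ℝ × ℝ → ℝ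
  G : ℝ → ℝ

/-- The source for thickness `1 / R`. -/
noncomputable def Src.S (s : Src) (R : ℝ) (q : ℝ × ℝ) : ℝ :=
  term s.c0 (eta R) (deriv^[2] s.G) q + term s.c1 (eta R) (deriv s.G) q
    + term s.c2 (eta1 R) s.G q + term s.c3 (eta R) s.G q

/-- The size of the signal. -/
noncomputable def Src.Q (s : Src) : ℝ := A2 (deriv^[2] s.G)

/-- The hypotheses on the source. -/
structure Src.OK (s : Src) (C : ℝ) (N : ℕ) : Prop where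
  h0 : ContDiff ℝ 2 s.c0
  h1 : ContDiff ℝ 2 s.c1
  h2 : ContDiff ℝ 2 s.c2
  h3 : ContDiff ℝ 2 s.c3
  b0 : Bd2 s.c0 C
  b1 : Bd2 s.c1 C
  b2 : Bd2 s.c2 C
  b3 : Bd2 s.c3 C
  low : ∀ q ∈ Box, 1 / C ≤ s.c0 q
  hG : ContDiff ℝ ∞ s.G
  sG : SuppY s.G
  w0 : A2 s.G ≤ C / (N : ℝ) ^ 4 * s.Q
  w1 : A2 (deriv s.G) ≤ C / (N : ℝ) ^ 2 * s.Q
  w3 : A2 (deriv^[3] s.G) ≤ C * (N : ℝ) ^ 2 * s.Q
  w4 : A2 (deriv^[4] s.G) ≤ C * (N : ℝ) ^ 4 * s.Q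
  w2 : 1 / (C * (N : ℝ)) ≤ s.Q

/-- The situation of section 7 with amplitude one and thickness `N⁻⁴`. -/
structure Hyp (c : Coef) (s : Src) (v : ℝ × ℝ → ℝ) (β δ γ C ε : ℝ) (N : ℕ) : Prop where
  data : Data c β δ γ C
  src : s.OK C N
  hN : 80 ≤ N
  hv : ContDiff ℝ 4 v
  hs : tsupport v ⊆ Box
  hε : 0 ≤ ε
  err : ∀ q ∈ Box, |c.op v q - s.S ((N : ℝ) ^ 4) q| ≤ ε ∧
    |dp (c.op v - s.S ((N : ℝ) ^ 4)) q| ≤ ε ∧ |dp (dp (c.op v - s.S ((N : ℝ) ^ 4))) q| ≤ ε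

/-- The two bands beside the source. -/
def band (r : ℝ) : Set (ℝ × ℝ) := {q | 6 * r ≤ |q.1| ∧ |q.1| ≤ 7 * r ∧ |q.2| ≤ 3 / 10}

/-- The derivatives whose traces the test needs. -/
noncomputable def six (v : ℝ × ℝ → ℝ) (q : ℝ × ℝ) : ℝ :=
  dy v q ^ 2 + dp v q ^ 2 + dy (dp v) q ^ 2 + dp (dp v) q ^ 2 + dy (dp (dp v)) q ^ 2
    + dp (dp (dp v)) q ^ 2

/-- The band trace bound: the equation is free of the source for `r < |p|`. -/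
def BandSpec : Prop :=
  ∃ δ0 > 0, ∀ C : ℝ, 1 ≤ C → ∃ β0 > 0, ∀ βm : ℝ, 0 < βm → ∃ γ0 r0 K : ℝ, 0 < γ0 ∧ 0 < r0 ∧ 0 ≤ K ∧
    ∀ (β δ γ r ε : ℝ) (c : Coef) (v : ℝ × ℝ → ℝ), βm ≤ β → β ≤ β0 → δ ≤ δ0 → γ ≤ γ0 →
      0 < r → r ≤ r0 → 0 ≤ ε → Data c β δ γ C → ContDiff ℝ 4 v → tsupport v ⊆ Box →
      (∀ q ∈ Box, r < |q.1| →
        |c.op v q| ≤ ε ∧ |dp (c.op v) q| ≤ ε ∧ |dp (dp (c.op v)) q| ≤ ε) →
      ∫ q in band r, six v q ≤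
        K * r * (energy β v + ε ^ 2 + γ ^ 2 * (energy β (dp v) + energy β (dp (dp v))))

/-- The contradiction with amplitude one. -/
def EstCore : Prop :=
  ∃ δ0 > 0, ∀ C : ℝ, 1 ≤ C → ∃ β0 > 0, ∀ βm : ℝ, 0 < βm → ∃ N0 : ℕ, ∀ N : ℕ, N0 ≤ N →
    ∀ (β δ γ ε : ℝ) (c : Coef) (s : Src) (v : ℝ × ℝ → ℝ), βm ≤ β → β ≤ β0 → δ ≤ δ0 →
      γ ≤ C / (N : ℝ) ^ 32 → ε ≤ C / (N : ℝ) ^ 28 → Hyp c s v β δ γ C ε N → False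

end Vale.Agent.P229.Est
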