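import Vale.Agent.P229.Est.Reflect
import Vale.Agent.P229.Est.Core

/-!
# P229: the band trace bound in the form used by the test
-/

open MeasureTheory
open scoped ContDiff

namespace Vale.Agent.P229.Est

theorem mem_box {q : ℝ × ℝ} : q ∈ Box ↔ q.1 ^ 2 + q.2 ^ 2 < (3 / 2) ^ 2 := by
  show q.1 ^ 2 + q.2 ^ 2 < 9 / 4 ↔ _
  norm_num

theorem bandSpec : BandSpec := by
  refine ⟨1 / 40000, by norm_num, fun C hC => ⟨1 / 100000, by norm_num, fun βm hβm => ?_⟩⟩
  obtain ⟨K, hK, h⟩ := band_traces βm C hβm (by linarith)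
  have hlam : (0 : ℝ) < lam := by norm_num [lam]
  have hsm := Real.sqrt_pos.2 hβm
  refine ⟨lam * βm * Real.sqrt βm / 100, lam * Real.sqrt βm / 4, K, by positivity, by positivity, hK,
    fun β δ γ r ε c v hβl hβu hδ hγ hr hr0 _ D hv hs hE => ?_⟩
  have hβ : 0 < β := hβm.trans_le hβl
  have hsl := Real.sqrt_le_sqrt hβl
  have hγ' : γ ≤ lam * β * Real.sqrt β / 100 := hγ.trans (by gcongr)
  have hr' : r ≤ lam * Real.sqrt β / 4 := hr0.trans (by gcongr)
  have hop : ContDiff ℝ 2 (c.op v) := by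
    have := D.hd.of_le (show (2 : ℕ∞ω) ≤ 3 by norm_num)
    have := D.ha.of_le (show (2 : ℕ∞ω) ≤ 3 by norm_num)
    have := D.hg.of_le (show (2 : ℕ∞ω) ≤ 3 by norm_num)
    have := D.he.of_le (show (2 : ℕ∞ω) ≤ 3 by norm_num)
    have hp : ContDiff ℝ 3 (dp v) := contDiff_dp hv (by norm_num)
    have hy : ContDiff ℝ 3 (dy v) := contDiff_dy hv (by norm_num)
    have := hp.of_le (show (2 : ℕ∞ω) ≤ 3 by norm_num)
    have := hy.of_le (show (2 : ℕ∞ω) ≤ 3 by norm_num)
    have : ContDiff ℝ 2 (dy (dy v)) := contDiff_dy hy (by norm_num)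
    have : ContDiff ℝ 2 (dp (dy v)) := contDiff_dp hy (by norm_num)
    have : ContDiff ℝ 2 (dp (dp v)) := contDiff_dp hp (by norm_num)
    have : ContDiff ℝ 2 v := hv.of_le (by norm_num)
    unfold Coef.op; simp only [D.hz]; fun_prop
  refine h β (2 * δ) γ ε r c v (c.op v) hβl (by linarith) (by linarith) hγ' hr hr'
    { hd := D.hd
      ha := D.ha
      hg := D.hg
      het := D.he
      hze := D.hz
      hv := hv
      hvs := fun q hq => mem_box.1 (hs hq)
      hE := hop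
      bounds := fun q hq => ?_
      eqn := fun _ _ _ => rfl }
  have hqB : q ∈ Box := mem_box.2 hq
  have L := D.lvl
  have hδ0 := D.delta_nonneg
  have hC0 : 0 ≤ C := by linarith
  have hCβ : C * β ≤ C := mul_le_of_le_one_right hC0 (by linarith)
  have hγC : γ ≤ C := D.gle'.trans hCβ
  have hdb : 0 ≤ δ * β := mul_nonneg hδ0 hβ.le
  have hdw : 0 ≤ δ * β * (|q.1| + Real.sqrt β) := mul_nonneg hdb (by positivity)
  obtain ⟨s1, s2, s3, s4, -, -⟩ := D.sup q hqB
  obtain ⟨d1, d2, d3⟩ := L.dd q hqB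
  have hg0 := abs_le.1 (L.g0 q hqB)
  have hap := abs_le.1 (L.ap q hqB)
  refine ⟨⟨(L.a0 q hqB).trans (by linarith), (L.ap q hqB).trans (by linarith), ?_,
    (L.et0 q hqB).trans (by linarith)⟩, ⟨L.d0 q hqB, d1, d2⟩,
    ⟨s3, d3.trans hγC, (L.app q hqB).trans hCβ, (L.gp q hqB).trans hCβ, s4, s1,
      (L.ety q hqB).trans hCβ, s2⟩, hE q hqB⟩
  simp only [Nat.cast_zero, zero_add, one_mul] at hg0
  rw [abs_le]
  constructor <;> linarith


end Vale.Agent.P229.Est
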