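import Mathlib

/-!
# P229: coordinate derivatives and integration by parts on the plane

`dp` and `dy` are the two coordinate derivatives on `ℝ × ℝ`; `integral_div` says that a compactly
supported divergence has integral zero.
-/

open MeasureTheory
open scoped ContDiff

namespace Vale.Agent.P229.Est

/-- Derivative in the first coordinate. -/
noncomputable def dp (f : ℝ × ℝ → ℝ) (q : ℝ × ℝ) : ℝ := fderiv ℝ f q (1, 0)

/-- Derivative in the second coordinate. -/
noncomputable def dy (f : ℝ × ℝ → ℝ) (q : ℝ × ℝ) : ℝ := fderiv ℝ f q (0, 1)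

variable {f g : ℝ × ℝ → ℝ}

theorem contDiff_dp {n m : ℕ∞ω} (hf : ContDiff ℝ n f) (h : m + 1 ≤ n) : ContDiff ℝ m (dp f) :=
  (hf.fderiv_right h).clm_apply contDiff_const

theorem contDiff_dy {n m : ℕ∞ω} (hf : ContDiff ℝ n f) (h : m + 1 ≤ n) : ContDiff ℝ m (dy f) :=
  (hf.fderiv_right h).clm_apply contDiff_const

theorem hasCompactSupport_dp (hf : HasCompactSupport f) : HasCompactSupport (dp f) :=
  hf.fderiv_apply ℝ (1, 0)

theorem hasCompactSupport_dy (hf : HasCompactSupport f) : HasCompactSupport (dy f) :=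
  hf.fderiv_apply ℝ (0, 1)

theorem dp_add (hf : Differentiable ℝ f) (hg : Differentiable ℝ g) (q : ℝ × ℝ) :
    dp (f + g) q = dp f q + dp g q := by
  simp [dp, fderiv_add (hf q) (hg q)]

theorem dy_add (hf : Differentiable ℝ f) (hg : Differentiable ℝ g) (q : ℝ × ℝ) :
    dy (f + g) q = dy f q + dy g q := by
  simp [dy, fderiv_add (hf q) (hg q)]

theorem dp_sub (hf : Differentiable ℝ f) (hg : Differentiable ℝ g) (q : ℝ × ℝ) :
    dp (f - g) q = dp f q - dp g q := by
  simp [dp, fderiv_sub (hf q) (hg q)]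

theorem dy_sub (hf : Differentiable ℝ f) (hg : Differentiable ℝ g) (q : ℝ × ℝ) :
    dy (f - g) q = dy f q - dy g q := by
  simp [dy, fderiv_sub (hf q) (hg q)]

theorem dp_mul (hf : Differentiable ℝ f) (hg : Differentiable ℝ g) (q : ℝ × ℝ) :
    dp (f * g) q = dp f q * g q + f q * dp g q := by
  simp [dp, fderiv_mul (hf q) (hg q)]; ring

theorem dy_mul (hf : Differentiable ℝ f) (hg : Differentiable ℝ g) (q : ℝ × ℝ) :
    dy (f * g) q = dy f q * g q + f q * dy g q := by
  simp [dy, fderiv_mul (hf q) (hg q)]; ring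

theorem dp_smul (c : ℝ) (f : ℝ × ℝ → ℝ) (q : ℝ × ℝ) : dp (c • f) q = c * dp f q := by
  simp [dp, fderiv_const_smul_field]

theorem dy_smul (c : ℝ) (f : ℝ × ℝ → ℝ) (q : ℝ × ℝ) : dy (c • f) q = c * dy f q := by
  simp [dy, fderiv_const_smul_field]

@[simp] theorem dp_const (c : ℝ) (q : ℝ × ℝ) : dp (fun _ => c) q = 0 := by simp [dp]

@[simp] theorem dy_const (c : ℝ) (q : ℝ × ℝ) : dy (fun _ => c) q = 0 := by simp [dy]

/-- The mixed derivatives of a `C^2` function agree. -/
theorem dp_dy (hf : ContDiff ℝ 2 f) (q : ℝ × ℝ) : dp (dy f) q = dy (dp f) q := by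
  have hd : Differentiable ℝ (fderiv ℝ f) :=
    (hf.fderiv_right (m := 1) (by norm_num)).differentiable one_ne_zero
  have h := (hf.contDiffAt (x := q)).isSymmSndFDerivAt (by simp [minSmoothness_of_isRCLikeNormedField])
  unfold dp dy
  rw [fderiv_clm_apply (hd q) (differentiableAt_const _),
    fderiv_clm_apply (hd q) (differentiableAt_const _)]
  simpa using h (1, 0) (0, 1)

/-- A derivative of a compactly supported `C^1` function has integral zero. -/
theorem integral_fderiv_eq_zero (hf : ContDiff ℝ 1 f) (hs : HasCompactSupport f) (v : ℝ × ℝ) :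
    ∫ q, fderiv ℝ f q v = 0 := by
  have h := integral_mul_fderiv_eq_neg_fderiv_mul_of_integrable (μ := (volume : Measure (ℝ × ℝ)))
    (f := fun _ : ℝ × ℝ => (1 : ℝ)) (g := f) (v := v) (by simp) ?_ ?_
    (fun _ _ => differentiableAt_const _) (fun x _ => hf.differentiable one_ne_zero x)
  · simpa using h
  · simpa using ((hf.continuous_fderiv one_ne_zero).clm_apply continuous_const
      ).integrable_of_hasCompactSupport (hs.fderiv_apply ℝ v)
  · simpa using hf.continuous.integrable_of_hasCompactSupport hs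

theorem integrable_dp (hf : ContDiff ℝ 1 f) (hs : HasCompactSupport f) : Integrable (dp f) :=
  (contDiff_dp (m := 0) hf (by simp)).continuous.integrable_of_hasCompactSupport
    (hasCompactSupport_dp hs)

theorem integrable_dy (hf : ContDiff ℝ 1 f) (hs : HasCompactSupport f) : Integrable (dy f) :=
  (contDiff_dy (m := 0) hf (by simp)).continuous.integrable_of_hasCompactSupport
    (hasCompactSupport_dy hs)

/-- Two integrands differing by a compactly supported divergence have the same integral. -/
theorem integral_div {A B L R : ℝ × ℝ → ℝ} (hA : ContDiff ℝ 1 A) (hB : ContDiff ℝ 1 B)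
    (hAs : HasCompactSupport A) (hBs : HasCompactSupport B) (hR : Integrable R)
    (h : ∀ q, L q = R q + (dp A q + dy B q)) : ∫ q, L q = ∫ q, R q := by
  have hAi := integrable_dp hA hAs
  have hBi := integrable_dy hB hBs
  rw [integral_congr_ae (Filter.Eventually.of_forall h), integral_add hR (hAi.fun_add hBi),
    integral_add hAi hBi]
  unfold dp dy
  rw [integral_fderiv_eq_zero hA hAs, integral_fderiv_eq_zero hB hBs]
  simp

end Vale.Agent.P229.Est
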