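import Vale.Agent.P229.Est.Refined

/-!
# P229: crude energy bounds at the levels one and two

The equation is differentiated once and twice in `p`; the derivatives of the source are bounded
with no cancellation, which costs `R⁵ = N²⁰`.
-/

open MeasureTheory
open scoped ContDiff

namespace Vale.Agent.P229.Est

/-- Squares of a profile and of its first two derivatives. -/
noncomputable def profWgt (φ : ℝ → ℝ) (p : ℝ) : ℝ :=
  φ p ^ 2 + deriv φ p ^ 2 + deriv (deriv φ) p ^ 2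

theorem profWgt_nonneg (φ : ℝ → ℝ) (p : ℝ) : 0 ≤ profWgt φ p := by
  unfold profWgt; positivity

theorem integrable_sq_suppP {φ : ℝ → ℝ} (hφ : Continuous φ) (h : SuppP φ) :
    Integrable fun p => φ p ^ 2 :=
  (hφ.pow 2).integrable_of_hasCompactSupport (HasCompactSupport.intro
    (isCompact_Icc (a := (-1 / 10 : ℝ)) (b := 1 / 10)) fun p hp => by
      have : 1 / 10 < |p| := by
        by_contra h'; push Not at h'; rw [abs_le] at h'; exact hp ⟨by linarith [h'.1], h'.2⟩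
      simp [h p this])

theorem integrable_sq_suppY {Φ : ℝ → ℝ} (hΦ : Continuous Φ) (h : SuppY Φ) :
    Integrable fun y => Φ y ^ 2 :=
  (hΦ.pow 2).integrable_of_hasCompactSupport (HasCompactSupport.intro
    (isCompact_Icc (a := (-27 / 100 : ℝ)) (b := 27 / 100)) fun p hp => by
      have : 27 / 100 < |p| := by
        by_contra h'; push Not at h'; rw [abs_le] at h'; exact hp ⟨by linarith [h'.1], h'.2⟩
      simp [h p this])

/-- The weight of a rescaled profile `a u(Rp)`. -/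
theorem profWgt_scale {u φ : ℝ → ℝ} {a R P : ℝ} (hu : ContDiff ℝ ∞ u) (hR : 1 ≤ R)
    (hφ : φ = fun p => a * u (R * p)) (hs : SuppP φ) (h0 : (∫ x, u x ^ 2) ≤ P)
    (h1 : (∫ x, deriv u x ^ 2) ≤ P) (h2 : (∫ x, deriv^[2] u x ^ 2) ≤ P) :
    Integrable (profWgt φ) ∧ ∫ p, profWgt φ p ≤ 3 * (a ^ 2 * R ^ 3) * P := by
  have hR0 : 0 < R := by linarith
  have hu1 : ContDiff ℝ ∞ (deriv u) := (contDiff_infty_iff_deriv.1 hu).2
  have hu2 : ContDiff ℝ ∞ (deriv (deriv u)) := (contDiff_infty_iff_deriv.1 hu1).2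
  have e1 : deriv φ = fun p => a * R * deriv u (R * p) := by
    rw [hφ]; funext p
    rw [deriv_const_mul_field, deriv_comp_mul_left, smul_eq_mul]; ring
  have e2 : deriv (deriv φ) = fun p => a * R * R * deriv (deriv u) (R * p) := by
    rw [e1]; funext p
    rw [deriv_const_mul_field, deriv_comp_mul_left, smul_eq_mul]; ring
  have i0 : Integrable fun p => φ p ^ 2 :=
    integrable_sq_suppP (by rw [hφ]; exact continuous_const.mul (contDiff_scale hu R).continuous) hs
  have i1 : Integrable fun p => deriv φ p ^ 2 := integrable_sq_suppP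
    (by rw [e1]; exact continuous_const.mul (contDiff_scale hu1 R).continuous) hs.deriv
  have i2 : Integrable fun p => deriv (deriv φ) p ^ 2 := integrable_sq_suppP
    (by rw [e2]; exact continuous_const.mul (contDiff_scale hu2 R).continuous) hs.deriv.deriv
  refine ⟨(i0.add i1).add i2, ?_⟩
  have key : ∀ (b : ℝ) (w : ℝ → ℝ), ∫ p, (b * w (R * p)) ^ 2 = b ^ 2 * R⁻¹ * ∫ x, w x ^ 2 := by
    intro b w
    simp only [mul_pow]
    rw [integral_const_mul, int_sq_scale hR0, mul_assoc]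
  have hP : 0 ≤ P := le_trans (integral_nonneg fun x => sq_nonneg _) h0
  unfold profWgt
  rw [integral_add (i0.fun_add i1) i2, integral_add i0 i1, e2, e1, hφ, key, key, key]
  have k0 : a ^ 2 * R⁻¹ * ∫ x, u x ^ 2 ≤ a ^ 2 * R ^ 3 * P := by
    refine mul_le_mul (mul_le_mul_of_nonneg_left ?_ (sq_nonneg a)) h0
      (integral_nonneg fun x => sq_nonneg _) (by positivity)
    exact (inv_le_one_of_one_le₀ hR).trans (one_le_pow₀ hR)
  have k1 : (a * R) ^ 2 * R⁻¹ * ∫ x, deriv u x ^ 2 ≤ a ^ 2 * R ^ 3 * P := by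
    refine mul_le_mul ?_ h1 (integral_nonneg fun x => sq_nonneg _) (by positivity)
    rw [show (a * R) ^ 2 * R⁻¹ = a ^ 2 * R ^ 1 by field_simp]
    exact mul_le_mul_of_nonneg_left (pow_le_pow_right₀ hR (by norm_num)) (sq_nonneg a)
  have k2 : (a * R * R) ^ 2 * R⁻¹ * ∫ x, deriv (deriv u) x ^ 2 ≤ a ^ 2 * R ^ 3 * P := by
    refine mul_le_mul ?_ h2 (integral_nonneg fun x => sq_nonneg _) (by positivity)
    rw [show (a * R * R) ^ 2 * R⁻¹ = a ^ 2 * R ^ 3 by field_simp]
  linarith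

/-- Two `p`-derivatives of a separated product. -/
theorem dterm_sq {c : ℝ × ℝ → ℝ} {φ Φ : ℝ → ℝ} {M : ℝ} (hc : ContDiff ℝ 2 c) (hM : Bd2 c M)
    (hφ : ContDiff ℝ 2 φ) (hΦ : Differentiable ℝ Φ) {q : ℝ × ℝ} (hq : q ∈ Box) :
    dp (term c φ Φ) q ^ 2 ≤ 6 * M ^ 2 * (profWgt φ q.1 * Φ q.2 ^ 2) ∧
      dp (dp (term c φ Φ)) q ^ 2 ≤ 6 * M ^ 2 * (profWgt φ q.1 * Φ q.2 ^ 2) := by
  have kc := hc.differentiable two_ne_zero
  have kc1 : Differentiable ℝ (dp c) :=
    (contDiff_dp (m := 1) hc (by norm_num)).differentiable one_ne_zero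
  have kφ := hφ.differentiable two_ne_zero
  have kφ1 : Differentiable ℝ (deriv φ) :=
    (contDiff_succ_iff_deriv.1 (hφ : ContDiff ℝ (1 + 1) φ)).2.2.differentiable one_ne_zero
  have e : dp (term c φ Φ) = term (dp c) φ Φ + term c (deriv φ) Φ :=
    funext fun r => dp_term kc kφ hΦ r
  have t1 : Differentiable ℝ (term (dp c) φ Φ) := by unfold term; fun_prop
  have t2 : Differentiable ℝ (term c (deriv φ) Φ) := by unfold term; fun_prop
  obtain ⟨b0, bp, -, bpp, -, -⟩ := hM q hq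
  have s0 : c q ^ 2 ≤ M ^ 2 := by
    rw [← sq_abs]; exact pow_le_pow_left₀ (abs_nonneg _) b0 2
  have s1 : dp c q ^ 2 ≤ M ^ 2 := by
    rw [← sq_abs]; exact pow_le_pow_left₀ (abs_nonneg _) bp 2
  have s2 : dp (dp c) q ^ 2 ≤ M ^ 2 := by
    rw [← sq_abs]; exact pow_le_pow_left₀ (abs_nonneg _) bpp 2
  rw [e, dp_add t1 t2, dp_term kc1 kφ hΦ, dp_term kc kφ1 hΦ]
  simp only [term, profWgt, Pi.add_apply]
  set a := φ q.1; set b := deriv φ q.1; set d := deriv (deriv φ) q.1; set F := Φ q.2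
  have m0 := mul_le_mul_of_nonneg_right s0 (by positivity : 0 ≤ b ^ 2 * F ^ 2)
  have m0' := mul_le_mul_of_nonneg_right s0 (by positivity : 0 ≤ d ^ 2 * F ^ 2)
  have m1 := mul_le_mul_of_nonneg_right s1 (by positivity : 0 ≤ a ^ 2 * F ^ 2)
  have m1' := mul_le_mul_of_nonneg_right s1 (by positivity : 0 ≤ b ^ 2 * F ^ 2)
  have m2 := mul_le_mul_of_nonneg_right s2 (by positivity : 0 ≤ a ^ 2 * F ^ 2)
  have n0 : 0 ≤ M ^ 2 * (a ^ 2 * F ^ 2) := by positivity
  have n1 : 0 ≤ M ^ 2 * (b ^ 2 * F ^ 2) := by positivity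
  have n2 : 0 ≤ M ^ 2 * (d ^ 2 * F ^ 2) := by positivity
  constructor
  · linarith [sq_nonneg ((dp c q * a - c q * b) * F)]
  · linarith [sq_nonneg ((2 * (dp (dp c) q * a) - dp c q * b) * F),
      sq_nonneg ((dp (dp c) q * a - c q * d) * F),
      sq_nonneg ((2 * (c q * d) - dp c q * b) * F)]

/-- The weight of the `p`-derivatives of the source. -/
noncomputable def Src.wgt (s : Src) (R : ℝ) (q : ℝ × ℝ) : ℝ :=
  profWgt (eta R) q.1 * deriv^[2] s.G q.2 ^ 2 + profWgt (eta R) q.1 * deriv s.G q.2 ^ 2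
    + profWgt (eta1 R) q.1 * s.G q.2 ^ 2 + profWgt (eta R) q.1 * s.G q.2 ^ 2

theorem Src.wgt_nonneg (s : Src) (R : ℝ) (q : ℝ × ℝ) : 0 ≤ s.wgt R q := by
  have := profWgt_nonneg (eta R) q.1
  have := profWgt_nonneg (eta1 R) q.1
  unfold Src.wgt
  positivity

/-- The two derivatives of the source are bounded by the weight. -/
theorem Src.dS_sq {s : Src} {C : ℝ} {N : ℕ} (h : s.OK C N) (R : ℝ) {q : ℝ × ℝ} (hq : q ∈ Box) :
    dp (s.S R) q ^ 2 ≤ 24 * C ^ 2 * s.wgt R q ∧
      dp (dp (s.S R)) q ^ 2 ≤ 24 * C ^ 2 * s.wgt R q := by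
  have hG := h.hG
  have g1 : ContDiff ℝ ∞ (deriv s.G) := (contDiff_infty_iff_deriv.1 hG).2
  have g2 : ContDiff ℝ ∞ (deriv^[2] s.G) := (contDiff_infty_iff_deriv.1 g1).2
  have e : (2 : ℕ∞ω) ≤ ∞ := WithTop.coe_le_coe.2 le_top
  set T0 := term s.c0 (eta R) (deriv^[2] s.G) with hT0
  set T1 := term s.c1 (eta R) (deriv s.G) with hT1
  set T2 := term s.c2 (eta1 R) s.G with hT2
  set T3 := term s.c3 (eta R) s.G with hT3
  have t0 : ContDiff ℝ 2 T0 := contDiff_term h.h0 ((contDiff_eta R).of_le e) (g2.of_le e)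
  have t1 : ContDiff ℝ 2 T1 := contDiff_term h.h1 ((contDiff_eta R).of_le e) (g1.of_le e)
  have t2 : ContDiff ℝ 2 T2 := contDiff_term h.h2 ((contDiff_eta1 R).of_le e) (hG.of_le e)
  have t3 : ContDiff ℝ 2 T3 := contDiff_term h.h3 ((contDiff_eta R).of_le e) (hG.of_le e)
  have k0 := t0.differentiable two_ne_zero
  have k1 := t1.differentiable two_ne_zero
  have k2 := t2.differentiable two_ne_zero
  have k3 := t3.differentiable two_ne_zero
  have d0 := (contDiff_dp (m := 1) t0 (by norm_num)).differentiable one_ne_zero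
  have d1 := (contDiff_dp (m := 1) t1 (by norm_num)).differentiable one_ne_zero
  have d2 := (contDiff_dp (m := 1) t2 (by norm_num)).differentiable one_ne_zero
  have d3 := (contDiff_dp (m := 1) t3 (by norm_num)).differentiable one_ne_zero
  have eS : s.S R = T0 + T1 + T2 + T3 := rfl
  have eD : dp (s.S R) = dp T0 + dp T1 + dp T2 + dp T3 := by
    funext r
    rw [eS, dp_add ((k0.add k1).add k2) k3, dp_add (k0.add k1) k2, dp_add k0 k1]
    rfl
  rw [eD, dp_add ((d0.add d1).add d2) d3, dp_add (d0.add d1) d2, dp_add d0 d1]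
  have kG := g2.differentiable (by simp)
  have kG1 := g1.differentiable (by simp)
  have kG0 := hG.differentiable (by simp)
  obtain ⟨a0, b0⟩ := dterm_sq h.h0 h.b0 ((contDiff_eta R).of_le e) kG hq
  obtain ⟨a1, b1⟩ := dterm_sq h.h1 h.b1 ((contDiff_eta R).of_le e) kG1 hq
  obtain ⟨a2, b2⟩ := dterm_sq h.h2 h.b2 ((contDiff_eta1 R).of_le e) kG0 hq
  obtain ⟨a3, b3⟩ := dterm_sq h.h3 h.b3 ((contDiff_eta R).of_le e) kG0 hq
  rw [← hT0] at a0 b0; rw [← hT1] at a1 b1; rw [← hT2] at a2 b2; rw [← hT3] at a3 b3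
  simp only [Src.wgt, Pi.add_apply]
  have four : ∀ a b x y : ℝ, (a + b + x + y) ^ 2 ≤ 4 * (a ^ 2 + b ^ 2 + x ^ 2 + y ^ 2) :=
    fun a b x y => by
      nlinarith [sq_nonneg (a - b), sq_nonneg (a - x), sq_nonneg (a - y), sq_nonneg (b - x),
        sq_nonneg (b - y), sq_nonneg (x - y)]
  exact ⟨(four _ _ _ _).trans (by linarith), (four _ _ _ _).trans (by linarith)⟩

/-- The weight costs `N²⁰`. -/
theorem Src.wgt_int {s : Src} {C : ℝ} {N : ℕ} (h : s.OK C N) (hC : 1 ≤ C) (hN : 80 ≤ N) :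
    Integrable (s.wgt ((N : ℝ) ^ 4)) ∧
      ∫ q, s.wgt ((N : ℝ) ^ 4) q ≤ 12 * C * profConst * ((N : ℝ) ^ 20 * s.Q) := by
  have hN80 : (80 : ℝ) ≤ N := by exact_mod_cast hN
  have hN1 : (1 : ℝ) ≤ N := by linarith
  set R : ℝ := (N : ℝ) ^ 4 with hRdef
  have hR : 80 ≤ R := hN80.trans (le_self_pow₀ hN1 (by norm_num))
  obtain ⟨hP1, p0, p1, p2, p3, -, -, -, -⟩ := profConst_ge
  have hP : 0 ≤ profConst := zero_le_one.trans hP1
  obtain ⟨iA, bA⟩ := profWgt_scale (φ := eta R) (a := 1) (R := R) contDiff_eta0 (by linarith)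
    (by funext p; simp [eta]) (suppP_eta hR) p0 p1 p2
  obtain ⟨iB, bB⟩ := profWgt_scale (φ := eta1 R) (a := R) (R := R) contDiff_eta0' (by linarith)
    rfl (suppP_eta1 hR) p1 p2 p3
  have hG := h.hG
  have g1 : ContDiff ℝ ∞ (deriv s.G) := (contDiff_infty_iff_deriv.1 hG).2
  have g2 : ContDiff ℝ ∞ (deriv^[2] s.G) := (contDiff_infty_iff_deriv.1 g1).2
  have j0 : Integrable fun q : ℝ × ℝ => profWgt (eta R) q.1 * deriv^[2] s.G q.2 ^ 2 :=
    iA.mul_prod (integrable_sq_suppY g2.continuous h.sG.deriv.deriv)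
  have j1 : Integrable fun q : ℝ × ℝ => profWgt (eta R) q.1 * deriv s.G q.2 ^ 2 :=
    iA.mul_prod (integrable_sq_suppY g1.continuous h.sG.deriv)
  have j2 : Integrable fun q : ℝ × ℝ => profWgt (eta1 R) q.1 * s.G q.2 ^ 2 :=
    iB.mul_prod (integrable_sq_suppY hG.continuous h.sG)
  have j3 : Integrable fun q : ℝ × ℝ => profWgt (eta R) q.1 * s.G q.2 ^ 2 :=
    iA.mul_prod (integrable_sq_suppY hG.continuous h.sG)
  refine ⟨((j0.add j1).add j2).add j3, ?_⟩
  unfold Src.wgt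
  rw [integral_add ((j0.fun_add j1).fun_add j2) j3, integral_add (j0.fun_add j1) j2,
    integral_add j0 j1]
  have prod : ∀ u z : ℝ → ℝ, (∫ q : ℝ × ℝ, u q.1 * z q.2 ^ 2) = (∫ p, u p) * A2 z :=
    fun u z => integral_prod_mul u fun y => z y ^ 2
  rw [prod, prod, prod, prod]
  have hQ := s.Q_nonneg
  have hCQ : 0 ≤ C * s.Q := by positivity
  have q0 : A2 (deriv^[2] s.G) ≤ C * s.Q := le_mul_of_one_le_left hQ hC
  have q1 : A2 (deriv s.G) ≤ C * s.Q := h.w1.trans (by
    rw [div_mul_eq_mul_div]; exact div_le_self hCQ (one_le_pow₀ hN1))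
  have q2 : A2 s.G ≤ C * s.Q := h.w0.trans (by
    rw [div_mul_eq_mul_div]; exact div_le_self hCQ (one_le_pow₀ hN1))
  have wA : ∫ p, profWgt (eta R) p ≤ 3 * (N : ℝ) ^ 20 * profConst := by
    refine bA.trans (mul_le_mul_of_nonneg_right (mul_le_mul_of_nonneg_left ?_ (by norm_num)) hP)
    rw [hRdef, one_pow, one_mul, ← pow_mul]
    exact pow_le_pow_right₀ hN1 (by norm_num)
  have wB : ∫ p, profWgt (eta1 R) p ≤ 3 * (N : ℝ) ^ 20 * profConst := by
    refine bB.trans_eq ?_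
    rw [hRdef]; ring
  have nA : 0 ≤ 3 * (N : ℝ) ^ 20 * profConst := by positivity
  linarith [mul_le_mul wA q0 (A2_nonneg _) nA, mul_le_mul wA q1 (A2_nonneg _) nA,
    mul_le_mul wB q2 (A2_nonneg _) nA, mul_le_mul wA q2 (A2_nonneg _) nA]

/-- A pointwise square bound on the disc gives an integral bound. -/
theorem int_sq_le {f g : ℝ × ℝ → ℝ} {A : ℝ} (hf : Continuous f) (ho : OffBox f)
    (hg : Integrable g) (hg0 : ∀ q, 0 ≤ g q) (hA : 0 ≤ A) (h : ∀ q ∈ Box, f q ^ 2 ≤ A + g q) :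
    ∫ q, f q ^ 2 ≤ 80 * A + ∫ q, g q := by
  have m : ∫ q, f q ^ 2 ≤ ∫ q, (5 * A * B0 q + g q) := by
    refine integral_mono (ho.sq.integrable (hf.pow 2)) ((integrable_B0.const_mul _).add hg)
      fun q => ?_
    have := hg0 q
    have hB := mul_nonneg hA (B0_nonneg q)
    by_cases hq : q ∈ Box
    · linarith [h q hq, mul_le_mul_of_nonneg_left (one_le_B0 hq) hA]
    · simp only [ho q hq]; linarith
  rw [integral_add (integrable_B0.const_mul _) hg, integral_const_mul] at m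
  linarith [mul_le_mul_of_nonneg_left integral_B0 (by positivity : 0 ≤ 5 * A)]

/-- From `β G ≤ 3200 ∫ f²` to a bound free of `β`. -/
theorem div_beta {β βm G J T : ℝ} (hm : 0 < βm) (hb : βm ≤ β) (hG : 0 ≤ G)
    (h : β * G ≤ 3200 * J) (hJ : J ≤ T) : G ≤ 3200 / βm * T := by
  have h1 : βm * G ≤ 3200 * T := by linarith [mul_le_mul_of_nonneg_right hb hG]
  rw [div_mul_eq_mul_div, le_div_iff₀ hm]
  linarith

theorem crude (C βm : ℝ) (hC : 1 ≤ C) (hm : 0 < βm) :
    ∃ K, 0 ≤ K ∧ ∀ (c : Coef) (s : Src) (v : ℝ × ℝ → ℝ) (β δ γ ε : ℝ) (N : ℕ),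
      Hyp c s v β δ γ C ε N → βm ≤ β →
        energy β (dp v) + energy β (dp (dp v)) ≤
          K * ((N : ℝ) ^ 20 * s.Q + ε ^ 2 + energy β v) := by
  have hP : 0 ≤ profConst := zero_le_one.trans profConst_ge.1
  set K1 : ℝ := 240 + 864 * (C ^ 3 * profConst) + 3 * C ^ 2 with hK1
  set L : ℝ := 3200 / βm * K1 with hL
  set K2 : ℝ := 400 + 1440 * (C ^ 3 * profConst) + 5 * C ^ 2 + 5 * C ^ 2 / βm + 80 * C ^ 2 * L
    with hK2
  refine ⟨L + 3200 / βm * K2, by positivity, fun c s v β δ γ ε N h hb => ?_⟩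
  have D := h.data
  have hβ := D.pos
  have hβ1 : β ≤ 1 := D.le.trans (by norm_num)
  set R : ℝ := (N : ℝ) ^ 4 with hRdef
  obtain ⟨iW, bW⟩ := Src.wgt_int h.src hC h.hN
  rw [← hRdef] at iW bW
  have vp : ContDiff ℝ 3 (dp v) := contDiff_dp h.hv (by norm_num)
  have vy : ContDiff ℝ 3 (dy v) := contDiff_dy h.hv (by norm_num)
  have vpp : ContDiff ℝ 2 (dp (dp v)) := contDiff_dp vp (by norm_num)
  have hs1 : tsupport (dp v) ⊆ Box := tsupport_dp_subset.trans h.hs
  have hs2 : tsupport (dp (dp v)) ⊆ Box := tsupport_dp_subset.trans hs1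
  obtain ⟨ov, ovp, ovy⟩ := offBox_derivs h.hs
  obtain ⟨-, -, ovpy⟩ := offBox_derivs hs1
  have vpy : Continuous (dy (dp v)) := (continuous_derivs (vp.of_le (by norm_num))).2.2
  have F1c : Continuous (c.next.op (dp v)) := continuous_op D.smooth1 (vp.of_le (by norm_num))
  have F2c : Continuous (c.next.next.op (dp (dp v))) := continuous_op D.smooth2 vpp
  -- differentiated equations
  have op2 : ContDiff ℝ 2 (c.op v) := by
    have := D.hd.of_le (by norm_num : (2 : ℕ∞ω) ≤ 3)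
    have := D.ha.of_le (by norm_num : (2 : ℕ∞ω) ≤ 3)
    have := D.hg.of_le (by norm_num : (2 : ℕ∞ω) ≤ 3)
    have := D.he.of_le (by norm_num : (2 : ℕ∞ω) ≤ 3)
    have : ContDiff ℝ 2 c.ze := by rw [D.hz]; exact contDiff_const
    have : ContDiff ℝ 2 v := h.hv.of_le (by norm_num)
    have : ContDiff ℝ 2 (dp v) := vp.of_le (by norm_num)
    have : ContDiff ℝ 2 (dy v) := vy.of_le (by norm_num)
    have : ContDiff ℝ 2 (dy (dy v)) := contDiff_dy vy (by norm_num)
    have : ContDiff ℝ 2 (dp (dy v)) := contDiff_dp vy (by norm_num)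
    unfold Coef.op; fun_prop
  have hS := Src.contDiff_S h.src R
  have kop := op2.differentiable two_ne_zero
  have kS := hS.differentiable two_ne_zero
  have kop1 : Differentiable ℝ (dp (c.op v)) :=
    (contDiff_dp (m := 1) op2 (by norm_num)).differentiable one_ne_zero
  have kS1 : Differentiable ℝ (dp (s.S R)) :=
    (contDiff_dp (m := 1) hS (by norm_num)).differentiable one_ne_zero
  have eE : dp (c.op v - s.S R) = dp (c.op v) - dp (s.S R) := funext fun q => dp_sub kop kS q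
  have e1 : c.next.op (dp v) = dp (c.op v) - dp c.et * dy v := by
    funext q
    have h0 := op_dp D.smooth0 (h.hv.of_le (by norm_num)) q
    simp only [D.hz, dp_const, zero_mul, add_zero] at h0
    simp only [Pi.sub_apply, Pi.mul_apply]
    linarith
  have ket : Differentiable ℝ (dp c.et) :=
    (contDiff_dp (m := 2) D.he (by norm_num)).differentiable two_ne_zero
  have kdd : Differentiable ℝ (dp c.d) :=
    (contDiff_dp (m := 2) D.hd (by norm_num)).differentiable two_ne_zero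
  have kvy := vy.differentiable (by norm_num)
  have hze : c.next.ze = dp c.g := by funext q; simp [Coef.next, D.hz]
  have hnet : ∀ q, dp c.next.et q = dp c.et q + 2 * dp (dp c.d) q := fun q => by
    show dp (c.et + (2 : ℝ) • dp c.d) q = _
    rw [dp_add D.smooth0.et.differentiable_one (kdd.const_smul (2 : ℝ)), dp_smul]
  have e2 : ∀ q, c.next.next.op (dp (dp v)) q = dp (dp (c.op v)) q - dp (dp c.et) q * dy v q
      - (2 * dp c.et q + 2 * dp (dp c.d) q) * dy (dp v) q - dp (dp c.g) q * dp v q := fun q => by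
    have h0 := op_dp D.smooth1 vp q
    rw [e1, dp_sub kop1 (ket.mul kvy), dp_mul ket kvy, hze, hnet,
      dp_dy (h.hv.of_le (by norm_num))] at h0
    linarith
  -- integrable squares
  have iy := ovy.sq.integrable (vy.continuous.pow 2)
  have ip := ovp.sq.integrable (vp.continuous.pow 2)
  have iyp := ovpy.sq.integrable (vpy.pow 2)
  -- level one
  have J1 : ∫ q, c.next.op (dp v) q ^ 2 ≤
      80 * (3 * ε ^ 2) + ∫ q, (72 * C ^ 2 * s.wgt R q + 3 * C ^ 2 * dy v q ^ 2) := by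
    refine int_sq_le F1c (offBox_op hs1) ((iW.const_mul _).fun_add (iy.const_mul _))
      (fun q => ?_) (by positivity) fun q hq => ?_
    · have := s.wgt_nonneg R q; positivity
    · have he := (h.err q hq).2.1
      rw [← hRdef, eE, Pi.sub_apply] at he
      have he' : (dp (c.op v) q - dp (s.S R) q) ^ 2 ≤ ε ^ 2 := by
        rw [← sq_abs]; exact pow_le_pow_left₀ (abs_nonneg _) he 2
      have het : dp c.et q ^ 2 ≤ C ^ 2 := by
        rw [← sq_abs]; exact pow_le_pow_left₀ (abs_nonneg _) (D.sup q hq).1 2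
      have hy := mul_le_mul_of_nonneg_right het (sq_nonneg (dy v q))
      have hSq := (Src.dS_sq h.src R hq).1
      rw [e1]
      simp only [Pi.sub_apply, Pi.mul_apply]
      linarith [sq_nonneg (dp (c.op v) q - dp (s.S R) q - dp (s.S R) q),
        sq_nonneg (dp (c.op v) q - dp (s.S R) q + dp c.et q * dy v q),
        sq_nonneg (dp (s.S R) q + dp c.et q * dy v q)]
  rw [integral_add (iW.const_mul _) (iy.const_mul _), integral_const_mul, integral_const_mul]
    at J1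
  -- level two
  have J2 : ∫ q, c.next.next.op (dp (dp v)) q ^ 2 ≤
      80 * (5 * ε ^ 2) + ∫ q, (120 * C ^ 2 * s.wgt R q + 5 * C ^ 2 * dy v q ^ 2
        + (80 * C ^ 2 * dy (dp v) q ^ 2 + 5 * C ^ 2 * dp v q ^ 2)) := by
    refine int_sq_le F2c (offBox_op hs2) (((iW.const_mul _).fun_add (iy.const_mul _)).fun_add
      ((iyp.const_mul _).fun_add (ip.const_mul _))) (fun q => ?_) (by positivity) fun q hq => ?_
    · have := s.wgt_nonneg R q; positivity
    · have he := (h.err q hq).2.2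
      rw [← hRdef, eE, dp_sub kop1 kS1] at he
      obtain ⟨se1, se2, sd, sg, -, -⟩ := D.sup q hq
      have sq' : ∀ {x : ℝ} {M : ℝ}, |x| ≤ M → x ^ 2 ≤ M ^ 2 := fun {x M} hx => by
        rw [← sq_abs]; exact pow_le_pow_left₀ (abs_nonneg _) hx 2
      have he' := sq' he
      have hy := mul_le_mul_of_nonneg_right (sq' se2) (sq_nonneg (dy v q))
      have hp := mul_le_mul_of_nonneg_right (sq' sg) (sq_nonneg (dp v q))
      have hm4 : |2 * dp c.et q + 2 * dp (dp c.d) q| ≤ 4 * C := by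
        rw [abs_le] at se1 sd ⊢; constructor <;> linarith [se1.1, se1.2, sd.1, sd.2]
      have hyp := mul_le_mul_of_nonneg_right (sq' hm4) (sq_nonneg (dy (dp v) q))
      have hSq := (Src.dS_sq h.src R hq).2
      have five : ∀ a b x y z : ℝ, (a + b - x - y - z) ^ 2 ≤
          5 * (a ^ 2 + b ^ 2 + x ^ 2 + y ^ 2 + z ^ 2) := fun a b x y z => by
        linarith [sq_nonneg (a - b), sq_nonneg (a + x), sq_nonneg (a + y), sq_nonneg (a + z),
          sq_nonneg (b + x), sq_nonneg (b + y), sq_nonneg (b + z), sq_nonneg (x - y),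
          sq_nonneg (x - z), sq_nonneg (y - z)]
      have hf := five (dp (dp (c.op v)) q - dp (dp (s.S R)) q) (dp (dp (s.S R)) q)
        (dp (dp c.et) q * dy v q) ((2 * dp c.et q + 2 * dp (dp c.d) q) * dy (dp v) q)
        (dp (dp c.g) q * dp v q)
      rw [sub_add_cancel] at hf
      rw [e2]
      linarith
  rw [integral_add ((iW.const_mul _).fun_add (iy.const_mul _))
      ((iyp.const_mul _).fun_add (ip.const_mul _)),
    integral_add (iW.const_mul _) (iy.const_mul _), integral_add (iyp.const_mul _) (ip.const_mul _),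
    integral_const_mul, integral_const_mul, integral_const_mul, integral_const_mul] at J2
  -- conclusion
  obtain ⟨cy, cp, -, -⟩ := energy_controls hβ hβ1 (h.hv.of_le (by norm_num)) h.hs
  obtain ⟨cyp, -, -, -⟩ := energy_controls hβ hβ1 (vp.of_le (by norm_num)) hs1
  have sq1 := energy_sq hβ hβ1 (vp.of_le (by norm_num)) hs1 F1c (offBox_op hs1)
    (D.global1 (vp.of_le (by norm_num)) hs1)
  have sq2 := energy_sq hβ hβ1 (vpp.of_le (by norm_num)) hs2 F2c (offBox_op hs2)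
    (D.global2 vpp hs2)
  have G0 := energy_nonneg hβ.le v
  have G1 := energy_nonneg hβ.le (dp v)
  have G2 := energy_nonneg hβ.le (dp (dp v))
  have hQ : 0 ≤ (N : ℝ) ^ 20 * s.Q := by have := s.Q_nonneg; positivity
  set T := (N : ℝ) ^ 20 * s.Q + ε ^ 2 + energy β v with hT
  have hT1 : (N : ℝ) ^ 20 * s.Q ≤ T := by linarith [sq_nonneg ε]
  have hT2 : ε ^ 2 ≤ T := by linarith
  have hT3 : energy β v ≤ T := by linarith [sq_nonneg ε]
  have hC0 : 0 ≤ C := by linarith
  have hC2 : 0 ≤ C ^ 2 := sq_nonneg C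
  have w0 : 0 ≤ C ^ 3 * profConst := by positivity
  have ip0 : ∫ q, dp v q ^ 2 ≤ energy β v / βm := by
    rw [le_div_iff₀ hm]
    have := mul_le_mul_of_nonneg_right hb
      (integral_nonneg fun q => sq_nonneg (dp v q) : 0 ≤ ∫ q, dp v q ^ 2)
    linarith
  have bW' := mul_le_mul_of_nonneg_left bW hC2
  have hW : C ^ 2 * (∫ q, s.wgt R q) ≤ 12 * (C ^ 3 * profConst) * T := by
    linarith [mul_le_mul_of_nonneg_left hT1 w0]
  have hY : C ^ 2 * (∫ q, dy v q ^ 2) ≤ C ^ 2 * T := mul_le_mul_of_nonneg_left (cy.trans hT3) hC2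
  have T1 : ∫ q, c.next.op (dp v) q ^ 2 ≤ K1 * T := by
    rw [hK1]; linarith
  have B1 : energy β (dp v) ≤ L * T :=
    (div_beta hm hb G1 sq1 T1).trans_eq (by rw [hL]; ring)
  have hYP : C ^ 2 * (∫ q, dy (dp v) q ^ 2) ≤ C ^ 2 * (L * T) :=
    mul_le_mul_of_nonneg_left (cyp.trans B1) hC2
  have hPv : C ^ 2 * (∫ q, dp v q ^ 2) ≤ C ^ 2 * (T / βm) :=
    mul_le_mul_of_nonneg_left (ip0.trans (div_le_div_of_nonneg_right hT3 hm.le)) hC2
  have T2 : ∫ q, c.next.next.op (dp (dp v)) q ^ 2 ≤ K2 * T := by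
    have e : 5 * C ^ 2 / βm * T = 5 * (C ^ 2 * (T / βm)) := by ring
    rw [hK2]; linarith
  have B2 : energy β (dp (dp v)) ≤ 3200 / βm * K2 * T :=
    (div_beta hm hb G2 sq2 T2).trans_eq (by ring)
  linarith

end Vale.Agent.P229.Est
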