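import Vale.Agent.P229.Est.Pair

/-!
# P229: the three levels, the source, and the crude and refined energy bounds

`Data` bundles the coefficient hypotheses, `Src` the source with unit amplitude.  The refined bound
gives `G₀ ≲ (∫ (G'')²) / N⁶`, the crude ones `G₁, G₂ ≲ N²⁰ ∫ (G'')²`.
-/

open MeasureTheory
open scoped ContDiff

namespace Vale.Agent.P229.Est

/-- The hypotheses on the coefficients. -/
structure Data (c : Coef) (β δ γ C : ℝ) : Prop where
  hd : ContDiff ℝ 3 c.d
  ha : ContDiff ℝ 3 c.a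
  hg : ContDiff ℝ 3 c.g
  he : ContDiff ℝ 3 c.et
  hz : c.ze = fun _ => 0
  lvl : Lvl c β δ γ C 0
  sup : ∀ q ∈ Box, |dp c.et q| ≤ C ∧ |dp (dp c.et) q| ≤ C ∧ |dp (dp c.d) q| ≤ C ∧
    |dp (dp c.g) q| ≤ C ∧ |dy (dy c.a) q| ≤ C ∧ |c.a q| ≤ C
  one_le : 1 ≤ C
  pos : 0 < β
  le : β ≤ 1 / 100000
  dle : δ ≤ 1 / 9000
  gle : γ ≤ δ * β
  small : 10000 * (9 * C + 1) ^ 2 * β ≤ 1

namespace Data

variable {c : Coef} {β δ γ C : ℝ} (D : Data c β δ γ C)

include D

theorem c_eq : c = ⟨c.d, c.a, c.g, c.et, fun _ => 0⟩ := by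
  obtain ⟨d, a, g, e, z⟩ := c
  have := D.hz
  simp only at this
  rw [this]

theorem smooth0 : c.Smooth where
  d := D.hd.of_le (by norm_num)
  a := D.ha.of_le (by norm_num)
  g := D.hg.of_le (by norm_num)
  et := D.he.of_le (by norm_num)
  ze := by rw [D.hz]; exact contDiff_const

theorem smooth1 : c.next.Smooth where
  d := D.hd.of_le (by norm_num)
  a := D.ha.of_le (by norm_num)
  g := (D.hg.of_le (by norm_num)).add (contDiff_dp D.ha (by norm_num))
  et := (D.he.of_le (by norm_num)).add ((contDiff_dp D.hd (by norm_num)).const_smul (2 : ℝ))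
  ze := by
    show ContDiff ℝ 1 (c.ze + dp c.g)
    rw [D.hz]
    exact contDiff_const.add (contDiff_dp D.hg (by norm_num))

theorem smooth2 : c.next.next.Smooth where
  d := D.hd.of_le (by norm_num)
  a := D.ha.of_le (by norm_num)
  g := D.smooth1.g.add (contDiff_dp D.ha (by norm_num))
  et := D.smooth1.et.add ((contDiff_dp D.hd (by norm_num)).const_smul (2 : ℝ))
  ze := by
    have h2 : ContDiff ℝ 2 (c.g + dp c.a) :=
      (D.hg.of_le (by norm_num)).add (contDiff_dp D.ha (by norm_num))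
    exact D.smooth1.ze.add (contDiff_dp (m := 1) h2 (by norm_num))

theorem delta_nonneg : 0 ≤ δ :=
  nonneg_of_mul_nonneg_left ((abs_nonneg _).trans (D.lvl.et0 ((0, 0) : ℝ × ℝ) (by simp [Box]))) D.pos

theorem gle' : γ ≤ C * β := by
  have := D.dle; have := D.one_le
  exact D.gle.trans (mul_le_mul_of_nonneg_right (by linarith) D.pos.le)

theorem lvl1 : Lvl c.next β (3 * δ) γ (3 * C) 1 := D.lvl.next D.smooth0 D.gle D.gle'

theorem lvl2 : Lvl c.next.next β (9 * δ) γ (9 * C) 2 := by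
  have h0 := D.delta_nonneg
  have h1 : γ ≤ 3 * δ * β :=
    D.gle.trans (mul_le_mul_of_nonneg_right (by linarith) D.pos.le)
  have h2 : γ ≤ 3 * C * β :=
    D.gle'.trans (mul_le_mul_of_nonneg_right (by linarith [D.one_le]) D.pos.le)
  have h := D.lvl1.next D.smooth1 h1 h2
  rw [show (3 : ℝ) * (3 * δ) = 9 * δ by ring, show (3 : ℝ) * (3 * C) = 9 * C by ring] at h
  exact h

/-- The global estimate at the three levels. -/
theorem global0 {w : ℝ × ℝ → ℝ} (hw : ContDiff ℝ 2 w) (hs : tsupport w ⊆ Box) :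
    energy β w ≤ 20 * ∫ q, c.op w q * gmult w q := by
  have := D.dle; have := D.one_le
  have hsm : 10000 * (C + 1) ^ 2 * β ≤ 1 := by
    refine le_trans ?_ D.small
    refine mul_le_mul_of_nonneg_right ?_ D.pos.le
    gcongr
    linarith
  exact global_est D.smooth0 hw hs D.lvl (by norm_num) D.pos D.le (by linarith) D.gle hsm

theorem global1 {w : ℝ × ℝ → ℝ} (hw : ContDiff ℝ 2 w) (hs : tsupport w ⊆ Box) :
    energy β w ≤ 20 * ∫ q, c.next.op w q * gmult w q := by
  have := D.dle; have := D.one_le; have := D.delta_nonneg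
  have hsm : 10000 * (3 * C + 1) ^ 2 * β ≤ 1 := by
    refine le_trans ?_ D.small
    refine mul_le_mul_of_nonneg_right ?_ D.pos.le
    gcongr
    linarith
  exact global_est D.smooth1 hw hs D.lvl1 (by norm_num) D.pos D.le (by linarith)
    (D.gle.trans (mul_le_mul_of_nonneg_right (by linarith) D.pos.le)) hsm

theorem global2 {w : ℝ × ℝ → ℝ} (hw : ContDiff ℝ 2 w) (hs : tsupport w ⊆ Box) :
    energy β w ≤ 20 * ∫ q, c.next.next.op w q * gmult w q := by
  have := D.dle; have := D.one_le; have := D.delta_nonneg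
  exact global_est D.smooth2 hw hs D.lvl2 (by norm_num) D.pos D.le (by linarith)
    (D.gle.trans (mul_le_mul_of_nonneg_right (by linarith) D.pos.le)) D.small

end Data

variable {w : ℝ × ℝ → ℝ} {β : ℝ}

theorem energy_nonneg (hβ : 0 ≤ β) (w : ℝ × ℝ → ℝ) : 0 ≤ energy β w :=
  integral_nonneg fun _ => add_nonneg (sq_nonneg _) (mul_nonneg hβ (sq_nonneg _))

/-- The energy controls the two derivatives, `H` and the global multiplier. -/
theorem energy_controls (hβ : 0 < β) (hβ' : β ≤ 1) (hw : ContDiff ℝ 1 w)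
    (hs : tsupport w ⊆ Box) :
    (∫ q, dy w q ^ 2) ≤ energy β w ∧ β * (∫ q, dp w q ^ 2) ≤ energy β w ∧
      β * H w ≤ 10 * energy β w ∧ β * (∫ q, gmult w q ^ 2) ≤ 8 * energy β w := by
  obtain ⟨o, op', oy⟩ := offBox_derivs hs
  obtain ⟨c0, c1, c2⟩ := continuous_derivs hw
  have i0 := o.sq.integrable (c0.pow 2)
  have i1 := op'.sq.integrable (c1.pow 2)
  have i2 := oy.sq.integrable (c2.pow 2)
  have eG : energy β w = (∫ q, dy w q ^ 2) + β * ∫ q, dp w q ^ 2 := by
    rw [energy, integral_add i2 (i1.const_mul _), integral_const_mul]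
  have n0 : 0 ≤ ∫ q, dy w q ^ 2 := integral_nonneg fun _ => sq_nonneg _
  have n1 : 0 ≤ β * ∫ q, dp w q ^ 2 := mul_nonneg hβ.le (integral_nonneg fun _ => sq_nonneg _)
  have hP := poincare hw hs
  have hP' := mul_le_mul_of_nonneg_left hP hβ.le
  have hb : β * (∫ q, dy w q ^ 2) ≤ 1 * ∫ q, dy w q ^ 2 := mul_le_mul_of_nonneg_right hβ' n0
  refine ⟨by linarith, by linarith, by rw [H, mul_add]; linarith, ?_⟩
  have m : ∫ q, gmult w q ^ 2 ≤
      ∫ q, (27 / 4 * dp w q ^ 2 + 3 / 100 * w q ^ 2 + 27 / 25 * dy w q ^ 2) := by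
    refine integral_mono ?_ (((i1.const_mul _).add (i0.const_mul _)).add (i2.const_mul _))
      fun q => ?_
    · refine OffBox.integrable (fun q hq => ?_) (by unfold gmult; fun_prop)
      simp [gmult, o q hq, op' q hq, oy q hq]
    · by_cases hq : q ∈ Box
      · obtain ⟨b1, b2⟩ := box_bounds hq
        have e1 : q.1 ^ 2 * dp w q ^ 2 ≤ 9 / 4 * dp w q ^ 2 := by
          refine mul_le_mul_of_nonneg_right ?_ (sq_nonneg _)
          nlinarith [sq_abs q.1, abs_nonneg q.1]
        have e2 : q.2 ^ 2 * dy w q ^ 2 ≤ 9 / 4 * dy w q ^ 2 := by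
          refine mul_le_mul_of_nonneg_right ?_ (sq_nonneg _)
          nlinarith [sq_abs q.2, abs_nonneg q.2]
        unfold gmult
        nlinarith [sq_nonneg (q.1 * dp w q - 1 / 10 * w q),
          sq_nonneg (q.1 * dp w q - 2 / 5 * (q.2 * dy w q)),
          sq_nonneg (1 / 10 * w q - 2 / 5 * (q.2 * dy w q))]
      · simp [gmult, o q hq, op' q hq, oy q hq]
  have j : Integrable fun q => 27 / 4 * dp w q ^ 2 + 3 / 100 * w q ^ 2 :=
    (i1.const_mul _).add (i0.const_mul _)
  rw [integral_add j (i2.const_mul _), integral_add (i1.const_mul _) (i0.const_mul _),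
    integral_const_mul, integral_const_mul, integral_const_mul] at m
  have m' := mul_le_mul_of_nonneg_left m hβ.le
  linarith

/-- The equation tested with the multiplier gives a square bound. -/
theorem energy_sq {f : ℝ × ℝ → ℝ} (hβ : 0 < β) (hβ' : β ≤ 1) (hw : ContDiff ℝ 1 w)
    (hs : tsupport w ⊆ Box) (hf : Continuous f) (hf' : OffBox f)
    (h : energy β w ≤ 20 * ∫ q, f q * gmult w q) :
    β * energy β w ≤ 3200 * ∫ q, f q ^ 2 := by
  obtain ⟨o, op', oy⟩ := offBox_derivs hs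
  obtain ⟨c0, c1, c2⟩ := continuous_derivs hw
  have hg : OffBox (gmult w) := fun q hq => by simp [gmult, o q hq, op' q hq, oy q hq]
  have hp := pair_le (l := β / 320) (by positivity) hf (by unfold gmult; fun_prop) hf' hg
  have h8 := (energy_controls hβ hβ' hw hs).2.2.2
  have hn := (abs_le.1 hp).2
  have e : 1 / (4 * (β / 320)) = 80 / β := by field_simp; ring
  rw [e] at hn
  have h' := mul_le_mul_of_nonneg_left (h.trans (mul_le_mul_of_nonneg_left hn (by norm_num))) hβ.le
  have e' : β * (20 * (β / 320 * (∫ q, gmult w q ^ 2) + 80 / β * ∫ q, f q ^ 2)) =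
      β / 16 * (β * ∫ q, gmult w q ^ 2) + 1600 * ∫ q, f q ^ 2 := by field_simp; ring
  rw [e'] at h'
  have h9 := mul_le_mul_of_nonneg_left h8 (by positivity : 0 ≤ β / 16)
  linarith

end Vale.Agent.P229.Est
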