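import Vale.Agent.P229.Est.Core
import Vale.Agent.P229.Bd

/-!
# P229: from the interface `EstSpec` to the normalised statement

The amplitude is divided out, the constant is enlarged to `8 C` and `δ = 2 d0`.
-/

open MeasureTheory
open scoped ContDiff
open Filter Topology

namespace Vale.Agent.P229.Est

theorem box_eq_disc : Box = disc (3 / 2) := by
  ext q
  simp only [Box, disc, nsq, Set.mem_ofPred_eq]
  norm_num

theorem dp_eq_d1 (f : ℝ × ℝ → ℝ) : dp f = d1 f := rfl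

theorem dy_eq_d2 (f : ℝ × ℝ → ℝ) : dy f = d2 f := rfl

/-- Bounds to order two give the pointwise bounds on the six derivatives. -/
theorem bd2_of_bdOn {f : ℝ × ℝ → ℝ} {M : ℝ} (hf : ContDiff ℝ 2 f)
    (h : BdOn (disc (3 / 2)) 2 M f) :
    Bd2 f M ∧ ∀ q ∈ Box, |dy (dp f) q| ≤ M := by
  have hU := isOpen_disc (3 / 2)
  have h2 : ContDiffOn ℝ (1 + 1 : ℕ) f (disc (3 / 2)) := hf.contDiffOn
  have a1 : BdOn (disc (3 / 2)) 1 M (d1 f) := h.d1 (k := 1) hU h2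
  have a2 : BdOn (disc (3 / 2)) 1 M (d2 f) := h.d2 (k := 1) hU h2
  have c1 : ContDiffOn ℝ (0 + 1 : ℕ) (d1 f) (disc (3 / 2)) := contDiffOn_d1 (k := 1) hU h2
  have c2 : ContDiffOn ℝ (0 + 1 : ℕ) (d2 f) (disc (3 / 2)) := contDiffOn_d2 (k := 1) hU h2
  refine ⟨fun q hq => ?_, fun q hq => ?_⟩
  · rw [box_eq_disc] at hq
    exact ⟨h.norm_le hq, a1.norm_le hq, a2.norm_le hq, (a1.d1 (k := 0) hU c1).norm_le hq,
      (a2.d1 (k := 0) hU c2).norm_le hq, (a2.d2 (k := 0) hU c2).norm_le hq⟩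
  · rw [box_eq_disc] at hq
    exact (a1.d2 (k := 0) hU c1).norm_le hq

theorem op_const_smul (c : Coef) (r : ℝ) (v : ℝ × ℝ → ℝ) (q : ℝ × ℝ) :
    c.op (r • v) q = r * c.op v q := by
  have e1 : dp (r • v) = r • dp v := funext (dp_smul r v)
  have e2 : dy (r • v) = r • dy v := funext (dy_smul r v)
  simp only [Coef.op, e1, e2, dp_smul, dy_smul, Pi.smul_apply, smul_eq_mul]
  ring

theorem data_of_ok {c : P229.Coef} {β d0 γ C : ℝ} (hc : c.OK β d0 γ C) (hC : 1 ≤ C)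
    (hβ : 0 < β) (hβ' : β ≤ 1 / 100000) (hd0 : 0 < d0) (hd0' : 2 * d0 ≤ 1 / 9000)
    (hγ : γ ≤ 2 * d0 * β) (hγC : γ ≤ C) (hsmall : 10000 * (9 * (8 * C) + 1) ^ 2 * β ≤ 1) :
    Data ⟨c.d, c.a, c.b, c.e, fun _ => 0⟩ β (2 * d0) γ (8 * C) := by
  obtain ⟨hd, ha, hb, he, bd, ba, bb, be, hpt⟩ := hc
  obtain ⟨Bd, Bd'⟩ := bd2_of_bdOn (hd.of_le (by norm_num)) (bd.mono_order (by norm_num))
  obtain ⟨Ba, -⟩ := bd2_of_bdOn (ha.of_le (by norm_num)) (ba.mono_order (by norm_num))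
  obtain ⟨Bb, -⟩ := bd2_of_bdOn (hb.of_le (by norm_num)) bb
  obtain ⟨Be, -⟩ := bd2_of_bdOn (he.of_le (by norm_num)) be
  have hCβ : C * β ≤ 8 * C * β := mul_le_mul_of_nonneg_right (by linarith) hβ.le
  have hCβ' : C * β ≤ 8 * C := by
    calc C * β ≤ C * 1 := mul_le_mul_of_nonneg_left (by linarith) (by linarith)
      _ ≤ 8 * C := by linarith
  have hdβ : d0 * β ≤ 2 * d0 * β := mul_le_mul_of_nonneg_right (by linarith) hβ.le
  have hpt' : ∀ q ∈ Box, _ := fun q hq => hpt q (box_eq_disc ▸ hq)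
  refine
    { hd := hd, ha := ha, hg := hb, he := he, hz := rfl
      lvl :=
        { a0 := fun q hq => ((hpt' q hq).1).trans hdβ
          ap := fun q hq => ((hpt' q hq).2.2.1).trans
            (mul_le_mul_of_nonneg_right hdβ (by positivity))
          ay := fun q hq => ((hpt' q hq).2.1).trans hdβ
          app := fun q hq => ((Ba q hq).2.2.2.1).trans hCβ
          g0 := fun q hq => ?_
          gp := fun q hq => ((Bb q hq).2.1).trans hCβ
          et0 := fun q hq => ((hpt' q hq).2.2.2.2).trans hdβ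
          ety := fun q hq => ((Be q hq).2.2.1).trans hCβ
          ze0 := fun q _ => by simp; positivity
          d0 := fun q hq => (Bd q hq).1
          dd := fun q hq => ⟨(Bd q hq).2.1, (Bd q hq).2.2.1, Bd' q hq⟩ }
      sup := fun q hq => ⟨(Be q hq).2.1.trans hCβ', (Be q hq).2.2.2.1.trans hCβ',
        (Bd q hq).2.2.2.1.trans (by linarith), (Bb q hq).2.2.2.1.trans hCβ',
        (Ba q hq).2.2.2.2.2.trans hCβ', (Ba q hq).1.trans hCβ'⟩
      one_le := by linarith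
      pos := hβ, le := hβ', dle := hd0', gle := hγ, small := hsmall }
  obtain ⟨-, -, h3, h4, -⟩ := hpt' q hq
  have e : c.b q - ((0 : ℕ) + 1 : ℝ) * (2 * β * q.1)
      = (c.b q - d1 c.a q) + (d1 c.a q - 2 * β * q.1) := by push_cast; ring
  show |c.b q - ((0 : ℕ) + 1 : ℝ) * (2 * β * q.1)| ≤ _
  rw [e]
  refine (abs_add_le _ _).trans ?_
  linarith

theorem estSpec_of_core (h : EstCore) : EstSpec := by
  obtain ⟨δ0, hδ0, H⟩ := h
  refine ⟨min (δ0 / 2) (1 / 20000), by positivity, fun C hC => ?_⟩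
  set d0 := min (δ0 / 2) (1 / 20000) with hd0
  have hd0p : 0 < d0 := by positivity
  have hd0a : 2 * d0 ≤ δ0 := by linarith [min_le_left (δ0 / 2) (1 / 20000 : ℝ)]
  have hd0b : 2 * d0 ≤ 1 / 9000 := by linarith [min_le_right (δ0 / 2) (1 / 20000 : ℝ)]
  obtain ⟨β1, hβ1, H⟩ := H (8 * C) (by linarith)
  refine ⟨min β1 (min (1 / 100000) (1 / (10000 * (9 * (8 * C) + 1) ^ 2))), by positivity,
    fun βm hβm => ?_⟩
  obtain ⟨N1, H⟩ := H βm hβm
  obtain ⟨N2, hN2⟩ := exists_nat_ge (C / (2 * d0 * βm))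
  refine ⟨max N1 (max 80 N2), fun N hN β hβl hβu c v E c0 c1 c2 c3 G t ht hc hG hv hs hE hEb
    g0 g1 g2 g3 b0 b1 b2 b3 hlow heq => ?_⟩
  have hN80 : 80 ≤ N := le_trans (le_trans (le_max_left _ _) (le_max_right _ _)) hN
  have hN2' : C / (2 * d0 * βm) ≤ (N : ℝ) := hN2.trans
    (by exact_mod_cast le_trans (le_trans (le_max_right _ _) (le_max_right _ _)) hN)
  have hN1R : (1 : ℝ) ≤ N := by exact_mod_cast le_trans (by norm_num) hN80
  have hβ : 0 < β := hβm.trans_le hβl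
  have hpow : (N : ℝ) ≤ (N : ℝ) ^ 32 := le_self_pow₀ hN1R (by norm_num)
  have hγ : C / (N : ℝ) ^ 32 ≤ 2 * d0 * β := by
    rw [div_le_iff₀ (by positivity)] at hN2' ⊢
    calc C ≤ N * (2 * d0 * βm) := hN2'
      _ ≤ (N : ℝ) ^ 32 * (2 * d0 * β) := by gcongr
      _ = 2 * d0 * β * (N : ℝ) ^ 32 := by ring
  have hsmall : 10000 * (9 * (8 * C) + 1) ^ 2 * β ≤ 1 := by
    have := (le_div_iff₀' (by positivity)).1
      ((hβu.trans (min_le_right _ _)).trans (min_le_right _ _))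
    exact this
  have D := data_of_ok hc hC hβ ((hβu.trans (min_le_right _ _)).trans (min_le_left _ _)) hd0p hd0b
    hγ (div_le_self (by linarith) (one_le_pow₀ hN1R)) hsmall
  set cc : Coef := ⟨c.d, c.a, c.b, c.e, fun _ => 0⟩ with hcc
  obtain ⟨hG0, hG1, w0, w1, w3, w4, w2⟩ := hG
  have hCC : C ≤ 8 * C := by linarith
  have hQ : 0 ≤ ∫ y, deriv^[2] G y ^ 2 := integral_nonneg fun y => sq_nonneg _
  have hBd : ∀ f : ℝ × ℝ → ℝ, ContDiff ℝ 2 f → BdOn (disc (3 / 2)) 2 C f → Bd2 f (8 * C) :=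
    fun f hf hb => (bd2_of_bdOn hf (hb.mono_const hCC)).1
  let s : Src := ⟨c0, c1, c2, c3, G⟩
  have hsrc : s.OK (8 * C) N :=
    { h0 := g0, h1 := g1, h2 := g2, h3 := g3
      b0 := hBd c0 g0 b0, b1 := hBd c1 g1 b1, b2 := hBd c2 g2 b2, b3 := hBd c3 g3 b3
      low := fun q hq => le_trans (one_div_le_one_div_of_le (by linarith) hCC)
        (hlow q (box_eq_disc ▸ hq))
      hG := hG0
      sG := fun y hy => hG1 y hy.le
      w0 := le_trans w0 (mul_le_mul_of_nonneg_right (by gcongr) hQ)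
      w1 := le_trans w1 (mul_le_mul_of_nonneg_right (by gcongr) hQ)
      w3 := le_trans w3 (mul_le_mul_of_nonneg_right (by gcongr) hQ)
      w4 := le_trans w4 (mul_le_mul_of_nonneg_right (by gcongr) hQ)
      w2 := le_trans (one_div_le_one_div_of_le (by positivity) (by gcongr)) w2 }
  refine H N (le_trans (le_max_left _ _) hN) β (2 * d0) (C / (N : ℝ) ^ 32) (C / (N : ℝ) ^ 28)
    cc s (t⁻¹ • v) hβl (hβu.trans (min_le_left _ _)) hd0a
    (div_le_div_of_nonneg_right hCC (by positivity))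
    (div_le_div_of_nonneg_right hCC (by positivity)) ⟨D, hsrc, hN80, hv.const_smul t⁻¹, ?_,
    by positivity, ?_⟩
  · refine ((tsupport_smul_subset_right (fun _ : ℝ × ℝ => t⁻¹) v).trans hs).trans ?_
    rw [box_eq_disc]
    exact disc_mono (by norm_num) (by norm_num)
  intro q hq
  have hop : ∀ r, cc.op v r = c.op v r := fun r => by
    simp [cc, Coef.op, P229.Coef.op, dp_eq_d1, dy_eq_d2]
  have hS : ∀ r, source N t c0 c1 c2 c3 G r = t * s.S ((N : ℝ) ^ 4) r := fun r => by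
    simp [source, s, Src.S, term, eta, eta1]
  have hD : (cc.op (t⁻¹ • v) - s.S ((N : ℝ) ^ 4)) =ᶠ[𝓝 q] t⁻¹ • E := by
    filter_upwards [isOpen_box.mem_nhds hq] with r hr
    simp only [Pi.sub_apply, Pi.smul_apply, smul_eq_mul, op_const_smul, hop]
    rw [heq r (box_eq_disc ▸ hr), hS]
    field_simp
    ring
  have hD1 : dp (cc.op (t⁻¹ • v) - s.S ((N : ℝ) ^ 4)) =ᶠ[𝓝 q] dp (t⁻¹ • E) :=
    (hD.fderiv (𝕜 := ℝ)).mono fun r hr => by simp only [dp, hr]
  have hD2 : dp (dp (cc.op (t⁻¹ • v) - s.S ((N : ℝ) ^ 4))) q = dp (dp (t⁻¹ • E)) q := by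
    simp only [dp] at hD1 ⊢
    rw [Filter.EventuallyEq.fderiv_eq hD1]
  have e1 : dp (t⁻¹ • E) = t⁻¹ • dp E := funext (dp_smul _ E)
  obtain ⟨E0, E1, -, E2, -, -⟩ := (bd2_of_bdOn hE hEb).1 q hq
  have key : ∀ x : ℝ, |x| ≤ C * t / (N : ℝ) ^ 28 → |t⁻¹ * x| ≤ C / (N : ℝ) ^ 28 := by
    intro x hx
    rw [abs_mul, abs_of_pos (inv_pos.2 ht)]
    calc t⁻¹ * |x| ≤ t⁻¹ * (C * t / (N : ℝ) ^ 28) :=
          mul_le_mul_of_nonneg_left hx (inv_nonneg.2 ht.le)
      _ = C / (N : ℝ) ^ 28 := by field_simp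
  refine ⟨?_, ?_, ?_⟩
  · rw [← Pi.sub_apply, hD.eq_of_nhds]
    exact key _ E0
  · rw [hD1.eq_of_nhds, e1]
    exact key _ E1
  · rw [hD2, e1, dp_smul]
    exact key _ E2

end Vale.Agent.P229.Est
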