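import Vale.Agent.P229.Est.Setup

/-!
# P229: the global energy inequality

The combination (I1, θ = p) + (I0, ν = 1)/10 + 2/5 (I2, θ = y) controls the energy on the box.
-/

open MeasureTheory
open scoped ContDiff

namespace Vale.Agent.P229.Est

/-- The global multiplier applied to `w`. -/
noncomputable def gmult (w : ℝ × ℝ → ℝ) (q : ℝ × ℝ) : ℝ :=
  q.1 * dp w q + 1 / 10 * w q + 2 / 5 * (q.2 * dy w q)

/-- A product of two bounded factors. -/
theorem abs_mul_le {x y A B : ℝ} (hx : |x| ≤ A) (hy : |y| ≤ B) : |x * y| ≤ A * B := by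
  rw [abs_mul]
  exact mul_le_mul hx hy (abs_nonneg _) ((abs_nonneg _).trans hx)

/-- AM-GM for the mixed term. -/
theorem neg_mul_le {m β wp wy : ℝ} (hm : |m| ≤ 10 * β) (hβ : 0 ≤ β) :
    -(1 / 50 * β * wp ^ 2 + 1250 * β * wy ^ 2) ≤ m * (wp * wy) := by
  have h1 : -(|m| * |wp * wy|) ≤ m * (wp * wy) := by
    rw [← abs_mul]; exact neg_abs_le _
  have h2 : |m| * |wp * wy| ≤ 10 * β * |wp * wy| := mul_le_mul_of_nonneg_right hm (abs_nonneg _)
  have h3 : 10 * |wp * wy| ≤ 1 / 50 * wp ^ 2 + 1250 * wy ^ 2 := by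
    rw [abs_mul]
    nlinarith [sq_nonneg (|wp| - 250 * |wy|), sq_abs wp, sq_abs wy]
  have h4 := mul_le_mul_of_nonneg_left h3 hβ
  linarith

/-- The coefficient of `w_p²`. -/
theorem global_c1 {J β p y a ap ay g dY : ℝ} (hJ : 1 ≤ J) (hβ : 0 < β) (hp : |p| ≤ 3 / 2)
    (hy : |y| ≤ 3 / 2) (ha : |a - β * (p ^ 2 + y ^ 2 - 1)| ≤ β / 1000)
    (hap : |ap - 2 * β * p| ≤ β / 400) (hay : |ay - 2 * β * y| ≤ β / 1000)
    (hg : |g - J * (2 * β * p)| ≤ β / 400) (hdY : |dY| ≤ β / 1000) :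
    3 / 10 * β ≤ -(2 / 5) * a + 1 / 5 * (y * ay) + p * (g - ap / 2 - dY) := by
  obtain ⟨a1, a2⟩ := abs_le.1 ha
  obtain ⟨e1, e1'⟩ := abs_le.1 (abs_mul_le hy hay)
  obtain ⟨e2, e2'⟩ := abs_le.1 (abs_mul_le hp hg)
  obtain ⟨e3, e3'⟩ := abs_le.1 (abs_mul_le hp hap)
  obtain ⟨e4, e4'⟩ := abs_le.1 (abs_mul_le hp hdY)
  have e5 : β * p ^ 2 * 1 ≤ β * p ^ 2 * J := mul_le_mul_of_nonneg_left hJ (by positivity)
  have e6 : 0 ≤ β * p ^ 2 := by positivity
  linarith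

/-- The coefficient of `w_p w_y`. -/
theorem global_c2 {J β p y ap g et d : ℝ} (hJ : 1 ≤ J) (hJ' : J ≤ 4) (hβ : 0 < β)
    (hp : |p| ≤ 3 / 2) (hy : |y| ≤ 3 / 2) (hap : |ap - 2 * β * p| ≤ β / 400)
    (hg : |g - J * (2 * β * p)| ≤ β / 400) (het : |et| ≤ β / 1000) (hd : |d| ≤ β / 1000) :
    |p * et - 1 / 5 * d + 2 / 5 * (g * y - y * ap)| ≤ 10 * β := by
  have hm : |(J - 1) * (2 * β * p)| ≤ 3 * (3 * β) := by
    refine abs_mul_le (abs_le.2 ⟨by linarith, by linarith⟩) ?_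
    rw [abs_mul, abs_of_pos (by positivity : (0:ℝ) < 2 * β)]
    calc 2 * β * |p| ≤ 2 * β * (3 / 2) := mul_le_mul_of_nonneg_left hp (by positivity)
      _ = 3 * β := by ring
  obtain ⟨m1, m2⟩ := abs_le.1 hm
  obtain ⟨g1, g2⟩ := abs_le.1 hg
  obtain ⟨q1, q2⟩ := abs_le.1 hap
  have hgap : |g - ap| ≤ 10 * β := abs_le.2 ⟨by linarith, by linarith⟩
  obtain ⟨t1, t2⟩ := abs_le.1 (abs_mul_le hy hgap)
  obtain ⟨s1, s2⟩ := abs_le.1 (abs_mul_le hp het)
  obtain ⟨d1, d2⟩ := abs_le.1 hd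
  exact abs_le.2 ⟨by linarith, by linarith⟩

/-- The first-order zero terms. -/
theorem global_c5 {β K p y ze wp wy w : ℝ} (hβ : 0 ≤ β) (hp : |p| ≤ 3 / 2)
    (hy : |y| ≤ 3 / 2) (hze : |ze| ≤ K * β) :
    -(1 / 50 * β * wp ^ 2 + 1 / 50 * β * wy ^ 2 + 38 * K ^ 2 * β * w ^ 2) ≤
      p * (ze * w * wp) + 2 / 5 * (y * (ze * w * wy)) := by
  have e : ∀ z : ℝ, |ze * w * z| ≤ K * β * (|w| * |z|) := fun z => by
    rw [abs_mul, abs_mul, mul_assoc]
    exact mul_le_mul_of_nonneg_right hze (by positivity)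
  obtain ⟨h1, -⟩ := abs_le.1 (abs_mul_le hp (e wp))
  obtain ⟨h2, -⟩ := abs_le.1 (abs_mul_le hy (e wy))
  have h3 : 3 / 2 * (K * (|w| * |wp|)) ≤ 1 / 50 * wp ^ 2 + 30 * K ^ 2 * w ^ 2 := by
    rw [← sq_abs w, ← sq_abs wp]
    nlinarith [sq_nonneg (|wp| - 75 / 2 * (K * |w|))]
  have h4 : 3 / 5 * (K * (|w| * |wy|)) ≤ 1 / 50 * wy ^ 2 + 8 * K ^ 2 * w ^ 2 := by
    rw [← sq_abs w, ← sq_abs wy]
    nlinarith [sq_nonneg (|wy| - 15 * (K * |w|))]
  have h3' := mul_le_mul_of_nonneg_left h3 hβ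
  have h4' := mul_le_mul_of_nonneg_left h4 hβ
  linarith

/-- The pointwise inequality behind the global estimate. -/
theorem global_alg {J β δ μ K p y a ap ay g et etY ze d dP dY dPY app gp wp wy w S : ℝ}
    (hJ : 1 ≤ J) (hJ' : J ≤ 4) (hβ : 0 < β) (hβ' : β ≤ 1 / 100000) (hδ : δ ≤ 1 / 1000)
    (hμ : μ ≤ δ * β) (hp : |p| ≤ 3 / 2) (hy : |y| ≤ 3 / 2) (hS : 0 ≤ S) (hS' : S ≤ 1)
    (ha : |a - β * (p ^ 2 + y ^ 2 - 1)| ≤ δ * β) (hap : |ap - 2 * β * p| ≤ δ * β * (|p| + S))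
    (hay : |ay - 2 * β * y| ≤ δ * β) (happ : |app| ≤ K * β)
    (hg : |g - J * (2 * β * p)| ≤ δ * β * (|p| + S)) (hgp : |gp| ≤ K * β) (het : |et| ≤ δ * β)
    (hetY : |etY| ≤ K * β) (hze : |ze| ≤ K * β) (hd : |d| ≤ μ) (hdP : |dP| ≤ μ) (hdY : |dY| ≤ μ)
    (hdPY : |dPY| ≤ μ) :
    3 / 20 * wy ^ 2 + 1 / 4 * β * wp ^ 2 - (40 * (K + 1) ^ 2) * β * w ^ 2 ≤
      (1 / 2 * (wy ^ 2 - a * wp ^ 2) + p * (g - ap / 2 - dY) * wp ^ 2
        + p * (et * wy * wp + ze * w * wp))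
      + 1 / 10 * (-(wy ^ 2 + 2 * d * wp * wy + a * wp ^ 2)
        + 1 / 2 * w ^ 2 * (2 * dPY + app - gp - etY + 2 * ze))
      + 2 / 5 * (-(1 / 2) * wy ^ 2 - y * dP * wy ^ 2 + 1 / 2 * (y * ay + a) * wp ^ 2
        + (g * y - y * ap) * wp * wy + y * (et * wy ^ 2 + ze * w * wy)) := by
  have hδ0 : 0 ≤ δ := nonneg_of_mul_nonneg_left ((abs_nonneg _).trans het) hβ
  have hδβ : δ * β ≤ β / 1000 := by
    have := mul_le_mul_of_nonneg_right hδ hβ.le
    linarith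
  have hμ' : μ ≤ β / 1000 := hμ.trans hδβ
  have hK : 0 ≤ K := nonneg_of_mul_nonneg_left ((abs_nonneg _).trans hze) hβ
  have hlin : δ * β * (|p| + S) ≤ β / 400 := by
    calc δ * β * (|p| + S) ≤ β / 1000 * (5 / 2) :=
          mul_le_mul hδβ (by linarith) (by positivity) (by positivity)
      _ = β / 400 := by ring
  have c1' := mul_le_mul_of_nonneg_right (global_c1 hJ hβ hp hy (ha.trans hδβ) (hap.trans hlin)
    (hay.trans hδβ) (hg.trans hlin) (hdY.trans hμ')) (sq_nonneg wp)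
  have c2' := neg_mul_le (wp := wp) (wy := wy) (global_c2 hJ hJ' hβ hp hy (hap.trans hlin)
    (hg.trans hlin) (het.trans hδβ) (hd.trans hμ')) hβ.le
  obtain ⟨t1, t1'⟩ := abs_le.1 (abs_mul_le hy (hdP.trans hμ'))
  obtain ⟨t2, t2'⟩ := abs_le.1 (abs_mul_le hy (het.trans hδβ))
  have c3 : 199 / 1000 ≤ 1 / 5 - 2 / 5 * (y * dP) + 2 / 5 * (y * et) := by linarith
  have c3' := mul_le_mul_of_nonneg_right c3 (sq_nonneg wy)
  have hKβ : 0 ≤ K * β := mul_nonneg hK hβ.le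
  have c4a : -(20 * (K + 1) * β) ≤ 2 * dPY + app - gp - etY + 2 * ze := by
    obtain ⟨p1, -⟩ := abs_le.1 (hdPY.trans hμ')
    obtain ⟨p2, -⟩ := abs_le.1 happ
    obtain ⟨-, p3⟩ := abs_le.1 hgp
    obtain ⟨-, p4⟩ := abs_le.1 hetY
    obtain ⟨p5, -⟩ := abs_le.1 hze
    linarith
  have c4 := mul_le_mul_of_nonneg_left c4a (by positivity : 0 ≤ 1 / 20 * w ^ 2)
  have c5 := global_c5 (wp := wp) (wy := wy) (w := w) hβ.le hp hy hze
  have h6 : β * wy ^ 2 ≤ 1 / 100000 * wy ^ 2 := mul_le_mul_of_nonneg_right hβ' (sq_nonneg wy)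
  have h7 : (0 : ℝ) ≤ β * wp ^ 2 := by positivity
  have h8 : 0 ≤ K * (β * w ^ 2) := by positivity
  have h9 : 0 ≤ K ^ 2 * (β * w ^ 2) := by positivity
  have h10 : 0 ≤ β * w ^ 2 := by positivity
  have key : (1 / 2 * (wy ^ 2 - a * wp ^ 2) + p * (g - ap / 2 - dY) * wp ^ 2
        + p * (et * wy * wp + ze * w * wp))
      + 1 / 10 * (-(wy ^ 2 + 2 * d * wp * wy + a * wp ^ 2)
        + 1 / 2 * w ^ 2 * (2 * dPY + app - gp - etY + 2 * ze))
      + 2 / 5 * (-(1 / 2) * wy ^ 2 - y * dP * wy ^ 2 + 1 / 2 * (y * ay + a) * wp ^ 2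
        + (g * y - y * ap) * wp * wy + y * (et * wy ^ 2 + ze * w * wy))
      = (1 / 5 - 2 / 5 * (y * dP) + 2 / 5 * (y * et)) * wy ^ 2
        + (-(2 / 5) * a + 1 / 5 * (y * ay) + p * (g - ap / 2 - dY)) * wp ^ 2
        + (p * et - 1 / 5 * d + 2 / 5 * (g * y - y * ap)) * (wp * wy)
        + 1 / 20 * w ^ 2 * (2 * dPY + app - gp - etY + 2 * ze)
        + (p * (ze * w * wp) + 2 / 5 * (y * (ze * w * wy))) := by ring
  rw [key]
  have s1 : 3 / 20 * wy ^ 2 ≤ 199 / 1000 * wy ^ 2 - 1250 * β * wy ^ 2 - 1 / 50 * β * wy ^ 2 := by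
    linarith [sq_nonneg wy]
  have s2 : ((K + 1) + 38 * K ^ 2) * β * w ^ 2 ≤ 40 * (K + 1) ^ 2 * β * w ^ 2 := by linarith
  have s3 : 1 / 4 * β * wp ^ 2 ≤ 3 / 10 * β * wp ^ 2 - 1 / 25 * β * wp ^ 2 := by linarith
  linarith

/-- Energy is controlled by the equation tested with the global multiplier. -/
theorem global_est {c : Coef} (hc : c.Smooth) {β δ μ K : ℝ} {j : ℕ} {w : ℝ × ℝ → ℝ}
    (hw : ContDiff ℝ 2 w) (hs : tsupport w ⊆ Box) (hl : Lvl c β δ μ K j) (hj : j ≤ 3)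
    (hβ : 0 < β) (hβ' : β ≤ 1 / 100000) (hδ : δ ≤ 1 / 1000) (hμ : μ ≤ δ * β)
    (hKβ : 10000 * (K + 1) ^ 2 * β ≤ 1) :
    energy β w ≤ 20 * ∫ q, c.op w q * gmult w q := by
  have hcs := hasCompactSupport_of_box hs
  obtain ⟨c0, c1, c2⟩ := continuous_derivs (hw.of_le (by norm_num))
  have hop : Continuous (c.op w) := by
    have hwp : ContDiff ℝ 1 (dp w) := contDiff_dp hw (by norm_num)
    have hwy : ContDiff ℝ 1 (dy w) := contDiff_dy hw (by norm_num)
    obtain ⟨-, i1, -⟩ := continuous_derivs hwp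
    obtain ⟨-, i2, i3⟩ := continuous_derivs hwy
    have := hc.d.continuous; have := hc.a.continuous; have := hc.g.continuous
    have := hc.et.continuous; have := hc.ze.continuous
    unfold Coef.op; fun_prop
  have I1 := ident_one hc (θ := Prod.fst) contDiff_fst hw hcs
  have I0 := ident_zero hc (ν := fun _ => (1 : ℝ)) contDiff_const hw hcs
  have I2 := ident_two hc (θ := Prod.snd) contDiff_snd hw hcs
  have e1 : ∀ q, dp (Prod.fst : ℝ × ℝ → ℝ) q = 1 ∧ dy (Prod.fst : ℝ × ℝ → ℝ) q = 0 :=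
    fun q => by simp [dp, dy, fderiv_fst]
  have e2 : ∀ q, dp (Prod.snd : ℝ × ℝ → ℝ) q = 0 ∧ dy (Prod.snd : ℝ × ℝ → ℝ) q = 1 :=
    fun q => by simp [dp, dy, fderiv_snd]
  have one : ∀ f : ℝ × ℝ → ℝ, (f * fun _ => (1 : ℝ)) = f := fun f => by
    funext q; simp
  have za : dy (dy fun _ : ℝ × ℝ => (1 : ℝ)) = fun _ => 0 := by
    funext q
    have : (dy fun _ : ℝ × ℝ => (1 : ℝ)) = fun _ => 0 := funext fun r => dy_const 1 r
    rw [this]; exact dy_const 0 q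
  simp only [one, za] at I0
  have kd := hc.d.differentiable two_ne_zero
  have ka := hc.a.differentiable two_ne_zero
  have ks : Differentiable ℝ (Prod.snd : ℝ × ℝ → ℝ) := differentiable_snd
  simp (disch := fun_prop) only [dp_mul, dy_mul] at I2
  simp only [(e1 _).1, (e1 _).2, (e2 _).1, (e2 _).2] at I1 I2
  have a1 : Continuous (dp c.a) := (continuous_derivs (hc.a.of_le (by norm_num))).2.1
  have a2 : Continuous (dy c.a) := (continuous_derivs (hc.a.of_le (by norm_num))).2.2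
  have a3 : Continuous (dp (dp c.a)) :=
    (continuous_derivs (contDiff_dp (m := 1) hc.a (by norm_num))).2.1
  have d1 : Continuous (dp c.d) := (continuous_derivs (hc.d.of_le (by norm_num))).2.1
  have d2 : Continuous (dy c.d) := (continuous_derivs (hc.d.of_le (by norm_num))).2.2
  have d3 : Continuous (dy (dp c.d)) :=
    (continuous_derivs (contDiff_dp (m := 1) hc.d (by norm_num))).2.2
  have g1 : Continuous (dp c.g) := (continuous_derivs hc.g).2.1
  have g2 : Continuous (dy c.et) := (continuous_derivs hc.et).2.2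
  have := hc.d.continuous; have := hc.a.continuous; have := hc.g.continuous
  have := hc.et.continuous; have := hc.ze.continuous
  have split : ∀ u v z : ℝ × ℝ → ℝ, Integrable u → Integrable v → Integrable z →
      ∫ q, (u q + 1 / 10 * v q + 2 / 5 * z q) =
        (∫ q, u q) + 1 / 10 * (∫ q, v q) + 2 / 5 * ∫ q, z q := by
    intro u v z hu hv hz
    rw [integral_add (hu.fun_add (hv.const_mul _)) (hz.const_mul _),
      integral_add hu (hv.const_mul _), integral_const_mul, integral_const_mul]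
  have hL : (∫ q, c.op w q * gmult w q) =
      (∫ q, c.op w q * (q.1 * dp w q)) + 1 / 10 * (∫ q, c.op w q * (1 * w q))
        + 2 / 5 * ∫ q, c.op w q * (q.2 * dy w q) := by
    rw [← split]
    · refine integral_congr_ae (Filter.Eventually.of_forall fun q => ?_)
      simp only [gmult]; ring
    all_goals exact integrable_of_off (by fun_prop) hcs fun q hq => by simp [eq_zero_off q hq]
  rw [I1, I0, I2, ← split] at hL
  rotate_left
  iterate 3 exact integrable_of_off (by fun_prop) hcs fun q hq => by simp [eq_zero_off q hq]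
  have i0 : Integrable fun q => w q ^ 2 :=
    integrable_of_off (by fun_prop) hcs fun q hq => by simp [eq_zero_off q hq]
  have i1 : Integrable fun q => dy w q ^ 2 :=
    integrable_of_off (by fun_prop) hcs fun q hq => by simp [eq_zero_off q hq]
  have iG : Integrable fun q => dy w q ^ 2 + β * dp w q ^ 2 :=
    integrable_of_off (by fun_prop) hcs fun q hq => by simp [eq_zero_off q hq]
  have i2 : Integrable fun q => 1 / 20 * dy w q ^ 2 - 40 * (K + 1) ^ 2 * β * w q ^ 2 :=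
    integrable_of_off (by fun_prop) hcs fun q hq => by simp [eq_zero_off q hq]
  have hP := poincare (hw.of_le (by norm_num)) hs
  have m : ∫ q, (1 / 10 * (dy w q ^ 2 + β * dp w q ^ 2)
      + (1 / 20 * dy w q ^ 2 - 40 * (K + 1) ^ 2 * β * w q ^ 2)) ≤ ∫ q, c.op w q * gmult w q := by
    rw [hL]
    refine integral_mono ((iG.const_mul _).fun_add i2)
      (integrable_of_off (by fun_prop) hcs fun q hq => by simp [eq_zero_off q hq]) fun q => ?_
    by_cases hq : q ∈ tsupport w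
    · have b := hs hq
      have bb := box_bounds b
      have hJ : (j : ℝ) + 1 ≤ 4 := by exact_mod_cast Nat.succ_le_succ hj
      have H := global_alg (J := (j : ℝ) + 1) (wp := dp w q) (wy := dy w q) (w := w q)
        (by linarith [(Nat.cast_nonneg j : (0:ℝ) ≤ j)]) hJ hβ hβ' hδ hμ bb.1 bb.2 (Real.sqrt_nonneg β)
        (Real.sqrt_le_one.2 (by linarith)) (hl.a0 q b) (hl.ap q b) (hl.ay q b) (hl.app q b)
        (hl.g0 q b) (hl.gp q b) (hl.et0 q b) (hl.ety q b) (hl.ze0 q b) (hl.d0 q b) (hl.dd q b).1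
        (hl.dd q b).2.1 (hl.dd q b).2.2
      have : 0 ≤ β * dp w q ^ 2 := by positivity
      linarith
    · simp [eq_zero_off q hq]
  rw [integral_add (iG.const_mul _) i2, integral_const_mul,
    integral_sub (i1.const_mul _) (i0.const_mul _), integral_const_mul, integral_const_mul] at m
  have h40 : 40 * (K + 1) ^ 2 * β * ∫ q, w q ^ 2 ≤ 1 / 250 * ∫ q, w q ^ 2 := by
    refine mul_le_mul_of_nonneg_right (by linarith) (integral_nonneg fun q => sq_nonneg _)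
  have hpos : 0 ≤ ∫ q, dy w q ^ 2 := integral_nonneg fun q => sq_nonneg _
  have hG : energy β w = ∫ q, (dy w q ^ 2 + β * dp w q ^ 2) := rfl
  have hnn : 0 ≤ energy β w := integral_nonneg fun q =>
    add_nonneg (sq_nonneg _) (mul_nonneg hβ.le (sq_nonneg _))
  linarith

end Vale.Agent.P229.Est
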