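import Vale.Agent.P229.Est.Basic

/-!
# P229: multiplier identities for the operator `∂_yy + 2d ∂_py + a ∂_pp + g ∂_p + et ∂_y + ze`

(I0) tests with `ν w`, (I1) with `θ w_p`, (I2) with `θ w_y`.  `op_dp` is the equation satisfied
by the `p`-derivative.
-/

open MeasureTheory
open scoped ContDiff

namespace Vale.Agent.P229.Est

/-- The coefficients of the operator. -/
structure Coef where
  d : ℝ × ℝ → ℝ
  a : ℝ × ℝ → ℝ
  g : ℝ × ℝ → ℝ
  et : ℝ × ℝ → ℝ
  ze : ℝ × ℝ → ℝ

/-- The operator. -/
noncomputable def Coef.op (c : Coef) (w : ℝ × ℝ → ℝ) (q : ℝ × ℝ) : ℝ :=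
  dy (dy w) q + 2 * c.d q * dp (dy w) q + c.a q * dp (dp w) q + c.g q * dp w q
    + c.et q * dy w q + c.ze q * w q

/-- Second derivatives of `d` and `a`, first derivatives of `g`, `et`, `ze` are continuous. -/
structure Coef.Smooth (c : Coef) : Prop where
  d : ContDiff ℝ 2 c.d
  a : ContDiff ℝ 2 c.a
  g : ContDiff ℝ 1 c.g
  et : ContDiff ℝ 1 c.et
  ze : ContDiff ℝ 1 c.ze

/-- The coefficients of the equation for the `p`-derivative. -/
noncomputable def Coef.next (c : Coef) : Coef where
  d := c.d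
  a := c.a
  g := c.g + dp c.a
  et := c.et + (2 : ℝ) • dp c.d
  ze := c.ze + dp c.g

set_option linter.unusedSimpArgs false

variable {c : Coef} {w : ℝ × ℝ → ℝ}

theorem eq_zero_off (q : ℝ × ℝ) (hq : q ∉ tsupport w) :
    w q = 0 ∧ dp w q = 0 ∧ dy w q = 0 := by
  refine ⟨image_eq_zero_of_notMem_tsupport hq, ?_⟩
  have : fderiv ℝ w q = 0 := fderiv_of_notMem_tsupport (𝕜 := ℝ) hq
  simp [dp, dy, this]

/-- The equation for the `p`-derivative. -/
theorem op_dp (hc : c.Smooth) (hw : ContDiff ℝ 3 w) (q : ℝ × ℝ) :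
    dp (c.op w) q = c.next.op (dp w) q + dp c.et q * dy w q + dp c.ze q * w q := by
  have h1 := hc.d.differentiable two_ne_zero
  have h2 := hc.a.differentiable two_ne_zero
  have h3 := hc.g.differentiable one_ne_zero
  have h4 := hc.et.differentiable one_ne_zero
  have h5 := hc.ze.differentiable one_ne_zero
  have h6 : Differentiable ℝ w := hw.differentiable (by norm_num)
  have hwp : ContDiff ℝ 2 (dp w) := contDiff_dp hw (by norm_num)
  have hwy : ContDiff ℝ 2 (dy w) := contDiff_dy hw (by norm_num)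
  have h7 := hwp.differentiable two_ne_zero
  have h8 := hwy.differentiable two_ne_zero
  have h9 : Differentiable ℝ (dp (dy w)) :=
    (contDiff_dp (m := 1) hwy (by norm_num)).differentiable one_ne_zero
  have h10 : Differentiable ℝ (dy (dy w)) :=
    (contDiff_dy (m := 1) hwy (by norm_num)).differentiable one_ne_zero
  have h11 : Differentiable ℝ (dp (dp w)) :=
    (contDiff_dp (m := 1) hwp (by norm_num)).differentiable one_ne_zero
  have e : c.op w = dy (dy w) + ((2 : ℝ) • (c.d * dp (dy w))) + c.a * dp (dp w) + c.g * dp w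
      + c.et * dy w + c.ze * w := by
    funext r; simp [Coef.op]; ring
  have e1 : dp (dy w) = dy (dp w) := funext (dp_dy (hw.of_le (by norm_num)))
  rw [e]
  simp (disch := fun_prop) only [dp_add, dp_mul, dp_smul]
  simp only [Coef.op, Coef.next, Pi.add_apply, Pi.smul_apply, smul_eq_mul]
  rw [dp_dy hwy, e1, dp_dy hwp]
  ring

variable {ν θ : ℝ × ℝ → ℝ}

/-- (I0): testing with `ν w`. -/
theorem ident_zero (hc : c.Smooth) (hν : ContDiff ℝ 2 ν) (hw : ContDiff ℝ 2 w)
    (hs : HasCompactSupport w) :
    ∫ q, c.op w q * (ν q * w q) =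
      ∫ q, (-(ν q * (dy w q ^ 2 + 2 * c.d q * dp w q * dy w q + c.a q * dp w q ^ 2))
        + 1 / 2 * w q ^ 2 * (dy (dy ν) q + 2 * dy (dp (c.d * ν)) q + dp (dp (c.a * ν)) q
          - dp (c.g * ν) q - dy (c.et * ν) q + 2 * c.ze q * ν q)) := by
  have cd := hc.d; have ca := hc.a; have cg := hc.g; have ce := hc.et; have cz := hc.ze
  have hwp : ContDiff ℝ 1 (dp w) := contDiff_dp hw (by norm_num)
  have hwy : ContDiff ℝ 1 (dy w) := contDiff_dy hw (by norm_num)
  have w1 : ContDiff ℝ 1 w := hw.of_le (by norm_num)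
  have n1 : ContDiff ℝ 1 ν := hν.of_le (by norm_num)
  have d1 : ContDiff ℝ 1 c.d := cd.of_le (by norm_num)
  have a1 : ContDiff ℝ 1 c.a := ca.of_le (by norm_num)
  have hdn : ContDiff ℝ 2 (c.d * ν) := cd.mul hν
  have han : ContDiff ℝ 2 (c.a * ν) := ca.mul hν
  have hdnp : ContDiff ℝ 1 (dp (c.d * ν)) := contDiff_dp hdn (by norm_num)
  have hdny : ContDiff ℝ 1 (dy (c.d * ν)) := contDiff_dy hdn (by norm_num)
  have hanp : ContDiff ℝ 1 (dp (c.a * ν)) := contDiff_dp han (by norm_num)
  have hny : ContDiff ℝ 1 (dy ν) := contDiff_dy hν (by norm_num)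
  refine integral_div
    (A := c.d * ν * w * dy w - (1 / 2 : ℝ) • (dy (c.d * ν) * w * w) + c.a * ν * w * dp w
      - (1 / 2 : ℝ) • (dp (c.a * ν) * w * w) + (1 / 2 : ℝ) • (c.g * ν * w * w))
    (B := ν * w * dy w - (1 / 2 : ℝ) • (dy ν * w * w) + c.d * ν * w * dp w
      - (1 / 2 : ℝ) • (dp (c.d * ν) * w * w) + (1 / 2 : ℝ) • (c.et * ν * w * w))
    (by simp only [Pi.add_def, Pi.sub_def, Pi.mul_def, Pi.smul_def]; fun_prop)
    (by simp only [Pi.add_def, Pi.sub_def, Pi.mul_def, Pi.smul_def]; fun_prop) ?_ ?_ ?_ fun q => ?_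
  · exact HasCompactSupport.intro hs.isCompact fun q hq => by simp [eq_zero_off q hq]
  · exact HasCompactSupport.intro hs.isCompact fun q hq => by simp [eq_zero_off q hq]
  · refine Continuous.integrable_of_hasCompactSupport ?_
      (HasCompactSupport.intro hs.isCompact fun q hq => by simp [eq_zero_off q hq])
    have i1 : Continuous (dy (dy ν)) := (contDiff_dy (m := 0) hny (by simp)).continuous
    have i2 : Continuous (dy (dp (c.d * ν))) := (contDiff_dy (m := 0) hdnp (by simp)).continuous
    have i3 : Continuous (dp (dp (c.a * ν))) := (contDiff_dp (m := 0) hanp (by simp)).continuous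
    have i4 : Continuous (dp (c.g * ν)) := (contDiff_dp (m := 0) (cg.mul n1) (by simp)).continuous
    have i5 : Continuous (dy (c.et * ν)) := (contDiff_dy (m := 0) (ce.mul n1) (by simp)).continuous
    fun_prop
  · have k1 := w1.differentiable one_ne_zero
    have k2 := hwp.differentiable one_ne_zero
    have k3 := hwy.differentiable one_ne_zero
    have k4 := n1.differentiable one_ne_zero
    have k5 := d1.differentiable one_ne_zero
    have k6 := a1.differentiable one_ne_zero
    have k7 := cg.differentiable one_ne_zero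
    have k8 := ce.differentiable one_ne_zero
    have k9 := hdnp.differentiable one_ne_zero
    have k10 := hdny.differentiable one_ne_zero
    have k11 := hanp.differentiable one_ne_zero
    have k12 := hny.differentiable one_ne_zero
    simp (disch := fun_prop) only [dp_add, dy_add, dp_sub, dy_sub, dp_mul, dy_mul, dp_smul, dy_smul,
      Pi.mul_apply]
    rw [dp_dy hdn, ← dp_dy hw]
    simp only [Coef.op]
    ring

/-- (I1): testing with `θ w_p`. -/
theorem ident_one (hc : c.Smooth) (hθ : ContDiff ℝ 1 θ) (hw : ContDiff ℝ 2 w)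
    (hs : HasCompactSupport w) :
    ∫ q, c.op w q * (θ q * dp w q) =
      ∫ q, (1 / 2 * dp θ q * (dy w q ^ 2 - c.a q * dp w q ^ 2)
        + θ q * (c.g q - dp c.a q / 2 - dy c.d q) * dp w q ^ 2
        - dy θ q * (dy w q * dp w q + c.d q * dp w q ^ 2)
        + θ q * (c.et q * dy w q * dp w q + c.ze q * w q * dp w q)) := by
  have cd := hc.d; have ca := hc.a; have cg := hc.g; have ce := hc.et; have cz := hc.ze
  have hwp : ContDiff ℝ 1 (dp w) := contDiff_dp hw (by norm_num)
  have hwy : ContDiff ℝ 1 (dy w) := contDiff_dy hw (by norm_num)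
  have w1 : ContDiff ℝ 1 w := hw.of_le (by norm_num)
  have d1 : ContDiff ℝ 1 c.d := cd.of_le (by norm_num)
  have a1 : ContDiff ℝ 1 c.a := ca.of_le (by norm_num)
  refine integral_div
    (A := (1 / 2 : ℝ) • (c.a * θ * dp w * dp w) - (1 / 2 : ℝ) • (θ * dy w * dy w))
    (B := θ * dy w * dp w + c.d * θ * dp w * dp w)
    (by simp only [Pi.add_def, Pi.sub_def, Pi.mul_def, Pi.smul_def]; fun_prop)
    (by simp only [Pi.add_def, Pi.sub_def, Pi.mul_def, Pi.smul_def]; fun_prop) ?_ ?_ ?_ fun q => ?_
  · exact HasCompactSupport.intro hs.isCompact fun q hq => by simp [eq_zero_off q hq]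
  · exact HasCompactSupport.intro hs.isCompact fun q hq => by simp [eq_zero_off q hq]
  · refine Continuous.integrable_of_hasCompactSupport ?_
      (HasCompactSupport.intro hs.isCompact fun q hq => by simp [eq_zero_off q hq])
    have i1 : Continuous (dp θ) := (contDiff_dp (m := 0) hθ (by simp)).continuous
    have i2 : Continuous (dy θ) := (contDiff_dy (m := 0) hθ (by simp)).continuous
    have i3 : Continuous (dp c.a) := (contDiff_dp (m := 0) a1 (by simp)).continuous
    have i4 : Continuous (dy c.d) := (contDiff_dy (m := 0) d1 (by simp)).continuous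
    fun_prop
  · have k2 := hwp.differentiable one_ne_zero
    have k3 := hwy.differentiable one_ne_zero
    have k4 := hθ.differentiable one_ne_zero
    have k5 := d1.differentiable one_ne_zero
    have k6 := a1.differentiable one_ne_zero
    simp (disch := fun_prop) only [dp_add, dy_add, dp_sub, dy_sub, dp_mul, dy_mul, dp_smul, dy_smul,
      Pi.mul_apply]
    rw [← dp_dy hw]
    simp only [Coef.op]
    ring

/-- (I2): testing with `θ w_y`. -/
theorem ident_two (hc : c.Smooth) (hθ : ContDiff ℝ 1 θ) (hw : ContDiff ℝ 2 w)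
    (hs : HasCompactSupport w) :
    ∫ q, c.op w q * (θ q * dy w q) =
      ∫ q, (-(1 / 2) * dy θ q * dy w q ^ 2 - dp (c.d * θ) q * dy w q ^ 2
        + 1 / 2 * dy (c.a * θ) q * dp w q ^ 2
        + (c.g q * θ q - dp (c.a * θ) q) * dp w q * dy w q
        + θ q * (c.et q * dy w q ^ 2 + c.ze q * w q * dy w q)) := by
  have cd := hc.d; have ca := hc.a; have cg := hc.g; have ce := hc.et; have cz := hc.ze
  have hwp : ContDiff ℝ 1 (dp w) := contDiff_dp hw (by norm_num)
  have hwy : ContDiff ℝ 1 (dy w) := contDiff_dy hw (by norm_num)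
  have w1 : ContDiff ℝ 1 w := hw.of_le (by norm_num)
  have d1 : ContDiff ℝ 1 c.d := cd.of_le (by norm_num)
  have a1 : ContDiff ℝ 1 c.a := ca.of_le (by norm_num)
  refine integral_div
    (A := c.a * θ * dp w * dy w + c.d * θ * dy w * dy w)
    (B := (1 / 2 : ℝ) • (θ * dy w * dy w) - (1 / 2 : ℝ) • (c.a * θ * dp w * dp w))
    (by simp only [Pi.add_def, Pi.sub_def, Pi.mul_def, Pi.smul_def]; fun_prop)
    (by simp only [Pi.add_def, Pi.sub_def, Pi.mul_def, Pi.smul_def]; fun_prop) ?_ ?_ ?_ fun q => ?_
  · exact HasCompactSupport.intro hs.isCompact fun q hq => by simp [eq_zero_off q hq]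
  · exact HasCompactSupport.intro hs.isCompact fun q hq => by simp [eq_zero_off q hq]
  · refine Continuous.integrable_of_hasCompactSupport ?_
      (HasCompactSupport.intro hs.isCompact fun q hq => by simp [eq_zero_off q hq])
    have i2 : Continuous (dy θ) := (contDiff_dy (m := 0) hθ (by simp)).continuous
    have i3 : Continuous (dp (c.d * θ)) := (contDiff_dp (m := 0) (d1.mul hθ) (by simp)).continuous
    have i4 : Continuous (dy (c.a * θ)) := (contDiff_dy (m := 0) (a1.mul hθ) (by simp)).continuous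
    have i5 : Continuous (dp (c.a * θ)) := (contDiff_dp (m := 0) (a1.mul hθ) (by simp)).continuous
    fun_prop
  · have k2 := hwp.differentiable one_ne_zero
    have k3 := hwy.differentiable one_ne_zero
    have k4 := hθ.differentiable one_ne_zero
    have k5 := d1.differentiable one_ne_zero
    have k6 := a1.differentiable one_ne_zero
    simp (disch := fun_prop) only [dp_add, dy_add, dp_sub, dy_sub, dp_mul, dy_mul, dp_smul, dy_smul,
      Pi.mul_apply]
    rw [← dp_dy hw]
    simp only [Coef.op]
    ring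

end Vale.Agent.P229.Est
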