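import Vale.Agent.P229.Est.Weights

/-!
# P229: LEFT, the radial point estimate at one level
-/

open MeasureTheory
open scoped ContDiff

namespace Vale.Agent.P229.Est

/-- The fixed small parameter. -/
noncomputable def lam : ℝ := 1 / 200

theorem young {L x B : ℝ} (hL : 0 < L) : |x * B| ≤ L / 8 * B ^ 2 + 2 / L * x ^ 2 := by
  rw [abs_mul, show 2 / L * x ^ 2 = 2 * |x| ^ 2 / L by rw [sq_abs]; ring,
    ← sub_le_iff_le_add', le_div_iff₀ hL, ← sq_abs B]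
  nlinarith [sq_nonneg (4 * |x| - L * |B|)]

theorem left_main {θ G L B : ℝ} (hθ : 0 ≤ θ) (hG : G ≤ -L) :
    θ * L * B ^ 2 ≤ -(θ * G * B ^ 2) := by
  nlinarith [mul_le_mul_of_nonneg_left hG (mul_nonneg hθ (sq_nonneg B))]

theorem left_et {θ et A B s β μ : ℝ} (hθ : 0 ≤ θ) (hsq : s ^ 2 = β) (hμ : 0 ≤ μ) (hs : 0 ≤ s)
    (het : |et| ≤ μ * (s * s)) :
    θ * (et * A * B) ≤ μ * s / 2 * (θ * A ^ 2 + β * (θ * B ^ 2)) := by
  have i : |A| * |B| * s ≤ (A ^ 2 + β * B ^ 2) / 2 := by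
    rw [← hsq]; nlinarith [sq_nonneg (|A| - s * |B|), sq_abs A, sq_abs B]
  have j : et * A * B ≤ μ * (s * s) * |A| * |B| := by
    calc et * A * B ≤ |et * A * B| := le_abs_self _
      _ = |et| * |A| * |B| := by rw [abs_mul, abs_mul]
      _ ≤ _ := by gcongr
  nlinarith [mul_le_mul_of_nonneg_left j hθ,
    mul_le_mul_of_nonneg_left i (mul_nonneg hθ (mul_nonneg hμ hs))]

theorem left_young {θ x B L k Ww : ℝ} (hL : 0 < L) (hθ0 : 0 ≤ θ) (hθ1 : θ ≤ 1)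
    (hx : x ^ 2 ≤ k * Ww) : θ * |x * B| ≤ L / 8 * (θ * B ^ 2) + 2 * k / L * Ww :=
  calc θ * |x * B| ≤ θ * (L / 8 * B ^ 2) + θ * (2 / L * x ^ 2) := by
        rw [← mul_add]; exact mul_le_mul_of_nonneg_left (young hL) hθ0
    _ ≤ L / 8 * (θ * B ^ 2) + 2 / L * x ^ 2 := by
        rw [mul_left_comm θ]
        exact add_le_add le_rfl (mul_le_of_le_one_left (by positivity) hθ1)
    _ ≤ L / 8 * (θ * B ^ 2) + 2 / L * (k * Ww) := by gcongr
    _ = _ := by ring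

theorem left_square {P A B d Ww : ℝ} (hP0 : 0 ≤ P) (hP1 : P ≤ 1) (h : (d * B) ^ 2 ≤ Ww) :
    -Ww ≤ P * (A ^ 2 + d * B * A) := by
  have i : -(d * B) ^ 2 ≤ A ^ 2 + d * B * A := by
    nlinarith [sq_nonneg (A + d * B / 2), sq_nonneg (d * B)]
  nlinarith [mul_le_mul_of_nonneg_left i hP0,
    mul_le_mul_of_nonneg_right hP1 (sq_nonneg (d * B))]

theorem left_lower {θ A B v F a d Zθ β Z Ww : ℝ} (hθ0 : 0 ≤ θ) (hθ1 : θ ≤ 1)
    (ha : |a| ≤ 2 * β) (hdB : (d * B) ^ 2 ≤ Ww) (hFv : |F * v| ≤ Ww) (hv : v ^ 2 ≤ Ww)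
    (hzt : |Zθ| ≤ Z) :
    θ * A ^ 2 / 2 - 2 * β * (θ * B ^ 2) ≤
      (F * (θ * v) - (-(θ * (A ^ 2 + 2 * d * B * A + a * B ^ 2)) + 1 / 2 * v ^ 2 * Zθ))
        + (3 + Z) * Ww := by
  have hZ : 0 ≤ Z := (abs_nonneg _).trans hzt
  have u1 : θ * (-a * B ^ 2) ≤ 2 * β * (θ * B ^ 2) := by
    nlinarith [mul_le_mul_of_nonneg_left (neg_le_of_abs_le ha) (mul_nonneg hθ0 (sq_nonneg B))]
  have u2 : -(θ * A ^ 2 / 2 + 2 * Ww) ≤ θ * (2 * d * B * A) := by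
    nlinarith [mul_nonneg hθ0 (sq_nonneg (A + 2 * (d * B))),
      mul_le_mul_of_nonneg_right hθ1 (sq_nonneg (d * B))]
  have u3 : -Ww ≤ F * (θ * v) := by
    nlinarith [mul_le_mul_of_nonneg_left (neg_abs_le (F * v)) hθ0,
      mul_le_mul_of_nonneg_right hθ1 (abs_nonneg (F * v))]
  have u4 : 1 / 2 * v ^ 2 * Zθ ≤ Z * Ww := by
    nlinarith [mul_le_mul_of_nonneg_left (le_of_abs_le hzt) (sq_nonneg v),
      mul_le_mul_of_nonneg_left hv hZ, mul_nonneg hZ (sq_nonneg v)]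
  linarith

theorem left_upper {θ P A B v F G a et d ze Zν s β L Kc Z h Ww : ℝ} (hh : 0 < h) (hL : 0 < L)
    (hθ0 : 0 ≤ θ) (hθ1 : θ ≤ 1) (hP0 : 0 ≤ P) (hP1 : P ≤ 1) (hG : G ≤ -L) (hsq : s ^ 2 = β) (hs : 0 ≤ s)
    (het : |et| ≤ lam / 40 * (s * s)) (hdB : (d * B) ^ 2 ≤ Ww) (hFv : |F * v| ≤ Ww)
    (hF : F ^ 2 ≤ Ww) (hv : v ^ 2 ≤ Ww) (hze : |ze| ≤ Kc) (hst : |Zν| ≤ Z) :
    3 / 4 * L * (θ * B ^ 2) - lam * s / 80 * (θ * A ^ 2 + β * (θ * B ^ 2)) ≤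
      (F * (θ * B) - (1 / 2 * -(P * (1 / h)) * (A ^ 2 - a * B ^ 2) + θ * G * B ^ 2
          - 0 * (A * B + d * B ^ 2) + θ * (et * A * B + ze * v * B)))
        + 1 / (2 * h) * (F * (P * v)
          - (-(P * (A ^ 2 + 2 * d * B * A + a * B ^ 2)) + 1 / 2 * v ^ 2 * Zν))
        + (2 / h + 2 * Kc ^ 2 / L + 2 / L + Z / h) * Ww := by
  have hu : 0 ≤ 1 / h := by positivity
  have hW : 0 ≤ Ww := (sq_nonneg v).trans hv
  have t1 := left_main (B := B) hθ0 hG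
  have t2 := left_et (A := A) (B := B) hθ0 hsq (by norm_num [lam]) hs het
  have t3 := left_young (B := B) hL hθ0 hθ1 (x := ze * v) (k := Kc ^ 2) (Ww := Ww) (by
    rw [mul_pow, ← sq_abs ze]
    exact mul_le_mul (pow_le_pow_left₀ (abs_nonneg ze) hze 2) hv (sq_nonneg v) (sq_nonneg _))
  have t4 := left_young (B := B) hL hθ0 hθ1 (x := F) (k := 1) (Ww := Ww) (by linarith)
  have t5 := mul_le_mul_of_nonneg_left (left_square (A := A) hP0 hP1 hdB) hu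
  have hu2 : (0 : ℝ) ≤ 1 / (2 * h) := by positivity
  have t6 : -Ww ≤ P * (F * v) := by
    nlinarith [mul_le_mul_of_nonneg_left (neg_abs_le (F * v)) hP0,
      mul_le_mul_of_nonneg_right hP1 (abs_nonneg (F * v))]
  have t6' := mul_le_mul_of_nonneg_left t6 hu2
  have t7 : 1 / 2 * v ^ 2 * Zν ≤ 2 * (Z * Ww) := by
    nlinarith [mul_le_mul_of_nonneg_left (le_of_abs_le hst) (sq_nonneg v),
      mul_le_mul_of_nonneg_left hv ((abs_nonneg _).trans hst),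
      mul_nonneg ((abs_nonneg _).trans hst) (sq_nonneg v)]
  have t7' := mul_le_mul_of_nonneg_left t7 hu2
  have s3 := mul_le_mul_of_nonneg_left (le_abs_self (ze * v * B)) hθ0
  have s4 := mul_le_mul_of_nonneg_left (neg_abs_le (F * B)) hθ0
  linear_combination t1 + t2 + t3 + t4 + t5 + t6' + t7' + s3 + s4 + mul_nonneg hu hW / 2

theorem zterm_eq_zero {c : Coef} {ν : ℝ × ℝ → ℝ} {q : ℝ × ℝ}
    (hν0 : ν =ᶠ[nhds q] fun _ => 0) : c.zterm ν q = 0 := by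
  have z : ∀ g : ℝ × ℝ → ℝ, g =ᶠ[nhds q] (fun _ => 0) →
      dp g =ᶠ[nhds q] (fun _ => 0) ∧ dy g =ᶠ[nhds q] (fun _ => 0) := fun g hg =>
    ⟨(hg.fderiv (𝕜 := ℝ)).mono fun r hr => by simp [dp, hr],
      (hg.fderiv (𝕜 := ℝ)).mono fun r hr => by simp [dy, hr]⟩
  have m : ∀ g : ℝ × ℝ → ℝ, g * ν =ᶠ[nhds q] (fun _ => 0) := fun g =>
    hν0.mono fun r hr => by simp [hr]
  have t1 := ((z _ (z ν hν0).2).2).eq_of_nhds
  have t2 := ((z _ (z _ (m c.d)).1).2).eq_of_nhds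
  have t3 := ((z _ (z _ (m c.a)).1).1).eq_of_nhds
  have t4 := ((z _ (m c.g)).1).eq_of_nhds
  have t5 := ((z _ (m c.et)).2).eq_of_nhds
  simp [Coef.zterm, t1, t2, t3, t4, t5, hν0.eq_of_nhds]

theorem left_facts {F v γ B d Ww : ℝ} (hd : |d| ≤ γ)
    (hWq : F ^ 2 + v ^ 2 + γ ^ 2 * B ^ 2 ≤ Ww) :
    v ^ 2 ≤ Ww ∧ F ^ 2 ≤ Ww ∧ |F * v| ≤ Ww ∧ (d * B) ^ 2 ≤ Ww := by
  have hd2 : d ^ 2 ≤ γ ^ 2 := by rw [← sq_abs d]; exact pow_le_pow_left₀ (abs_nonneg d) hd 2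
  have := mul_le_mul_of_nonneg_right hd2 (sq_nonneg B)
  refine ⟨?_, ?_, ?_, ?_⟩
  · linarith [sq_nonneg F, mul_nonneg (sq_nonneg γ) (sq_nonneg B)]
  · linarith [sq_nonneg v, mul_nonneg (sq_nonneg γ) (sq_nonneg B)]
  · rw [abs_le]
    constructor <;> nlinarith [sq_nonneg (F - v), sq_nonneg (F + v),
      mul_nonneg (sq_nonneg γ) (sq_nonneg B)]
  · rw [mul_pow]; linarith [sq_nonneg F, sq_nonneg v]

theorem left_combine {k s β L X Y R1 R0 T : ℝ} (hs : 0 < s) (hsq : s ^ 2 = β)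
    (hk : k = 25 / (3 * lam * s)) (hL : L = lam * β * s) (hX : 0 ≤ X)
    (e1 : 3 / 4 * L * X - lam * s / 80 * (Y + β * X) ≤ R1) (e0 : Y / 2 - 2 * β * X ≤ R0)
    (hT : k * R1 + 53 / 24 * R0 ≤ T) : Y + β * X ≤ T := by
  have hl : (0 : ℝ) < lam := by norm_num [lam]
  have hk0 : 0 ≤ k := by rw [hk]; positivity
  have hx : k * (3 / 4 * L - lam * s / 80 * β) - 53 / 12 * β ≥ β := by
    rw [hk, hL]
    field_simp
    nlinarith [hsq]
  have hy : k * (lam * s / 80) = 5 / 48 := by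
    rw [hk]; field_simp; norm_num
  linear_combination mul_le_mul_of_nonneg_left e1 hk0
    + mul_le_mul_of_nonneg_left e0 (by norm_num : (0 : ℝ) ≤ 53 / 24) + hT
    + mul_le_mul_of_nonneg_right hx hX + le_of_eq (congrArg (· * Y) hy)

/-- The constant of LEFT. -/
noncomputable def leftK (S β h Kc : ℝ) : ℝ :=
  25 / (3 * lam * Real.sqrt β) * (2 / h + 2 * Kc ^ 2 / (lam * β * Real.sqrt β)
      + 2 / (lam * β * Real.sqrt β) + 20 * Kc * S / h ^ 2 / h)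
    + 53 / 24 * (3 + 20 * Kc * S / h ^ 2)

theorem leftK_mono {S β h Kc β' h' : ℝ} (hS : 0 ≤ S) (hKc : 0 ≤ Kc) (hβ : 0 < β) (hh : 0 < h)
    (hb : β ≤ β') (hh' : h ≤ h') : leftK S β' h' Kc ≤ leftK S β h Kc := by
  have hlam : (0 : ℝ) < lam := by norm_num [lam]
  have := Real.sqrt_pos.2 hβ
  have hs := Real.sqrt_le_sqrt hb
  have : 0 < h' := hh.trans_le hh'
  have : 0 < β' := hβ.trans_le hb
  have : 0 < Real.sqrt β' := Real.sqrt_pos.2 ‹_›
  unfold leftK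
  gcongr

/-- LEFT at one level: where the first order coefficient has the sign of a radial point, the
energy left of a step is controlled by the right side, the function and a small error. -/
theorem left_level_at {S β h Kc : ℝ} (hS : 1 ≤ S)
    (hSb : ∀ x, (|step x| ≤ S ∧ |deriv step x| ≤ S ∧ |deriv (deriv step) x| ≤ S) ∧
      (|slope x| ≤ S ∧ |deriv slope x| ≤ S ∧ |deriv (deriv slope) x| ≤ S))
    (hβ : 0 < β) (hh : 0 < h) (hh1 : h ≤ 1) (hKc : 0 ≤ Kc)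
    (c : Coef) (w : ℝ × ℝ → ℝ) (x₀ γ : ℝ) (W : ℝ × ℝ → ℝ)
    (hc : c.Smooth) (hw : ContDiff ℝ 2 w) (hs : HasCompactSupport w) (hW : Integrable W)
    (hW0 : ∀ q, 0 ≤ W q)
    (hyp : ∀ q ∈ tsupport w, q.1 ≤ x₀ + h →
        c.Bd Kc q ∧ |c.a q| ≤ 2 * β ∧ |c.et q| ≤ lam * β / 40 ∧ |c.d q| ≤ γ ∧
        c.g q - dp c.a q / 2 - dy c.d q ≤ -(lam * β * Real.sqrt β) ∧
        c.op w q ^ 2 + w q ^ 2 + γ ^ 2 * dp w q ^ 2 ≤ W q) :
    ∫ q, fallP h x₀ q * en β w q ≤ leftK S β h Kc * ∫ q, W q := by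
  unfold leftK
  have hlam : (0 : ℝ) < lam := by norm_num [lam]
  set s := Real.sqrt β with hs'
  have hs0 : 0 < s := Real.sqrt_pos.2 hβ
  have hsq : s ^ 2 = β := Real.sq_sqrt hβ.le
  set L := lam * β * s with hL'
  have hL : 0 < L := by positivity
  set Z := 20 * Kc * S / h ^ 2 with hZ'
  have hZ : 0 ≤ Z := by positivity
  set K1 := 2 / h + 2 * Kc ^ 2 / L + 2 / L + Z / h with hK1
  set K0 := 3 + Z with hK0
  set k := 25 / (3 * lam * s) with hk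
  have hk0 : 0 ≤ k := by positivity
  have hK10 : 0 ≤ K1 := by positivity
  have hK00 : 0 ≤ K0 := by positivity
  clear_value s L Z K1 K0 k
  have hν : ContDiff ℝ 2 (prof slope h x₀) := prof_contDiff (slope_contDiff (n := 2))
  have hθ2 : ContDiff ℝ 2 (fallP h x₀) := fallP_contDiff (n := 2)
  obtain ⟨i1, z1⟩ := res1_spec (θ := fallP h x₀) hc (hθ2.of_le one_le_two) hw hs
  obtain ⟨i0, z0⟩ := res0_spec (ν := prof slope h x₀) hc hν hw hs
  have hR : Integrable (fun q => c.res1 (fallP h x₀) w q + 1 / (2 * h) * c.res0 (prof slope h x₀) w q)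
      ∧ ∫ q, (c.res1 (fallP h x₀) w q + 1 / (2 * h) * c.res0 (prof slope h x₀) w q) = 0 := by
    refine ⟨i1.fun_add (i0.const_mul _), ?_⟩
    rw [integral_add i1 (i0.const_mul _), integral_const_mul, z1, z0]
    simp
  rw [← integral_const_mul]
  refine integral_le_of_res (a := k) (b := 53 / 24)
    (integrable_mul_en (fallP_contDiff (n := 1)).continuous (hw.of_le one_le_two) hs)
    (hW.const_mul _) hR (res0_spec (ν := fallP h x₀) hc hθ2 hw hs) fun q => ?_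
  have hKW : 0 ≤ (k * K1 + 53 / 24 * K0) * W q := mul_nonneg (by positivity) (hW0 q)
  by_cases hq : q ∈ tsupport w
  swap
  · obtain ⟨e1, e2, e3⟩ := eq_zero_off (w := w) q hq
    simp [en, Coef.res0, Coef.res1, e1, e2, e3]
    linarith
  by_cases hp : q.1 ≤ x₀ + h
  swap
  · have hp' : x₀ + h ≤ q.1 := (not_le.1 hp).le
    have e1 : fallP h x₀ q = 0 := fallP_eq_zero hh hp'
    have e2 : prof slope h x₀ q = 0 :=
      slope_eq_zero (le_abs.2 (Or.inl ((le_div_iff₀ hh).2 (by linarith))))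
    have d1 : dp (fallP h x₀) q = 0 := by rw [dp_fallP, slopeP_eq_zero hh (Or.inr hp'), neg_zero]
    have d2 : dy (fallP h x₀) q = 0 := dy_fallP
    have hnb : ∀ᶠ r in nhds q, x₀ + h < r.1 :=
      (isOpen_lt continuous_const continuous_fst).mem_nhds (not_le.1 hp)
    have z1' := zterm_eq_zero (c := c) (ν := fallP h x₀) (q := q) (hnb.mono fun r hr => fallP_eq_zero hh hr.le)
    have z2' := zterm_eq_zero (c := c) (ν := prof slope h x₀) (q := q) (hnb.mono fun r hr =>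
      slope_eq_zero (le_abs.2 (Or.inl ((le_div_iff₀ hh).2 (by linarith)))))
    simp [Coef.res0, Coef.res1, e1, e2, d1, d2, z1', z2']
    linarith
  obtain ⟨hbd, ha, het, hd, hG, hWq⟩ := hyp q hq hp
  have hst := abs_zterm_prof (x₀ := x₀) hc (slope_contDiff (n := 2)) hh hh1
    (fun x => (hSb x).2) hbd
  rw [← hZ'] at hst
  have hzt : |c.zterm (fallP h x₀) q| ≤ Z :=
    (abs_zterm_prof (x₀ := x₀) hc (step_contDiff (n := 2)) hh hh1 (fun x => (hSb x).1) hbd).trans_eq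
      hZ'.symm
  have hze := hbd.ze

  simp only [Coef.res0, Coef.res1, dp_fallP, dy_fallP, en]
  obtain ⟨hθ0, hθ1⟩ := fallP_mem (h := h) (x₀ := x₀) (q := q)
  have hP0 : 0 ≤ prof slope h x₀ q := slope_nonneg _
  have hP1 : prof slope h x₀ q ≤ 1 := slope_le_one _
  rw [show slopeP h x₀ q = prof slope h x₀ q * (1 / h) by simp [slopeP, prof, div_eq_mul_inv]]
  generalize c.op w q = F at hWq ⊢
  generalize fallP h x₀ q = θ at hθ0 hθ1 ⊢
  generalize c.zterm (prof slope h x₀) q = Zν at hst ⊢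
  generalize c.zterm (fallP h x₀) q = Zθ at hzt ⊢
  generalize prof slope h x₀ q = P at hP0 hP1 ⊢
  generalize dy w q = A at hWq ⊢
  generalize dp w q = B at hWq ⊢
  generalize w q = v at hWq ⊢
  generalize c.g q - dp c.a q / 2 - dy c.d q = G at hG ⊢
  generalize c.a q = a at ha ⊢
  generalize c.et q = et at het ⊢
  generalize c.d q = d at hd ⊢
  generalize c.ze q = ze at hze ⊢
  generalize hWw : W q = Ww at hWq hKW ⊢
  obtain ⟨hv, hF, hFv, hdB⟩ := left_facts hd hWq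
  have het' : |et| ≤ lam / 40 * (s * s) := by rw [← sq, hsq]; linarith
  have e1 := left_upper (a := a) (s := s) (β := β) (A := A) hh hL hθ0 hθ1 hP0 hP1 hG hsq hs0.le
    het' hdB hFv hF hv hze hst
  have e0 := left_lower (A := A) hθ0 hθ1 ha hdB hFv hv hzt
  rw [← hK1] at e1
  rw [← hK0] at e0
  have key := left_combine (R1 := _ + _) (R0 := _ + _) (T := _) hs0 hsq hk hL'
    (mul_nonneg hθ0 (sq_nonneg B)) e1 e0 le_rfl
  linear_combination key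

/-- LEFT with one constant for all `β ≥ βm`, `h ≥ hm`. -/
theorem left_level (βm hm Kc : ℝ) (hβm : 0 < βm) (hhm : 0 < hm) (hKc : 0 ≤ Kc) :
    ∃ K, 0 ≤ K ∧ ∀ (β h : ℝ), βm ≤ β → hm ≤ h → h ≤ 1 →
      ∀ (c : Coef) (w : ℝ × ℝ → ℝ) (x₀ γ : ℝ) (W : ℝ × ℝ → ℝ),
      c.Smooth → ContDiff ℝ 2 w → HasCompactSupport w → Integrable W → (∀ q, 0 ≤ W q) →
      (∀ q ∈ tsupport w, q.1 ≤ x₀ + h →
        c.Bd Kc q ∧ |c.a q| ≤ 2 * β ∧ |c.et q| ≤ lam * β / 40 ∧ |c.d q| ≤ γ ∧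
        c.g q - dp c.a q / 2 - dy c.d q ≤ -(lam * β * Real.sqrt β) ∧
        c.op w q ^ 2 + w q ^ 2 + γ ^ 2 * dp w q ^ 2 ≤ W q) →
      ∫ q, fallP h x₀ q * en β w q ≤ K * ∫ q, W q := by
  obtain ⟨S, hS, hSb⟩ := exists_step_bound
  refine ⟨leftK S βm hm Kc, ?_, fun β h hβ hh hh1 c w x₀ γ W hc hw hs hW hW0 hyp => ?_⟩
  · have : (0 : ℝ) < lam := by norm_num [lam]
    unfold leftK; positivity
  · exact (left_level_at hS hSb (hβm.trans_le hβ) (hhm.trans_le hh) hh1 hKc c w x₀ γ W hc hw hs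
      hW hW0 hyp).trans (mul_le_mul_of_nonneg_right
        (leftK_mono (by linarith) hKc hβm hhm hβ hh) (integral_nonneg hW0))

end Vale.Agent.P229.Est
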