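import Vale.Agent.P229.Est.TestTerms
import Vale.Agent.P229.Est.Crude
import Vale.Agent.P229.Est.BandSpec
import Vale.Agent.P229.Est.Final

/-!
# P229: section 7 assembled

The test pairing is at least a multiple of `Q / N⁴` and at most a multiple of `Q / N⁵`.
-/

open MeasureTheory
open scoped ContDiff

namespace Vale.Agent.P229.Est

/-- The test pairing from above. -/
theorem test_right (C βm B : ℝ) (hC : 1 ≤ C) (hm : 0 < βm) (hB : 0 ≤ B) :
    ∃ K, 0 ≤ K ∧ ∀ (c : Coef) (s : Src) (v : ℝ × ℝ → ℝ) (β δ γ ε : ℝ) (N : ℕ),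
      Hyp c s v β δ γ C ε N → βm ≤ β → γ ≤ C / (N : ℝ) ^ 32 → ε ≤ C / (N : ℝ) ^ 28 →
      energy β v ≤ B * (s.Q / (N : ℝ) ^ 6) → energy β (dp v) ≤ B * ((N : ℝ) ^ 20 * s.Q) →
      (∫ q in band (1 / (N : ℝ) ^ 4), six v q) ≤ B * (s.Q / (N : ℝ) ^ 10) →
        (∫ q, c.op v q * testFun s ((N : ℝ) ^ 4) q) ≤ K * (s.Q / (N : ℝ) ^ 5) := by
  obtain ⟨L, hL0, hL⟩ := exists_k0_bound
  have hP := zero_le_one.trans profConst_ge.1
  have hS : 0 ≤ slopeMass := integral_nonneg fun _ => abs_nonneg _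
  refine ⟨2 * (10 * B / βm) + 13 * C * profConst + (B + C ^ 2 * profConst) + 2 * (B / βm + profConst)
      + (B + profConst) + (112 * L * C ^ 4 * (B + 80 * C ^ 3) + slopeMass * C), by positivity,
    fun c s v β δ γ ε N h hβm hγ hε hG0 hG1 hband => ?_⟩
  have D := h.data
  have hβ := D.pos
  have hβ1 : β ≤ 1 := D.le.trans (by norm_num)
  have hN : (80 : ℝ) ≤ N := by exact_mod_cast h.hN
  have hN0 : (0 : ℝ) < N := by linarith
  have hQ := s.Q_nonneg
  have hR := h.R_ge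
  set R : ℝ := (N : ℝ) ^ 4 with hRdef
  have hw1 : ContDiff ℝ 1 v := h.hv.of_le (by norm_num)
  have hwp : ContDiff ℝ 1 (dp v) := contDiff_dp h.hv (by norm_num)
  have hwy : ContDiff ℝ 1 (dy v) := contDiff_dy h.hv (by norm_num)
  obtain ⟨o, op', oy⟩ := offBox_derivs h.hs
  obtain ⟨-, opp, -⟩ := offBox_derivs (tsupport_dp_subset.trans h.hs)
  obtain ⟨-, oyp, oyy⟩ := offBox_derivs (tsupport_dy_subset.trans h.hs)
  obtain ⟨v0, v1, v2⟩ := continuous_derivs hw1
  obtain ⟨-, vpp, -⟩ := continuous_derivs hwp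
  obtain ⟨-, vyp, vyy⟩ := continuous_derivs hwy
  obtain ⟨g1, g2, g3, g4⟩ := h.facts
  have e1 : (1 : ℕ∞ω) ≤ ∞ := WithTop.coe_le_coe.2 le_top
  have hcut : ContDiff ℝ 1 (cut R) := (contDiff_cut R).of_le e1
  have sP := suppP_cut hR
  have sY : SuppY (deriv^[2] s.G) := h.src.sG.deriv.deriv
  have ct : ∀ f : ℝ × ℝ → ℝ, Continuous f → Continuous (term f (cut R) (deriv^[2] s.G)) :=
    fun f hf => continuous_term hf hcut.continuous g2.continuous
  have it : ∀ f g : ℝ × ℝ → ℝ, Continuous f → Continuous g → OffBox g →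
      Integrable fun q => term f (cut R) (deriv^[2] s.G) q * g q :=
    fun f g hf hg og => (og.mul_left _).integrable ((ct f hf).mul hg)
  have ha1 : ContDiff ℝ 1 c.a := D.ha.of_le (by norm_num)
  have hdpa : Continuous (dp c.a) := (continuous_derivs ha1).2.1
  -- one integration by parts in the `v_pp` term
  have hd : ∀ q, dp (term c.a (cut R) (deriv^[2] s.G)) q =
      term (dp c.a) (cut R) (deriv^[2] s.G) q
        + term c.a (fun p => R * deriv k0 (R * p)) (deriv^[2] s.G) q := fun q => by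
    rw [dp_term (ha1.differentiable one_ne_zero) (hcut.differentiable one_ne_zero)
      (g2.differentiable (by simp)), show deriv (cut R) = _ from deriv_scale k0 R]
  have k := ibp_p (g := dp v) (contDiff_term ha1 hcut (g2.of_le e1)) hwp (offBox_term sP sY)
  simp only [hd] at k
  have hk' : Continuous fun p => R * deriv k0 (R * p) :=
    continuous_const.mul ((contDiff_k0.continuous_deriv (by simp)).comp
      (continuous_const.mul continuous_id))
  have i3a := it (dp c.a) (dp v) hdpa v1 op'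
  have i3b : Integrable fun q =>
      term c.a (fun p => R * deriv k0 (R * p)) (deriv^[2] s.G) q * dp v q :=
    (op'.mul_left _).integrable ((continuous_term ha1.continuous hk' g2.continuous).mul v1)
  have k' : (∫ q, term c.a (cut R) (deriv^[2] s.G) q * dp (dp v) q) =
      -(∫ q, term (dp c.a) (cut R) (deriv^[2] s.G) q * dp v q)
        - ∫ q, term c.a (fun p => R * deriv k0 (R * p)) (deriv^[2] s.G) q * dp v q := by
    rw [k, integral_neg]
    simp only [add_mul]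
    rw [integral_add i3a i3b]
    ring
  have i1 := it (fun _ => 1) (dy (dy v)) continuous_const vyy oyy
  have i2 := it (fun r => 2 * c.d r) (dp (dy v)) (D.hd.continuous.const_mul 2) vyp oyp
  have i3 := it c.a (dp (dp v)) ha1.continuous vpp opp
  have i4 := it c.g (dp v) D.hg.continuous v1 op'
  have i5 := it c.et (dy v) D.he.continuous v2 oy
  have e : (∫ q, c.op v q * testFun s R q) =
      (∫ q, term (fun _ => 1) (cut R) (deriv^[2] s.G) q * dy (dy v) q)
      + (∫ q, term (fun r => 2 * c.d r) (cut R) (deriv^[2] s.G) q * dp (dy v) q)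
      + (∫ q, term c.a (cut R) (deriv^[2] s.G) q * dp (dp v) q)
      + (∫ q, term c.g (cut R) (deriv^[2] s.G) q * dp v q)
      + ∫ q, term c.et (cut R) (deriv^[2] s.G) q * dy v q := by
    rw [← integral_add i1 i2, ← integral_add (i1.fun_add i2) i3,
      ← integral_add ((i1.fun_add i2).fun_add i3) i4,
      ← integral_add (((i1.fun_add i2).fun_add i3).fun_add i4) i5]
    refine integral_congr_ae (Filter.Eventually.of_forall fun q => ?_)
    simp only [Coef.op, testFun, term, congrFun D.hz q]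
    ring
  rw [e, k']
  have b1 := (abs_le.1 (term_yy h)).2
  have b2 := (abs_le.1 (term_mixed h hγ)).2
  have b3 := (abs_le.1 (term_low h hdpa (fun q hq => (coef_sup D hq).2.2.1) v1 op')).1
  have b3' := (abs_le.1 (term_slope h hL0 hL)).1
  have b4 := (abs_le.1 (term_low h D.hg.continuous (fun q hq => (coef_sup D hq).1) v1 op')).2
  have b5 := (abs_le.1 (term_low h D.he.continuous (fun q hq => (coef_sup D hq).2.1) v2 oy)).2
  obtain ⟨cy, cp, cH, -⟩ := energy_controls hβ hβ1 hw1 h.hs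
  set U := s.Q / (N : ℝ) ^ 5 with hU
  have hU0 : 0 ≤ U := by positivity
  have eU : (N : ℝ) * (s.Q / (N : ℝ) ^ 6) = U := by rw [hU]; field_simp
  have mH : (N : ℝ) * H v ≤ 10 * B / βm * U := by
    have h1 : H v ≤ 10 * B / βm * (s.Q / (N : ℝ) ^ 6) := by
      rw [div_mul_eq_mul_div, le_div_iff₀ hm]
      calc H v * βm ≤ H v * β := mul_le_mul_of_nonneg_left hβm (H_parts v).1
        _ ≤ 10 * energy β v := by rw [mul_comm]; exact cH
        _ ≤ 10 * (B * (s.Q / (N : ℝ) ^ 6)) := by linarith only [hG0]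
        _ = 10 * B * (s.Q / (N : ℝ) ^ 6) := by ring
    calc (N : ℝ) * H v ≤ (N : ℝ) * (10 * B / βm * (s.Q / (N : ℝ) ^ 6)) :=
          mul_le_mul_of_nonneg_left h1 hN0.le
      _ = 10 * B / βm * U := by rw [← eU]; ring
  have mp : (N : ℝ) * (∫ q, dp v q ^ 2) ≤ B / βm * U := by
    have h1 : (∫ q, dp v q ^ 2) ≤ B / βm * (s.Q / (N : ℝ) ^ 6) := by
      rw [div_mul_eq_mul_div, le_div_iff₀ hm]
      calc (∫ q, dp v q ^ 2) * βm ≤ (∫ q, dp v q ^ 2) * β :=
            mul_le_mul_of_nonneg_left hβm (integral_nonneg fun _ => sq_nonneg _)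
        _ ≤ energy β v := by rw [mul_comm]; exact cp
        _ ≤ B * (s.Q / (N : ℝ) ^ 6) := hG0
    calc (N : ℝ) * (∫ q, dp v q ^ 2) ≤ (N : ℝ) * (B / βm * (s.Q / (N : ℝ) ^ 6)) :=
          mul_le_mul_of_nonneg_left h1 hN0.le
      _ = B / βm * U := by rw [← eU]; ring
  have my : (N : ℝ) * (∫ q, dy v q ^ 2) ≤ B * U := by
    calc (N : ℝ) * (∫ q, dy v q ^ 2) ≤ (N : ℝ) * (B * (s.Q / (N : ℝ) ^ 6)) :=
          mul_le_mul_of_nonneg_left (cy.trans hG0) hN0.le
      _ = B * U := by rw [← eU]; ring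
  have m1 : 1 / (N : ℝ) ^ 29 * energy β (dp v) ≤ B * U := by
    calc 1 / (N : ℝ) ^ 29 * energy β (dp v) ≤ 1 / (N : ℝ) ^ 29 * (B * ((N : ℝ) ^ 20 * s.Q)) :=
          mul_le_mul_of_nonneg_left hG1 (by positivity)
      _ = B * (s.Q / (N : ℝ) ^ 9) := by field_simp
      _ ≤ B * U := by rw [hU]; gcongr <;> linarith
  have mS : 112 * L * C ^ 4 * (N : ℝ) ^ 5 *
      ((∫ q in band (1 / R), six v q) + 80 * ε ^ 2) ≤ 112 * L * C ^ 4 * (B + 80 * C ^ 3) * U := by
    have h2 : C ^ 3 / (N : ℝ) ^ 55 * s.Q ≤ C ^ 3 * (s.Q / (N : ℝ) ^ 10) := by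
      rw [div_mul_eq_mul_div, mul_div_assoc]
      gcongr
      · linarith
      · norm_num
    have h3 : (∫ q in band (1 / R), six v q) + 80 * ε ^ 2 ≤
        (B + 80 * C ^ 3) * (s.Q / (N : ℝ) ^ 10) := by
      have := eps_sq_le h hε
      linarith only [hband, h2, this]
    calc 112 * L * C ^ 4 * (N : ℝ) ^ 5 * ((∫ q in band (1 / R), six v q) + 80 * ε ^ 2)
        ≤ 112 * L * C ^ 4 * (N : ℝ) ^ 5 * ((B + 80 * C ^ 3) * (s.Q / (N : ℝ) ^ 10)) :=
          mul_le_mul_of_nonneg_left h3 (by positivity)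
      _ = 112 * L * C ^ 4 * (B + 80 * C ^ 3) * U := by rw [hU]; field_simp
  linarith only [b1, b2, b3, b3', b4, b5, mH, mp, my, m1, mS, hU0]

/-- Section 7 with amplitude one. -/
theorem estCore : EstCore := by
  obtain ⟨δ0, hδ0, hband⟩ := bandSpec
  refine ⟨δ0, hδ0, fun C hC => ?_⟩
  obtain ⟨β0, hβ0, hband⟩ := hband C hC
  refine ⟨β0, hβ0, fun βm hm => ?_⟩
  obtain ⟨γ0, r0, Kb, hγ0, hr0, hKb, hband⟩ := hband βm hm
  obtain ⟨K0, hK0, href⟩ := refined C βm hC hm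
  obtain ⟨K1, hK1, hcr⟩ := crude C βm hC hm
  have hC3 : 0 ≤ C ^ 3 := pow_nonneg (zero_le_one.trans hC) 3
  set G0 := K0 * (1 + C ^ 3) with hG0
  set G1 := K1 * (1 + C ^ 3 + G0) with hG1
  set B := G0 + G1 + Kb * (G0 + C ^ 3 + C ^ 2 * G1) with hBd
  have hG0p : 0 ≤ G0 := by positivity
  have hG1p : 0 ≤ G1 := by positivity
  have hBa : 0 ≤ Kb * (G0 + C ^ 3 + C ^ 2 * G1) := by positivity
  obtain ⟨Kl, hKl, hleft⟩ := test_left C hC
  obtain ⟨Kr, hKr, hright⟩ := test_right C βm B hC hm (by positivity)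
  set η := (∫ x, eta0 x) / C with hη
  have hη0 : 0 < η := div_pos integral_eta0_pos (by linarith)
  refine ⟨Nat.ceil (max (max 80 (C / γ0)) (max (1 / r0) ((Kl + Kr) / η + 1))),
    fun N hN β δ γ ε c s v hβm hβ0' hδ hγ hε h => ?_⟩
  have hNb : max (max 80 (C / γ0)) (max (1 / r0) ((Kl + Kr) / η + 1)) ≤ (N : ℝ) :=
    Nat.ceil_le.1 hN
  have hN80 : (80 : ℝ) ≤ N := le_trans ((le_max_left _ _).trans (le_max_left _ _)) hNb
  have hN1 : (1 : ℝ) ≤ N := by linarith
  have hN0 : (0 : ℝ) < N := by linarith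
  have hNg : C / γ0 ≤ (N : ℝ) := le_trans ((le_max_right _ _).trans (le_max_left _ _)) hNb
  have hNr : 1 / r0 ≤ (N : ℝ) := le_trans ((le_max_left _ _).trans (le_max_right _ _)) hNb
  have hNk : (Kl + Kr) / η + 1 ≤ (N : ℝ) :=
    le_trans ((le_max_right _ _).trans (le_max_right _ _)) hNb
  have hQ := s.Q_nonneg
  have hε2 := eps_sq_le h hε
  have mono : ∀ i j : ℕ, i ≤ j → s.Q / (N : ℝ) ^ j ≤ s.Q / (N : ℝ) ^ i := fun i j hij => by
    gcongr
  -- level zero
  have b0 : energy β v ≤ G0 * (s.Q / (N : ℝ) ^ 6) := by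
    refine (href c s v β δ γ ε N h hβm).trans ?_
    rw [hG0, mul_assoc K0]
    refine mul_le_mul_of_nonneg_left ?_ hK0
    have : C ^ 3 / (N : ℝ) ^ 55 * s.Q ≤ C ^ 3 * (s.Q / (N : ℝ) ^ 6) := by
      rw [div_mul_eq_mul_div, mul_div_assoc]
      exact mul_le_mul_of_nonneg_left (mono 6 55 (by norm_num)) hC3
    linarith only [hε2, this]
  -- levels one and two
  have b12 : energy β (dp v) + energy β (dp (dp v)) ≤ G1 * ((N : ℝ) ^ 20 * s.Q) := by
    refine (hcr c s v β δ γ ε N h hβm).trans ?_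
    rw [hG1, mul_assoc K1]
    refine mul_le_mul_of_nonneg_left ?_ hK1
    have u : ∀ j : ℕ, s.Q / (N : ℝ) ^ j ≤ (N : ℝ) ^ 20 * s.Q := fun j =>
      (div_le_self hQ (one_le_pow₀ hN1)).trans (le_mul_of_one_le_left hQ (one_le_pow₀ hN1))
    have u1 : C ^ 3 / (N : ℝ) ^ 55 * s.Q ≤ C ^ 3 * ((N : ℝ) ^ 20 * s.Q) := by
      rw [div_mul_eq_mul_div, mul_div_assoc]
      exact mul_le_mul_of_nonneg_left (u 55) hC3
    have u2 : G0 * (s.Q / (N : ℝ) ^ 6) ≤ G0 * ((N : ℝ) ^ 20 * s.Q) :=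
      mul_le_mul_of_nonneg_left (u 6) hG0p
    linarith only [hε2, u1, u2, b0]
  -- the band
  have hβ := h.data.pos
  have hR : (N : ℝ) ≤ (N : ℝ) ^ 4 := le_self_pow₀ hN1 (by norm_num)
  have hγ' : γ ≤ γ0 := by
    refine hγ.trans ?_
    rw [div_le_iff₀ (by positivity)]
    rw [div_le_iff₀ hγ0] at hNg
    have := mul_le_mul_of_nonneg_left (le_self_pow₀ hN1 (by norm_num : (32 : ℕ) ≠ 0)) hγ0.le
    linarith
  have hr' : 1 / (N : ℝ) ^ 4 ≤ r0 := by
    rw [div_le_iff₀ (by positivity)]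
    rw [div_le_iff₀ hr0] at hNr
    have := mul_le_mul_of_nonneg_left hR hr0.le
    linarith
  have hout : ∀ q ∈ Box, 1 / (N : ℝ) ^ 4 < |q.1| →
      |c.op v q| ≤ ε ∧ |dp (c.op v) q| ≤ ε ∧ |dp (dp (c.op v)) q| ≤ ε := by
    intro q hq hfar
    have hf : ∀ z : ℝ × ℝ, 1 / (N : ℝ) ^ 4 < |z.1| → 1 < |(N : ℝ) ^ 4 * z.1| := fun z hz => by
      rw [abs_mul, abs_of_pos (by positivity : (0 : ℝ) < (N : ℝ) ^ 4)]
      rwa [div_lt_iff₀ (by positivity), mul_comm] at hz
    obtain ⟨d0, d1, d2⟩ := h.err q hq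
    rw [Src.S_zero (hf q hfar), sub_zero] at d0
    rw [dp_op_of_far (hf q hfar)] at d1
    have e2 : dp (dp (c.op v - s.S ((N : ℝ) ^ 4))) q = dp (dp (c.op v)) q := by
      have e : dp (c.op v - s.S ((N : ℝ) ^ 4)) =ᶠ[nhds q] dp (c.op v) := by
        have ho : IsOpen {z : ℝ × ℝ | 1 / (N : ℝ) ^ 4 < |z.1|} :=
          isOpen_lt continuous_const (by fun_prop)
        filter_upwards [ho.mem_nhds hfar] with z hz
        exact dp_op_of_far (hf z hz)
      show fderiv ℝ _ q (1, 0) = fderiv ℝ _ q (1, 0)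
      rw [e.fderiv_eq]
    rw [e2] at d2
    exact ⟨d0, d1, d2⟩
  have bb := hband β δ γ (1 / (N : ℝ) ^ 4) ε c v hβm hβ0' hδ hγ' (by positivity) hr' h.hε h.data
    h.hv h.hs hout
  have hγ0' : 0 ≤ γ := by
    exact (abs_nonneg _).trans (h.data.lvl.d0 ((0, 0) : ℝ × ℝ) (by simp [Box]))
  have b3 : (∫ q in band (1 / (N : ℝ) ^ 4), six v q) ≤
      Kb * (G0 + C ^ 3 + C ^ 2 * G1) * (s.Q / (N : ℝ) ^ 10) := by
    refine bb.trans ?_
    have u1 : γ ^ 2 * (energy β (dp v) + energy β (dp (dp v))) ≤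
        C ^ 2 * G1 * (s.Q / (N : ℝ) ^ 6) := by
      calc γ ^ 2 * (energy β (dp v) + energy β (dp (dp v)))
          ≤ (C / (N : ℝ) ^ 32) ^ 2 * (G1 * ((N : ℝ) ^ 20 * s.Q)) :=
            mul_le_mul (pow_le_pow_left₀ hγ0' hγ 2) b12
              (add_nonneg (energy_nonneg hβ.le _) (energy_nonneg hβ.le _)) (sq_nonneg _)
        _ = C ^ 2 * G1 * (s.Q / (N : ℝ) ^ 44) := by field_simp
        _ ≤ C ^ 2 * G1 * (s.Q / (N : ℝ) ^ 6) :=
            mul_le_mul_of_nonneg_left (mono 6 44 (by norm_num)) (by positivity)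
    have u2 : C ^ 3 / (N : ℝ) ^ 55 * s.Q ≤ C ^ 3 * (s.Q / (N : ℝ) ^ 6) := by
      rw [div_mul_eq_mul_div, mul_div_assoc]
      exact mul_le_mul_of_nonneg_left (mono 6 55 (by norm_num)) hC3
    calc Kb * (1 / (N : ℝ) ^ 4) *
          (energy β v + ε ^ 2 + γ ^ 2 * (energy β (dp v) + energy β (dp (dp v))))
        ≤ Kb * (1 / (N : ℝ) ^ 4) * ((G0 + C ^ 3 + C ^ 2 * G1) * (s.Q / (N : ℝ) ^ 6)) := by
          refine mul_le_mul_of_nonneg_left ?_ (by positivity)
          linarith only [b0, hε2, u1, u2]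
      _ = Kb * (G0 + C ^ 3 + C ^ 2 * G1) * (s.Q / (N : ℝ) ^ 10) := by field_simp
  have hr := hright c s v β δ γ ε N h hβm hγ hε
    (b0.trans (mul_le_mul_of_nonneg_right (by linarith) (by positivity)))
    ((le_add_of_nonneg_right (energy_nonneg hβ.le _)).trans
      (b12.trans (mul_le_mul_of_nonneg_right (by linarith) (by positivity))))
    (b3.trans (mul_le_mul_of_nonneg_right (by linarith) (by positivity)))
  have hl := hleft c s v β δ γ ε N h hε
  -- compare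
  have hQpos : 0 < s.Q := lt_of_lt_of_le
    (by have : 0 < C := zero_lt_one.trans_le hC
        positivity) h.src.w2
  have key : η * (N : ℝ) * (s.Q / (N : ℝ) ^ 5) ≤ (Kl + Kr) * (s.Q / (N : ℝ) ^ 5) := by
    have e : s.Q / (N : ℝ) ^ 4 = (N : ℝ) * (s.Q / (N : ℝ) ^ 5) := by field_simp
    rw [e] at hl
    linarith only [hl, hr]
  have hlt : (Kl + Kr) / η < (N : ℝ) := by linarith
  rw [div_lt_iff₀ hη0] at hlt
  have h2 : η * (N : ℝ) ≤ Kl + Kr := le_of_mul_le_mul_right key (by positivity)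
  linarith

/-- Section 7. -/
theorem estSpec : EstSpec := estSpec_of_core estCore

end Vale.Agent.P229.Est

namespace Vale.Agent.P229

/-- The abstract estimates of section 7. -/
theorem estSpec : EstSpec := Est.estSpec

end Vale.Agent.P229
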