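import Vale.Agent.P229.Est.Setup

/-!
# P229: tools for pairing products `c(q) φ(p) Φ(y)` with `w` and `w_p`

`B0` is an integrable weight bounded below on the disc; `tube` bounds `w` near the line `p = 0`;
`term` is a product with separated variables; `pair_le` and `tube_pair` are the two AM-GM pairings.
-/

open MeasureTheory
open scoped ContDiff

namespace Vale.Agent.P229.Est

/-- Zero off the disc. -/
def OffBox (f : ℝ × ℝ → ℝ) : Prop := ∀ q, q ∉ Box → f q = 0

variable {f g w : ℝ × ℝ → ℝ}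

theorem OffBox.hasCompactSupport (h : OffBox f) : HasCompactSupport f := by
  refine HasCompactSupport.intro (isCompact_Icc (a := ((-3 / 2, -3 / 2) : ℝ × ℝ))
    (b := (3 / 2, 3 / 2))) fun q hq => h q fun hb => hq ?_
  obtain ⟨h1, h2⟩ := box_bounds hb
  rw [abs_le] at h1 h2
  exact ⟨⟨by linarith [h1.1], by linarith [h2.1]⟩, ⟨by linarith [h1.2], by linarith [h2.2]⟩⟩

theorem OffBox.integrable (h : OffBox f) (hc : Continuous f) : Integrable f :=
  hc.integrable_of_hasCompactSupport h.hasCompactSupport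

theorem OffBox.mul_left (h : OffBox g) (f : ℝ × ℝ → ℝ) : OffBox fun q => f q * g q :=
  fun q hq => by simp [h q hq]

theorem OffBox.mul_right (h : OffBox f) (g : ℝ × ℝ → ℝ) : OffBox fun q => f q * g q :=
  fun q hq => by simp [h q hq]

theorem OffBox.sq (h : OffBox f) : OffBox fun q => f q ^ 2 :=
  fun q hq => by simp [h q hq]

theorem offBox_derivs (hs : tsupport w ⊆ Box) : OffBox w ∧ OffBox (dp w) ∧ OffBox (dy w) :=
  ⟨fun q hq => (eq_zero_off q fun h => hq (hs h)).1,
    fun q hq => (eq_zero_off q fun h => hq (hs h)).2.1,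
    fun q hq => (eq_zero_off q fun h => hq (hs h)).2.2⟩

theorem tsupport_dp_subset : tsupport (dp w) ⊆ tsupport w := by
  refine closure_minimal (fun q hq => ?_) (isClosed_tsupport w)
  by_contra h
  exact hq (eq_zero_off q h).2.1

theorem tsupport_dy_subset : tsupport (dy w) ⊆ tsupport w := by
  refine closure_minimal (fun q hq => ?_) (isClosed_tsupport w)
  by_contra h
  exact hq (eq_zero_off q h).2.2

/-- A function of the first coordinate only. -/
theorem dp_comp_fst {u : ℝ → ℝ} {q : ℝ × ℝ} (hu : DifferentiableAt ℝ u q.1) :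
    dp (fun r => u r.1) q = deriv u q.1 ∧ dy (fun r => u r.1) q = 0 := by
  have h := (hu.hasDerivAt.comp_hasFDerivAt q (hasFDerivAt_fst (p := q) (𝕜 := ℝ) (F := ℝ))).fderiv
  constructor <;> simp [dp, dy, Function.comp_def] at h ⊢ <;> simp [h]

/-- A function of the second coordinate only. -/
theorem dy_comp_snd {u : ℝ → ℝ} {q : ℝ × ℝ} (hu : DifferentiableAt ℝ u q.2) :
    dp (fun r => u r.2) q = 0 ∧ dy (fun r => u r.2) q = deriv u q.2 := by
  have h := (hu.hasDerivAt.comp_hasFDerivAt q (hasFDerivAt_snd (p := q) (𝕜 := ℝ) (E := ℝ))).fderiv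
  constructor <;> simp [dp, dy, Function.comp_def] at h ⊢ <;> simp [h]

/-- Integration by parts in `y`. -/
theorem ibp_y (hf : ContDiff ℝ 1 f) (hg : ContDiff ℝ 1 g) (h : OffBox f) :
    ∫ q, f q * dy g q = ∫ q, -(dy f q * g q) := by
  have c := continuous_derivs hf
  have hfs : HasCompactSupport f := h.hasCompactSupport
  refine integral_div (A := fun _ => (0 : ℝ)) (B := f * g) contDiff_const (hf.mul hg)
    HasCompactSupport.zero hfs.mul_right ?_ fun q => ?_
  · exact (((c.2.2).mul hg.continuous).integrable_of_hasCompactSupport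
      (hasCompactSupport_dy hfs).mul_right).neg
  · rw [dp_const, dy_mul (hf.differentiable one_ne_zero) (hg.differentiable one_ne_zero)]
    ring

/-- Integration by parts in `p`. -/
theorem ibp_p (hf : ContDiff ℝ 1 f) (hg : ContDiff ℝ 1 g) (h : OffBox f) :
    ∫ q, f q * dp g q = ∫ q, -(dp f q * g q) := by
  have c := continuous_derivs hf
  have hfs : HasCompactSupport f := h.hasCompactSupport
  refine integral_div (A := f * g) (B := fun _ => (0 : ℝ)) (hf.mul hg) contDiff_const
    hfs.mul_right HasCompactSupport.zero ?_ fun q => ?_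
  · exact (((c.2.1).mul hg.continuous).integrable_of_hasCompactSupport
      (hasCompactSupport_dp hfs).mul_right).neg
  · rw [dy_const, dp_mul (hf.differentiable one_ne_zero) (hg.differentiable one_ne_zero)]
    ring

/-- An integrable weight bounded below on the disc. -/
noncomputable def B0 (q : ℝ × ℝ) : ℝ := (1 + q.1 ^ 2)⁻¹ * (1 + q.2 ^ 2)⁻¹

theorem B0_nonneg (q : ℝ × ℝ) : 0 ≤ B0 q := by unfold B0; positivity

theorem one_le_B0 {q : ℝ × ℝ} (hq : q ∈ Box) : 1 ≤ 5 * B0 q := by
  have h : q.1 ^ 2 + q.2 ^ 2 < 9 / 4 := hq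
  rw [B0, ← mul_inv, le_mul_inv_iff₀ (by positivity), one_mul]
  nlinarith [sq_nonneg (q.1 ^ 2 - q.2 ^ 2), sq_nonneg q.1, sq_nonneg q.2]

theorem integrable_B0 : Integrable B0 :=
  integrable_inv_one_add_sq.mul_prod integrable_inv_one_add_sq

theorem integral_B0 : ∫ q, B0 q ≤ 16 := by
  have h : ∫ q, B0 q = Real.pi * Real.pi := by
    rw [← integral_univ_inv_one_add_sq, ← integral_prod_mul]; rfl
  rw [h]
  nlinarith [Real.pi_le_four, Real.pi_nonneg]

/-- A pointwise bound on the disc gives an integral bound. -/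
theorem integral_le_sup {M : ℝ} (hf : Continuous f) (h : OffBox f) (hM : 0 ≤ M)
    (hb : ∀ q ∈ Box, f q ≤ M) : ∫ q, f q ≤ 80 * M := by
  have m : ∫ q, f q ≤ ∫ q, 5 * M * B0 q := by
    refine integral_mono (h.integrable hf) (integrable_B0.const_mul _) fun q => ?_
    by_cases hq : q ∈ Box
    · calc f q ≤ M * 1 := by linarith [hb q hq]
        _ ≤ M * (5 * B0 q) := mul_le_mul_of_nonneg_left (one_le_B0 hq) hM
        _ = 5 * M * B0 q := by ring
    · simpa [h q hq] using mul_nonneg (by positivity) (B0_nonneg q)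
  rw [integral_const_mul] at m
  nlinarith [integral_B0]

/-- AM-GM under the integral. -/
theorem pair_le {l : ℝ} (hl : 0 < l) (hf : Continuous f) (hg : Continuous g) (hf' : OffBox f)
    (hg' : OffBox g) : |∫ q, f q * g q| ≤ l * (∫ q, g q ^ 2) + 1 / (4 * l) * ∫ q, f q ^ 2 := by
  have i1 := (hg'.sq).integrable (by fun_prop)
  have i2 := (hf'.sq).integrable (by fun_prop)
  have i3 := (hf'.mul_right g).integrable (by fun_prop)
  refine (abs_integral_le_integral_abs (f := fun q => f q * g q)).trans ?_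
  rw [← integral_const_mul, ← integral_const_mul, ← integral_add (i1.const_mul _) (i2.const_mul _)]
  refine integral_mono i3.abs ((i1.const_mul _).add (i2.const_mul _)) fun q => ?_
  have e : l * g q ^ 2 + 1 / (4 * l) * f q ^ 2 - |f q * g q| =
      l * (|g q| - |f q| / (2 * l)) ^ 2 := by
    rw [abs_mul, ← sq_abs (g q), ← sq_abs (f q)]
    field_simp
    ring
  have := mul_nonneg hl.le (sq_nonneg (|g q| - |f q| / (2 * l)))
  linarith

/-- `w` in the tube of width `1 / R`. -/
theorem tube (R : ℝ) (hw : ContDiff ℝ 1 w) (hs : tsupport w ⊆ Box) :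
    ∫ q, R / (1 + (R * q.1) ^ 2) * w q ^ 2 ≤ 2 * ((∫ q, w q ^ 2) + ∫ q, dp w q ^ 2) := by
  obtain ⟨o, op', -⟩ := offBox_derivs hs
  obtain ⟨c0, c1, -⟩ := continuous_derivs hw
  let u : ℝ → ℝ := fun p => Real.arctan (R * p)
  have hu : ∀ p, HasDerivAt u (1 / (1 + (R * p) ^ 2) * R) p := fun p =>
    ((hasDerivAt_id p).const_mul R).arctan.congr_deriv (by simp)
  have hu1 : ContDiff ℝ 1 fun q : ℝ × ℝ => u q.1 :=
    Real.contDiff_arctan.comp (contDiff_const.mul contDiff_fst)
  have hd : ∀ q : ℝ × ℝ, dp (fun r => u r.1) q = R / (1 + (R * q.1) ^ 2) := fun q => by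
    rw [(dp_comp_fst (hu q.1).differentiableAt).1, (hu q.1).deriv]; ring
  have hW : ContDiff ℝ 1 (w * w) := hw.mul hw
  have k := ibp_p hW hu1 (fun q hq => by simp [o q hq])
  simp only [hd, dp_mul (hw.differentiable one_ne_zero) (hw.differentiable one_ne_zero),
    Pi.mul_apply] at k
  have e : (∫ q, R / (1 + (R * q.1) ^ 2) * w q ^ 2) = ∫ q, w q * w q * (R / (1 + (R * q.1) ^ 2)) :=
    integral_congr_ae (Filter.Eventually.of_forall fun q => by ring)
  rw [e, k]
  have i1 := o.sq.integrable (by fun_prop)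
  have i2 := op'.sq.integrable (by fun_prop)
  rw [← integral_add i1 i2, ← integral_const_mul]
  refine integral_mono ?_ ((i1.add i2).const_mul _) fun q => ?_
  · refine (OffBox.integrable (fun q hq => ?_) (by fun_prop)).neg
    simp [o q hq]
  · have hb : |u q.1| ≤ 2 := abs_le.2
      ⟨by linarith [Real.neg_pi_div_two_lt_arctan (R * q.1), Real.pi_le_four],
        by linarith [Real.arctan_lt_pi_div_two (R * q.1), Real.pi_le_four]⟩
    have h1 : |(dp w q * w q + w q * dp w q) * u q.1| ≤ (w q ^ 2 + dp w q ^ 2) * 2 := by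
      rw [abs_mul]
      refine mul_le_mul (abs_le.2 ⟨?_, ?_⟩) hb (abs_nonneg _) (by positivity) <;>
        nlinarith [sq_nonneg (w q + dp w q), sq_nonneg (w q - dp w q)]
    linarith [(abs_le.1 h1).1]

/-- Pairing with `w` a function living in the tube `|R p| ≤ m`. -/
theorem tube_pair {R l m : ℝ} (hR : 0 < R) (hl : 0 < l) (hw : ContDiff ℝ 1 w)
    (hs : tsupport w ⊆ Box) (hf : Continuous f) (hf' : OffBox f)
    (hfm : ∀ q, m < |R * q.1| → f q = 0) :
    |∫ q, f q * w q| ≤ 2 * l * ((∫ q, w q ^ 2) + ∫ q, dp w q ^ 2)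
      + (1 + m ^ 2) / (4 * l * R) * ∫ q, f q ^ 2 := by
  obtain ⟨o, -, -⟩ := offBox_derivs hs
  obtain ⟨c0, -, -⟩ := continuous_derivs hw
  let k : ℝ × ℝ → ℝ := fun q => R / (1 + (R * q.1) ^ 2)
  have kc : Continuous k := by
    refine continuous_const.div (by fun_prop) fun q => ?_
    positivity
  have i1 := (o.sq.mul_left k).integrable (kc.mul (c0.pow 2))
  have i2 := hf'.sq.integrable (hf.pow 2)
  have i3 := (hf'.mul_right w).integrable (hf.mul c0)
  refine (abs_integral_le_integral_abs (f := fun q => f q * w q)).trans ?_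
  have h2 := mul_le_mul_of_nonneg_left (tube R hw hs) hl.le
  have h3 : ∫ q, |f q * w q| ≤ ∫ q, (l * (k q * w q ^ 2) + (1 + m ^ 2) / (4 * l * R) * f q ^ 2) := by
    refine integral_mono i3.abs ((i1.const_mul _).add (i2.const_mul _)) fun q => ?_
    by_cases hq : m < |R * q.1|
    · simp only [hfm q hq, zero_mul, abs_zero]
      positivity
    · push Not at hq
      have hsq : (R * q.1) ^ 2 ≤ m ^ 2 := by
        rw [← sq_abs]; exact pow_le_pow_left₀ (abs_nonneg _) hq 2
      set s := (1 + (R * q.1) ^ 2) / (2 * l * R) with hsdef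
      have e : l * (k q * w q ^ 2) + (1 + (R * q.1) ^ 2) / (4 * l * R) * f q ^ 2 - |f q * w q| =
          l * k q * (|w q| - |f q| * s) ^ 2 := by
        rw [abs_mul, ← sq_abs (w q), ← sq_abs (f q), hsdef]
        simp only [k]
        field_simp
        ring
      have : 0 ≤ l * k q * (|w q| - |f q| * s) ^ 2 := by positivity
      have : (1 + (R * q.1) ^ 2) / (4 * l * R) * f q ^ 2 ≤ (1 + m ^ 2) / (4 * l * R) * f q ^ 2 := by
        gcongr
      linarith
  rw [integral_add (i1.const_mul _) (i2.const_mul _), integral_const_mul, integral_const_mul] at h3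
  linarith

/-- A product with separated variables. -/
def term (c : ℝ × ℝ → ℝ) (φ Φ : ℝ → ℝ) (q : ℝ × ℝ) : ℝ := c q * φ q.1 * Φ q.2

/-- Supported near the origin of the first coordinate. -/
def SuppP (φ : ℝ → ℝ) : Prop := ∀ p, 1 / 10 < |p| → φ p = 0

/-- Supported in the middle of the second coordinate. -/
def SuppY (Φ : ℝ → ℝ) : Prop := ∀ y, 27 / 100 < |y| → Φ y = 0

theorem deriv_eq_zero_of_supp {φ : ℝ → ℝ} {m : ℝ} (h : ∀ p, m < |p| → φ p = 0) {p : ℝ}
    (hp : m < |p|) : deriv φ p = 0 := by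
  have : φ =ᶠ[nhds p] fun _ => 0 := by
    filter_upwards [(isOpen_lt continuous_const continuous_abs).mem_nhds hp] with r hr
    exact h r hr
  rw [this.deriv_eq, deriv_const]

theorem SuppP.deriv {φ : ℝ → ℝ} (h : SuppP φ) : SuppP (deriv φ) :=
  fun _ => deriv_eq_zero_of_supp h

theorem SuppY.deriv {Φ : ℝ → ℝ} (h : SuppY Φ) : SuppY (deriv Φ) :=
  fun _ => deriv_eq_zero_of_supp h

variable {c : ℝ × ℝ → ℝ} {φ Φ : ℝ → ℝ}

theorem offBox_term (hφ : SuppP φ) (hΦ : SuppY Φ) : OffBox (term c φ Φ) := by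
  intro q hq
  by_cases h1 : 1 / 10 < |q.1|
  · simp [term, hφ _ h1]
  by_cases h2 : 27 / 100 < |q.2|
  · simp [term, hΦ _ h2]
  push Not at h1 h2
  refine absurd ?_ hq
  show q.1 ^ 2 + q.2 ^ 2 < 9 / 4
  nlinarith [sq_abs q.1, sq_abs q.2, abs_nonneg q.1, abs_nonneg q.2]

theorem dp_term (hc : Differentiable ℝ c) (hφ : Differentiable ℝ φ) (hΦ : Differentiable ℝ Φ)
    (q : ℝ × ℝ) : dp (term c φ Φ) q = term (dp c) φ Φ q + term c (deriv φ) Φ q := by
  have e : term c φ Φ = c * (fun r => φ r.1) * fun r => Φ r.2 := rfl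
  have h1 : Differentiable ℝ fun r : ℝ × ℝ => φ r.1 := hφ.comp differentiable_fst
  have h2 : Differentiable ℝ fun r : ℝ × ℝ => Φ r.2 := hΦ.comp differentiable_snd
  rw [e, dp_mul (hc.mul h1) h2, dp_mul hc h1, (dp_comp_fst (hφ q.1)).1, (dy_comp_snd (hΦ q.2)).1]
  simp [term]
  ring

theorem dy_term (hc : Differentiable ℝ c) (hφ : Differentiable ℝ φ) (hΦ : Differentiable ℝ Φ)
    (q : ℝ × ℝ) : dy (term c φ Φ) q = term (dy c) φ Φ q + term c φ (deriv Φ) q := by
  have e : term c φ Φ = c * (fun r => φ r.1) * fun r => Φ r.2 := rfl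
  have h1 : Differentiable ℝ fun r : ℝ × ℝ => φ r.1 := hφ.comp differentiable_fst
  have h2 : Differentiable ℝ fun r : ℝ × ℝ => Φ r.2 := hΦ.comp differentiable_snd
  rw [e, dy_mul (hc.mul h1) h2, dy_mul hc h1, (dp_comp_fst (hφ q.1)).2, (dy_comp_snd (hΦ q.2)).2]
  simp [term]

theorem continuous_term (hc : Continuous c) (hφ : Continuous φ) (hΦ : Continuous Φ) :
    Continuous (term c φ Φ) := by
  unfold term; fun_prop

theorem contDiff_term {n : ℕ∞ω} (hc : ContDiff ℝ n c) (hφ : ContDiff ℝ n φ)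
    (hΦ : ContDiff ℝ n Φ) : ContDiff ℝ n (term c φ Φ) := by
  unfold term; fun_prop

/-- The square integral of a product with separated variables. -/
theorem term_sq {M : ℝ} (hc : Continuous c) (hcb : ∀ q ∈ Box, |c q| ≤ M) (hφ : Continuous φ)
    (hΦ : Continuous Φ) (hφ' : SuppP φ) (hΦ' : SuppY Φ) :
    ∫ q, term c φ Φ q ^ 2 ≤ M ^ 2 * ((∫ p, φ p ^ 2) * ∫ y, Φ y ^ 2) := by
  have hp : Integrable fun p => φ p ^ 2 :=
    (hφ.pow 2).integrable_of_hasCompactSupport (HasCompactSupport.intro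
      (isCompact_Icc (a := (-1 / 10 : ℝ)) (b := 1 / 10)) fun p hp => by
        have : 1 / 10 < |p| := by
          by_contra h; push Not at h; rw [abs_le] at h; exact hp ⟨by linarith [h.1], h.2⟩
        simp [hφ' p this])
  have hy : Integrable fun y => Φ y ^ 2 :=
    (hΦ.pow 2).integrable_of_hasCompactSupport (HasCompactSupport.intro
      (isCompact_Icc (a := (-27 / 100 : ℝ)) (b := 27 / 100)) fun p hp => by
        have : 27 / 100 < |p| := by
          by_contra h; push Not at h; rw [abs_le] at h; exact hp ⟨by linarith [h.1], h.2⟩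
        simp [hΦ' p this])
  rw [← integral_prod_mul, ← integral_const_mul]
  refine integral_mono ((offBox_term hφ' hΦ').sq.integrable
    ((continuous_term hc hφ hΦ).pow 2)) ((hp.mul_prod hy).const_mul _) fun q => ?_
  by_cases hq : q ∈ Box
  · have : c q ^ 2 ≤ M ^ 2 := by
      rw [← sq_abs]; exact pow_le_pow_left₀ (abs_nonneg _) (hcb q hq) 2
    calc term c φ Φ q ^ 2 = c q ^ 2 * (φ q.1 ^ 2 * Φ q.2 ^ 2) := by simp [term]; ring
      _ ≤ M ^ 2 * (φ q.1 ^ 2 * Φ q.2 ^ 2) := mul_le_mul_of_nonneg_right this (by positivity)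
  · rw [offBox_term hφ' hΦ' q hq]
    simp only [ne_eq, OfNat.ofNat_ne_zero, not_false_eq_true, zero_pow]
    positivity

/-- Scaling of a line integral. -/
theorem int_scale {R : ℝ} (hR : 0 < R) (u : ℝ → ℝ) : ∫ p, u (R * p) = R⁻¹ * ∫ p, u p := by
  rw [Measure.integral_comp_mul_left, abs_of_pos (inv_pos.2 hR), smul_eq_mul]

end Vale.Agent.P229.Est
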