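import Vale.Agent.P229.EstSpec
import Vale.Agent.P229.Est.Tools

/-!
# P229: the scaled profiles in the thin direction

`eta R p = η₀(Rp)`, `eta1 R = (eta R)'`, `cut R p = k₀(Rp)` with `k₀ = 1` on `|x| ≤ 6` and `0` on
`7 ≤ |x|`.
-/

open MeasureTheory
open scoped ContDiff

namespace Vale.Agent.P229.Est

/-- The thin profile. -/
noncomputable def eta (R p : ℝ) : ℝ := eta0 (R * p)

/-- Its derivative. -/
noncomputable def eta1 (R p : ℝ) : ℝ := R * deriv eta0 (R * p)

/-- The unscaled test cut-off. -/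
noncomputable def k0 (x : ℝ) : ℝ := Real.smoothTransition (7 - x) * Real.smoothTransition (7 + x)

/-- The test cut-off. -/
noncomputable def cut (R p : ℝ) : ℝ := k0 (R * p)

theorem contDiff_eta0 : ContDiff ℝ ∞ eta0 := ContDiffBump.contDiff _

theorem contDiff_eta0' : ContDiff ℝ ∞ (deriv eta0) := (contDiff_infty_iff_deriv.1 contDiff_eta0).2

theorem eta0_nonneg (x : ℝ) : 0 ≤ eta0 x := ContDiffBump.nonneg' _ x

theorem eta0_zero {x : ℝ} (h : 1 ≤ |x|) : eta0 x = 0 :=
  ContDiffBump.zero_of_le_dist _ (by simpa [Real.dist_eq] using h)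

theorem deriv_eta0_zero {x : ℝ} (h : 1 < |x|) : deriv eta0 x = 0 :=
  deriv_eq_zero_of_supp (fun _ hp => eta0_zero hp.le) h

theorem integral_eta0_pos : 0 < ∫ x, eta0 x := ContDiffBump.integral_pos _ (μ := volume)

theorem k0_one {x : ℝ} (h : |x| ≤ 6) : k0 x = 1 := by
  rw [abs_le] at h
  simp [k0, Real.smoothTransition.one_of_one_le (by linarith : 1 ≤ 7 - x),
    Real.smoothTransition.one_of_one_le (by linarith : 1 ≤ 7 + x)]

theorem k0_zero {x : ℝ} (h : 7 ≤ |x|) : k0 x = 0 := by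
  rcases le_abs.1 h with h | h
  · simp [k0, Real.smoothTransition.zero_of_nonpos (by linarith : 7 - x ≤ 0)]
  · simp [k0, Real.smoothTransition.zero_of_nonpos (by linarith : 7 + x ≤ 0)]

theorem contDiff_k0 : ContDiff ℝ ∞ k0 := by
  unfold k0
  exact (Real.smoothTransition.contDiff.comp (contDiff_const.sub contDiff_id)).mul
    (Real.smoothTransition.contDiff.comp (contDiff_const.add contDiff_id))

theorem deriv_k0_zero {x : ℝ} (h : |x| < 6 ∨ 7 < |x|) : deriv k0 x = 0 := by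
  rcases h with h | h
  · have : k0 =ᶠ[nhds x] fun _ => 1 := by
      filter_upwards [(isOpen_lt continuous_abs continuous_const).mem_nhds h] with r hr
      exact k0_one (le_of_lt hr)
    rw [this.deriv_eq, deriv_const]
  · exact deriv_eq_zero_of_supp (fun _ hp => k0_zero hp.le) h

theorem abs_k0_le (x : ℝ) : |k0 x| ≤ 1 := by
  have h1 := Real.smoothTransition.nonneg (7 - x)
  have h2 := Real.smoothTransition.nonneg (7 + x)
  rw [k0, abs_of_nonneg (mul_nonneg h1 h2)]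
  exact mul_le_one₀ (Real.smoothTransition.le_one _) h2 (Real.smoothTransition.le_one _)

/-- A rescaled smooth function. -/
theorem contDiff_scale {u : ℝ → ℝ} (hu : ContDiff ℝ ∞ u) (R : ℝ) :
    ContDiff ℝ ∞ fun p => u (R * p) := hu.comp (contDiff_const.mul contDiff_id)

theorem deriv_scale (u : ℝ → ℝ) (R : ℝ) :
    deriv (fun p => u (R * p)) = fun p => R * deriv u (R * p) := by
  funext p
  simpa using deriv_comp_mul_left R u p

theorem suppP_scale {u : ℝ → ℝ} {m R : ℝ} (h : ∀ x, m < |x| → u x = 0) (hR : 10 * m ≤ R)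
    (hR0 : 0 < R) : SuppP fun p => u (R * p) := fun p hp => h _ <| by
  rw [abs_mul, abs_of_pos hR0]
  nlinarith

theorem deriv_eta (R : ℝ) : deriv (eta R) = eta1 R := deriv_scale eta0 R

theorem contDiff_eta (R : ℝ) : ContDiff ℝ ∞ (eta R) := contDiff_scale contDiff_eta0 R

theorem contDiff_eta1 (R : ℝ) : ContDiff ℝ ∞ (eta1 R) :=
  contDiff_const.mul (contDiff_scale contDiff_eta0' R)

theorem contDiff_cut (R : ℝ) : ContDiff ℝ ∞ (cut R) := contDiff_scale contDiff_k0 R

theorem suppP_eta {R : ℝ} (hR : 80 ≤ R) : SuppP (eta R) :=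
  suppP_scale (m := 1) (fun _ h => eta0_zero h.le) (by linarith) (by linarith)

theorem suppP_eta1 {R : ℝ} (hR : 80 ≤ R) : SuppP (eta1 R) := deriv_eta R ▸ (suppP_eta hR).deriv

theorem suppP_cut {R : ℝ} (hR : 80 ≤ R) : SuppP (cut R) :=
  suppP_scale (m := 7) (fun _ h => k0_zero h.le) (by linarith) (by linarith)

/-- The square integral of a rescaled function. -/
theorem int_sq_scale {R : ℝ} (hR : 0 < R) (u : ℝ → ℝ) :
    ∫ p, u (R * p) ^ 2 = R⁻¹ * ∫ x, u x ^ 2 := int_scale hR fun x => u x ^ 2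

/-- All the line integrals of the unscaled profiles that occur. -/
noncomputable def profConst : ℝ :=
  1 + (∫ x, eta0 x ^ 2) + (∫ x, deriv eta0 x ^ 2) + (∫ x, deriv^[2] eta0 x ^ 2)
    + (∫ x, deriv^[3] eta0 x ^ 2) + (∫ x, (x * eta0 x) ^ 2) + (∫ x, (x * deriv eta0 x) ^ 2)
    + (∫ x, k0 x ^ 2) + (∫ x, deriv k0 x ^ 2)

theorem profConst_ge : 1 ≤ profConst ∧ (∫ x, eta0 x ^ 2) ≤ profConst ∧
    (∫ x, deriv eta0 x ^ 2) ≤ profConst ∧ (∫ x, deriv^[2] eta0 x ^ 2) ≤ profConst ∧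
    (∫ x, deriv^[3] eta0 x ^ 2) ≤ profConst ∧ (∫ x, (x * eta0 x) ^ 2) ≤ profConst ∧
    (∫ x, (x * deriv eta0 x) ^ 2) ≤ profConst ∧ (∫ x, k0 x ^ 2) ≤ profConst ∧
    (∫ x, deriv k0 x ^ 2) ≤ profConst := by
  have h : ∀ u : ℝ → ℝ, 0 ≤ ∫ x, u x ^ 2 := fun u => integral_nonneg fun x => sq_nonneg _
  have := h eta0; have := h (deriv eta0); have := h (deriv^[2] eta0); have := h (deriv^[3] eta0)
  have := h fun x => x * eta0 x; have := h fun x => x * deriv eta0 x
  have := h k0; have := h (deriv k0)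
  unfold profConst
  refine ⟨?_, ?_, ?_, ?_, ?_, ?_, ?_, ?_, ?_⟩ <;> linarith

end Vale.Agent.P229.Est
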