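import Vale.Agent.P229.Est.Global
import Vale.Agent.P229.Est.Profile

/-!
# P229: pairings of a source term with the global multiplier

`H w = ∫ w² + ∫ w_p²`.  The square root of the thickness is gained by moving the `y`-derivative
off `w_y` and using the tube inequality.
-/

open MeasureTheory
open scoped ContDiff

namespace Vale.Agent.P229.Est

/-- The part of the energy that the pairings use. -/
noncomputable def H (w : ℝ × ℝ → ℝ) : ℝ := (∫ q, w q ^ 2) + ∫ q, dp w q ^ 2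

/-- The square integral of a function of one variable. -/
noncomputable def A2 (Φ : ℝ → ℝ) : ℝ := ∫ y, Φ y ^ 2

theorem A2_nonneg (Φ : ℝ → ℝ) : 0 ≤ A2 Φ := integral_nonneg fun _ => sq_nonneg _

theorem H_parts (w : ℝ × ℝ → ℝ) :
    0 ≤ H w ∧ (∫ q, w q ^ 2) ≤ H w ∧ (∫ q, dp w q ^ 2) ≤ H w := by
  have h1 : 0 ≤ ∫ q, w q ^ 2 := integral_nonneg fun _ => sq_nonneg _
  have h2 : 0 ≤ ∫ q, dp w q ^ 2 := integral_nonneg fun _ => sq_nonneg _
  unfold H
  exact ⟨by linarith, by linarith, by linarith⟩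

variable {c w g : ℝ × ℝ → ℝ} {φ Φ : ℝ → ℝ} {M R l : ℝ}

/-- Pairing a separated product with anything. -/
theorem pairA (hl : 0 < l) (hc : Continuous c) (hcb : ∀ q ∈ Box, |c q| ≤ M) (hφ : Continuous φ)
    (hΦ : Continuous Φ) (hφ' : SuppP φ) (hΦ' : SuppY Φ) (hg : Continuous g) (hg' : OffBox g) :
    |∫ q, term c φ Φ q * g q| ≤
      l * (∫ q, g q ^ 2) + 1 / (4 * l) * (M ^ 2 * ((∫ p, φ p ^ 2) * A2 Φ)) := by
  refine (pair_le hl (continuous_term hc hφ hΦ) hg (offBox_term hφ' hΦ') hg').trans ?_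
  exact add_le_add le_rfl
    (mul_le_mul_of_nonneg_left (term_sq hc hcb hφ hΦ hφ' hΦ') (by positivity))

/-- Pairing with `w` a product living in the tube. -/
theorem pairB (hR : 80 ≤ R) (hl : 0 < l) (hc : Continuous c) (hcb : ∀ q ∈ Box, |c q| ≤ M)
    (hΦ : Continuous Φ) (hΦ' : SuppY Φ) (hw : ContDiff ℝ 1 w) (hs : tsupport w ⊆ Box) :
    |∫ q, term c (eta R) Φ q * w q| ≤
      2 * l * H w + 1 / (2 * l * R ^ 2) * (M ^ 2 * (profConst * A2 Φ)) := by
  have hR0 : 0 < R := by linarith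
  have hφ := (contDiff_eta R).continuous
  refine (tube_pair (m := 1) hR0 hl hw hs (continuous_term hc hφ hΦ)
    (offBox_term (suppP_eta hR) hΦ') fun q hq => ?_).trans ?_
  · simp [term, eta, eta0_zero hq.le]
  · refine add_le_add le_rfl ?_
    have h := term_sq hc hcb hφ hΦ (suppP_eta hR) hΦ'
    have e : (∫ p, eta R p ^ 2) ≤ R⁻¹ * profConst := by
      simp only [eta]
      rw [int_sq_scale hR0]
      exact mul_le_mul_of_nonneg_left profConst_ge.2.1 (by positivity)
    have h' : ∫ q, term c (eta R) Φ q ^ 2 ≤ M ^ 2 * (R⁻¹ * profConst * A2 Φ) :=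
      h.trans (mul_le_mul_of_nonneg_left (mul_le_mul_of_nonneg_right e (A2_nonneg Φ)) (sq_nonneg M))
    calc (1 + 1 ^ 2) / (4 * l * R) * ∫ q, term c (eta R) Φ q ^ 2
        ≤ (1 + 1 ^ 2) / (4 * l * R) * (M ^ 2 * (R⁻¹ * profConst * A2 Φ)) :=
          mul_le_mul_of_nonneg_left h' (by positivity)
      _ = 1 / (2 * l * R ^ 2) * (M ^ 2 * (profConst * A2 Φ)) := by field_simp; ring

/-- Pairing with `w` a product with the differentiated profile: one integration by parts. -/
theorem pairC (hR : 80 ≤ R) (hl : 0 < l) (hc : ContDiff ℝ 1 c) (hcb : ∀ q ∈ Box, |c q| ≤ M)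
    (hcb' : ∀ q ∈ Box, |dp c q| ≤ M) (hΦ : ContDiff ℝ 1 Φ) (hΦ' : SuppY Φ) (hw : ContDiff ℝ 1 w)
    (hs : tsupport w ⊆ Box) :
    |∫ q, term c (eta1 R) Φ q * w q| ≤
      l * H w + 1 / (2 * l * R) * (M ^ 2 * (profConst * A2 Φ)) := by
  have hR0 : 0 < R := by linarith
  have hφ : ContDiff ℝ 1 (eta R) := (contDiff_eta R).of_le (by simp)
  have hφ1 := (contDiff_eta1 R).continuous
  obtain ⟨o, op', -⟩ := offBox_derivs hs
  obtain ⟨w0, w1, -⟩ := continuous_derivs hw
  have hdc : Continuous (dp c) := (continuous_derivs hc).2.1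
  have hsP := suppP_eta hR
  have hd : ∀ q, dp (term c (eta R) Φ) q = term (dp c) (eta R) Φ q + term c (eta1 R) Φ q :=
    fun q => by
      rw [dp_term (hc.differentiable one_ne_zero) (hφ.differentiable one_ne_zero)
        (hΦ.differentiable one_ne_zero), deriv_eta]
  have k := ibp_p (g := w) (contDiff_term hc hφ hΦ) hw (offBox_term hsP hΦ')
  simp only [hd] at k
  have i1 : Integrable fun q => term (dp c) (eta R) Φ q * w q :=
    ((offBox_term hsP hΦ').mul_right w).integrable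
      ((continuous_term hdc hφ.continuous hΦ.continuous).mul w0)
  have i2 : Integrable fun q => term c (eta1 R) Φ q * w q :=
    (OffBox.mul_left o _).integrable ((continuous_term hc.continuous hφ1 hΦ.continuous).mul w0)
  have e : (∫ q, -((term (dp c) (eta R) Φ q + term c (eta1 R) Φ q) * w q)) =
      -((∫ q, term (dp c) (eta R) Φ q * w q) + ∫ q, term c (eta1 R) Φ q * w q) := by
    rw [integral_neg, ← integral_add i1 i2]
    simp only [add_mul]
  rw [e] at k
  have e' : (∫ q, term c (eta1 R) Φ q * w q) =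
      -((∫ q, term (dp c) (eta R) Φ q * w q) + ∫ q, term c (eta R) Φ q * dp w q) := by linarith
  rw [e', abs_neg]
  have eb : (∫ p, eta R p ^ 2) * A2 Φ ≤ R⁻¹ * profConst * A2 Φ := by
    refine mul_le_mul_of_nonneg_right ?_ (A2_nonneg Φ)
    simp only [eta]
    rw [int_sq_scale hR0]
    exact mul_le_mul_of_nonneg_left profConst_ge.2.1 (by positivity)
  have h1 := pairA hl hdc hcb' hφ.continuous hΦ.continuous hsP hΦ' w0 o
  have h2 := pairA hl hc.continuous hcb hφ.continuous hΦ.continuous hsP hΦ' w1 op'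
  have eb' := mul_le_mul_of_nonneg_left (mul_le_mul_of_nonneg_left eb (sq_nonneg M))
    (by positivity : (0 : ℝ) ≤ 1 / (4 * l))
  have er : 1 / (2 * l * R) * (M ^ 2 * (profConst * A2 Φ)) =
      2 * (1 / (4 * l) * (M ^ 2 * (R⁻¹ * profConst * A2 Φ))) := by field_simp; ring
  rw [er]
  have := abs_add_le (∫ q, term (dp c) (eta R) Φ q * w q) (∫ q, term c (eta R) Φ q * dp w q)
  have eH : l * H w = l * (∫ q, w q ^ 2) + l * ∫ q, dp w q ^ 2 := mul_add _ _ _
  linarith

/-- The coefficient bounds used for a source coefficient. -/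
def Bd2 (f : ℝ × ℝ → ℝ) (M : ℝ) : Prop :=
  ∀ q ∈ Box, |f q| ≤ M ∧ |dp f q| ≤ M ∧ |dy f q| ≤ M ∧ |dp (dp f) q| ≤ M ∧
    |dp (dy f) q| ≤ M ∧ |dy (dy f) q| ≤ M

/-- The coefficient left on `w` after moving the `y`-derivative. -/
noncomputable def lowCoef (c : ℝ × ℝ → ℝ) (q : ℝ × ℝ) : ℝ :=
  3 / 10 * c q + 2 / 5 * (q.2 * dy c q)

/-- The coefficient of the differentiated profile. -/
noncomputable def highCoef (c : ℝ × ℝ → ℝ) (q : ℝ × ℝ) : ℝ := 2 / 5 * (q.2 * c q)

theorem coef_bounds (hc : ContDiff ℝ 2 c) (hM : Bd2 c M) :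
    ContDiff ℝ 1 (lowCoef c) ∧ ContDiff ℝ 1 (highCoef c) ∧ ∀ q ∈ Box,
      |lowCoef c q| ≤ M ∧ |highCoef c q| ≤ M ∧ |dp (lowCoef c) q| ≤ M ∧
        |dp (highCoef c) q| ≤ M := by
  have hy : ContDiff ℝ 1 (dy c) := contDiff_dy hc (by norm_num)
  have h1 : ContDiff ℝ 1 c := hc.of_le (by norm_num)
  have hY : ContDiff ℝ 1 (Prod.snd : ℝ × ℝ → ℝ) := contDiff_snd
  have eL : lowCoef c = (3 / 10 : ℝ) • c + (2 / 5 : ℝ) • (Prod.snd * dy c) := rfl
  have eH : highCoef c = (2 / 5 : ℝ) • ((Prod.snd : ℝ × ℝ → ℝ) * c) := rfl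
  refine ⟨eL ▸ (h1.const_smul (3 / 10 : ℝ)).add ((hY.mul hy).const_smul (2 / 5 : ℝ)),
    eH ▸ (hY.mul h1).const_smul (2 / 5 : ℝ), fun q hq => ?_⟩
  obtain ⟨b0, bp, by', -, bpy, -⟩ := hM q hq
  have hq2 := (box_bounds hq).2
  have k1 := hY.differentiable one_ne_zero
  have k2 := hy.differentiable one_ne_zero
  have k3 := h1.differentiable one_ne_zero
  have ey : dp (Prod.snd : ℝ × ℝ → ℝ) q = 0 := by simp [dp, fderiv_snd]
  obtain ⟨a1, a1'⟩ := abs_le.1 (abs_mul_le hq2 by')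
  obtain ⟨a2, a2'⟩ := abs_le.1 (abs_mul_le hq2 b0)
  obtain ⟨a3, a3'⟩ := abs_le.1 (abs_mul_le hq2 bpy)
  obtain ⟨a4, a4'⟩ := abs_le.1 (abs_mul_le hq2 bp)
  obtain ⟨m1, m1'⟩ := abs_le.1 b0
  obtain ⟨m2, m2'⟩ := abs_le.1 bp
  refine ⟨?_, ?_, ?_, ?_⟩
  · exact abs_le.2 ⟨by unfold lowCoef; linarith, by unfold lowCoef; linarith⟩
  · exact abs_le.2 ⟨by unfold highCoef; linarith, by unfold highCoef; linarith⟩
  · rw [eL, dp_add (k3.const_smul (3 / 10 : ℝ)) ((k1.mul k2).const_smul (2 / 5 : ℝ)), dp_smul,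
      dp_smul, dp_mul k1 k2, ey]
    exact abs_le.2 ⟨by linarith, by linarith⟩
  · rw [eH, dp_smul, dp_mul k1 k3, ey]
    exact abs_le.2 ⟨by linarith, by linarith⟩

/-- The pairing with the multiplier, split into the three kinds. -/
theorem gm_split (hc : ContDiff ℝ 2 c) (hφ : ContDiff ℝ 1 φ) (hΦ : ContDiff ℝ 1 Φ)
    (hφ' : SuppP φ) (hΦ' : SuppY Φ) (hw : ContDiff ℝ 1 w) (hs : tsupport w ⊆ Box) :
    ∫ q, term c φ Φ q * gmult w q =
      (∫ q, term c (fun p => p * φ p) Φ q * dp w q) - (∫ q, term (lowCoef c) φ Φ q * w q)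
        - ∫ q, term (highCoef c) φ (deriv Φ) q * w q := by
  obtain ⟨o, op', oy⟩ := offBox_derivs hs
  obtain ⟨w0, w1, w2⟩ := continuous_derivs hw
  have hc1 : ContDiff ℝ 1 c := hc.of_le (by norm_num)
  have hdc : Continuous (dy c) := (continuous_derivs hc1).2.2
  have hdΦ : Continuous (deriv Φ) := hΦ.continuous_deriv le_rfl
  have hY : ContDiff ℝ 1 (highCoef c) := by unfold highCoef; fun_prop
  have k := ibp_y (g := w) (contDiff_term hY hφ hΦ) hw (offBox_term hφ' hΦ')
  have hd : ∀ q, dy (term (highCoef c) φ Φ) q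
      = term (fun r => 2 / 5 * c r + 2 / 5 * (r.2 * dy c r)) φ Φ q
        + term (highCoef c) φ (deriv Φ) q := fun q => by
    rw [dy_term (hY.differentiable one_ne_zero) (hφ.differentiable one_ne_zero)
      (hΦ.differentiable one_ne_zero)]
    have e : highCoef c = (2 / 5 : ℝ) • ((Prod.snd : ℝ × ℝ → ℝ) * c) := rfl
    have ey : dy (Prod.snd : ℝ × ℝ → ℝ) q = 1 := by simp [dy, fderiv_snd]
    congr 1
    simp only [term]
    rw [e, dy_smul, dy_mul differentiable_snd (hc1.differentiable one_ne_zero), ey]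
    ring
  simp only [hd] at k
  have := hφ.continuous; have := hΦ.continuous; have := hc1.continuous
  have c1 : Continuous fun q => term c (fun p => p * φ p) Φ q * dp w q := by
    unfold term; fun_prop
  have c2 : Continuous fun q => term (lowCoef c) φ Φ q * w q := by
    unfold term lowCoef; fun_prop
  have c3 : Continuous fun q => term (highCoef c) φ (deriv Φ) q * w q := by
    unfold term highCoef; fun_prop
  have c4 : Continuous fun q => term (highCoef c) φ Φ q * dy w q := by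
    unfold term highCoef; fun_prop
  have c5 : Continuous fun q => 1 / 10 * (term c φ Φ q * w q) := by unfold term; fun_prop
  have i1 := (op'.mul_left _).integrable c1
  have i2 := (o.mul_left _).integrable c2
  have i3 := (o.mul_left _).integrable c3
  have i4 := (oy.mul_left _).integrable c4
  have o5 : OffBox fun q => 1 / 10 * (term c φ Φ q * w q) := (o.mul_left _).mul_left _
  have i5 := o5.integrable c5
  have e1 : (∫ q, term c φ Φ q * gmult w q) =
      (∫ q, term c (fun p => p * φ p) Φ q * dp w q) + (∫ q, 1 / 10 * (term c φ Φ q * w q))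
        + ∫ q, term (highCoef c) φ Φ q * dy w q := by
    rw [← integral_add i1 i5, ← integral_add (i1.fun_add i5) i4]
    refine integral_congr_ae (Filter.Eventually.of_forall fun q => ?_)
    simp only [term, gmult, highCoef]
    ring
  have e2 : (∫ q, -((term (fun r => 2 / 5 * c r + 2 / 5 * (r.2 * dy c r)) φ Φ q
        + term (highCoef c) φ (deriv Φ) q) * w q)) =
      -(∫ q, 1 / 10 * (term c φ Φ q * w q)) - (∫ q, term (lowCoef c) φ Φ q * w q)
        - ∫ q, term (highCoef c) φ (deriv Φ) q * w q := by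
    have i5' : Integrable fun q => -(1 / 10 * (term c φ Φ q * w q)) := i5.neg
    have i52 : Integrable fun q =>
        -(1 / 10 * (term c φ Φ q * w q)) - term (lowCoef c) φ Φ q * w q := i5'.sub i2
    rw [← integral_neg, ← integral_sub i5' i2, ← integral_sub i52 i3]
    refine integral_congr_ae (Filter.Eventually.of_forall fun q => ?_)
    simp only [term, lowCoef]
    ring
  rw [e1, k, e2]
  ring

theorem int_p_eta (hR : 0 < R) :
    (∫ p, (p * eta R p) ^ 2) ≤ profConst / R ^ 3 ∧ (∫ p, (p * eta1 R p) ^ 2) ≤ profConst / R := by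
  constructor
  · have e : (fun p => (p * eta R p) ^ 2) = fun p => R⁻¹ ^ 2 * (R * p * eta0 (R * p)) ^ 2 := by
      funext p; simp only [eta]; field_simp
    rw [e, integral_const_mul, int_sq_scale hR fun x => x * eta0 x,
      show profConst / R ^ 3 = R⁻¹ ^ 2 * (R⁻¹ * profConst) by field_simp]
    exact mul_le_mul_of_nonneg_left
      (mul_le_mul_of_nonneg_left profConst_ge.2.2.2.2.2.1 (by positivity)) (by positivity)
  · have e : (fun p => (p * eta1 R p) ^ 2) = fun p => (R * p * deriv eta0 (R * p)) ^ 2 := by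
      funext p; simp only [eta1]; ring
    rw [e, int_sq_scale hR fun x => x * deriv eta0 x, div_eq_inv_mul]
    exact mul_le_mul_of_nonneg_left profConst_ge.2.2.2.2.2.2.1 (by positivity)

/-- A term with the profile `eta`. -/
theorem gm_eta (hR : 80 ≤ R) (hl : 0 < l) (hc : ContDiff ℝ 2 c) (hM : Bd2 c M)
    (hΦ : ContDiff ℝ ∞ Φ) (hΦ' : SuppY Φ) (hw : ContDiff ℝ 1 w) (hs : tsupport w ⊆ Box) :
    |∫ q, term c (eta R) Φ q * gmult w q| ≤
      5 * l * H w + M ^ 2 * profConst / (l * R ^ 2) * (A2 Φ + A2 (deriv Φ)) := by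
  have hR0 : 0 < R := by linarith
  obtain ⟨hL, hH, hb⟩ := coef_bounds hc hM
  obtain ⟨-, op', -⟩ := offBox_derivs hs
  obtain ⟨-, w1, -⟩ := continuous_derivs hw
  have hP : SuppP fun p => p * eta R p := fun p hp => by simp [suppP_eta hR p hp]
  have hPc : Continuous fun p => p * eta R p := continuous_id.mul (contDiff_eta R).continuous
  have hΦ1 : ContDiff ℝ 1 Φ := hΦ.of_le (by simp)
  rw [gm_split hc ((contDiff_eta R).of_le (by simp)) hΦ1 (suppP_eta hR) hΦ' hw hs]
  have h1 := pairA hl hc.continuous (fun q hq => (hM q hq).1) hPc hΦ.continuous hP hΦ' w1 op'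
  have h2 := pairB hR hl hL.continuous (fun q hq => (hb q hq).1) hΦ.continuous hΦ' hw hs
  have h3 := pairB hR hl hH.continuous (fun q hq => (hb q hq).2.1) (hΦ1.continuous_deriv le_rfl)
    hΦ'.deriv hw hs
  have hA := A2_nonneg Φ
  have hA' := A2_nonneg (deriv Φ)
  have hP0 : 0 ≤ profConst := zero_le_one.trans profConst_ge.1
  have h4 : 1 / (4 * l) * (M ^ 2 * ((∫ p, (p * eta R p) ^ 2) * A2 Φ)) ≤
      1 / (4 * l) * (M ^ 2 * (profConst / R ^ 2 * A2 Φ)) := by
    gcongr
    refine (int_p_eta hR0).1.trans ?_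
    gcongr
    · linarith
    · norm_num
  have e : 1 / (4 * l) * (M ^ 2 * (profConst / R ^ 2 * A2 Φ))
      + 1 / (2 * l * R ^ 2) * (M ^ 2 * (profConst * A2 Φ))
      + 1 / (2 * l * R ^ 2) * (M ^ 2 * (profConst * A2 (deriv Φ)))
      = M ^ 2 * profConst / (l * R ^ 2) * (A2 Φ + A2 (deriv Φ))
        - M ^ 2 * profConst / (4 * l * R ^ 2) * (A2 Φ + 2 * A2 (deriv Φ)) := by
    field_simp; ring
  have e' : 0 ≤ M ^ 2 * profConst / (4 * l * R ^ 2) * (A2 Φ + 2 * A2 (deriv Φ)) := by positivity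
  have h5 := mul_le_mul_of_nonneg_left (H_parts w).2.2 hl.le
  refine (abs_sub _ _).trans ((add_le_add (abs_sub _ _) le_rfl).trans ?_)
  linarith

/-- A term with the differentiated profile. -/
theorem gm_eta1 (hR : 80 ≤ R) (hl : 0 < l) (hc : ContDiff ℝ 2 c) (hM : Bd2 c M)
    (hΦ : ContDiff ℝ ∞ Φ) (hΦ' : SuppY Φ) (hw : ContDiff ℝ 1 w) (hs : tsupport w ⊆ Box) :
    |∫ q, term c (eta1 R) Φ q * gmult w q| ≤
      3 * l * H w + M ^ 2 * profConst / (l * R) * (A2 Φ + A2 (deriv Φ)) := by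
  have hR0 : 0 < R := by linarith
  obtain ⟨hL, hH, hb⟩ := coef_bounds hc hM
  obtain ⟨-, op', -⟩ := offBox_derivs hs
  obtain ⟨-, w1, -⟩ := continuous_derivs hw
  have hP : SuppP fun p => p * eta1 R p := fun p hp => by simp [suppP_eta1 hR p hp]
  have hPc : Continuous fun p => p * eta1 R p := continuous_id.mul (contDiff_eta1 R).continuous
  have hΦ1 : ContDiff ℝ 1 Φ := hΦ.of_le (by simp)
  have hΦd : ContDiff ℝ 1 (deriv Φ) := ((contDiff_infty_iff_deriv.1 hΦ).2).of_le (by simp)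
  rw [gm_split hc ((contDiff_eta1 R).of_le (by simp)) hΦ1 (suppP_eta1 hR) hΦ' hw hs]
  have h1 := pairA hl hc.continuous (fun q hq => (hM q hq).1) hPc hΦ.continuous hP hΦ' w1 op'
  have h2 := pairC hR hl hL (fun q hq => (hb q hq).1) (fun q hq => (hb q hq).2.2.1) hΦ1 hΦ' hw hs
  have h3 := pairC hR hl hH (fun q hq => (hb q hq).2.1) (fun q hq => (hb q hq).2.2.2) hΦd hΦ'.deriv
    hw hs
  have hA := A2_nonneg Φ
  have hA' := A2_nonneg (deriv Φ)
  have hP0 : 0 ≤ profConst := zero_le_one.trans profConst_ge.1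
  have h4 : 1 / (4 * l) * (M ^ 2 * ((∫ p, (p * eta1 R p) ^ 2) * A2 Φ)) ≤
      1 / (4 * l) * (M ^ 2 * (profConst / R * A2 Φ)) := by
    gcongr
    exact (int_p_eta hR0).2
  have e : 1 / (4 * l) * (M ^ 2 * (profConst / R * A2 Φ))
      + 1 / (2 * l * R) * (M ^ 2 * (profConst * A2 Φ))
      + 1 / (2 * l * R) * (M ^ 2 * (profConst * A2 (deriv Φ)))
      = M ^ 2 * profConst / (l * R) * (A2 Φ + A2 (deriv Φ))
        - M ^ 2 * profConst / (4 * l * R) * (A2 Φ + 2 * A2 (deriv Φ)) := by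
    field_simp; ring
  have e' : 0 ≤ M ^ 2 * profConst / (4 * l * R) * (A2 Φ + 2 * A2 (deriv Φ)) := by positivity
  have h5 := mul_le_mul_of_nonneg_left (H_parts w).2.2 hl.le
  refine (abs_sub _ _).trans ((add_le_add (abs_sub _ _) le_rfl).trans ?_)
  linarith

end Vale.Agent.P229.Est
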