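import Vale.Agent.P229.Est.Core

/-!
# P229: the refined global bound at level zero
-/

open MeasureTheory
open scoped ContDiff

namespace Vale.Agent.P229.Est

theorem Src.contDiff_S {s : Src} {C : ℝ} {N : ℕ} (h : s.OK C N) (R : ℝ) :
    ContDiff ℝ 2 (s.S R) := by
  have hG := h.hG
  have d1 : ContDiff ℝ ∞ (deriv s.G) := (contDiff_infty_iff_deriv.1 hG).2
  have d2 : ContDiff ℝ ∞ (deriv^[2] s.G) := (contDiff_infty_iff_deriv.1 d1).2
  have e : (2 : ℕ∞ω) ≤ ∞ := WithTop.coe_le_coe.2 le_top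
  unfold Src.S
  exact (((contDiff_term h.h0 ((contDiff_eta R).of_le e) (d2.of_le e)).add
    (contDiff_term h.h1 ((contDiff_eta R).of_le e) (d1.of_le e))).add
    (contDiff_term h.h2 ((contDiff_eta1 R).of_le e) (hG.of_le e))).add
    (contDiff_term h.h3 ((contDiff_eta R).of_le e) (hG.of_le e))

theorem continuous_op {c : Coef} {w : ℝ × ℝ → ℝ} (hc : c.Smooth) (hw : ContDiff ℝ 2 w) :
    Continuous (c.op w) := by
  obtain ⟨w0, w1, w2⟩ := continuous_derivs (hw.of_le (by norm_num))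
  obtain ⟨-, i1, -⟩ := continuous_derivs (contDiff_dp (m := 1) hw (by norm_num))
  obtain ⟨-, i2, i3⟩ := continuous_derivs (contDiff_dy (m := 1) hw (by norm_num))
  have := hc.d.continuous; have := hc.a.continuous; have := hc.g.continuous
  have := hc.et.continuous; have := hc.ze.continuous
  unfold Coef.op; fun_prop

theorem offBox_op {c : Coef} {w : ℝ × ℝ → ℝ} (hs : tsupport w ⊆ Box) : OffBox (c.op w) := by
  intro q hq
  obtain ⟨o, op', oy⟩ := offBox_derivs hs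
  obtain ⟨-, o1, -⟩ := offBox_derivs (tsupport_dp_subset.trans hs)
  obtain ⟨-, o2, o3⟩ := offBox_derivs (tsupport_dy_subset.trans hs)
  simp [Coef.op, o q hq, op' q hq, oy q hq, o1 q hq, o2 q hq, o3 q hq]

theorem Src.offBox_S {s : Src} {C R : ℝ} {N : ℕ} (h : s.OK C N) (hR : 80 ≤ R) :
    OffBox (s.S R) := fun q hq => by
  simp [Src.S, offBox_term (suppP_eta hR) h.sG.deriv.deriv q hq,
    offBox_term (suppP_eta hR) h.sG.deriv q hq, offBox_term (suppP_eta1 hR) h.sG q hq,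
    offBox_term (suppP_eta hR) h.sG q hq, Function.iterate_succ]

theorem Src.Q_nonneg (s : Src) : 0 ≤ s.Q := A2_nonneg _

/-- The norms of the derivatives of `G`, in the combinations met by the estimate. -/
theorem Src.norms {s : Src} {C : ℝ} {N : ℕ} (h : s.OK C N) (hC : 1 ≤ C) (hN : 1 ≤ N) :
    (1 / ((N : ℝ) ^ 4) ^ 2 * (A2 (deriv^[2] s.G) + A2 (deriv^[3] s.G)) ≤ 2 * C / (N : ℝ) ^ 6 * s.Q)
    ∧ (1 / ((N : ℝ) ^ 4) ^ 2 * (A2 (deriv s.G) + A2 (deriv^[2] s.G)) ≤ 2 * C / (N : ℝ) ^ 6 * s.Q)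
    ∧ (1 / ((N : ℝ) ^ 4) ^ 2 * (A2 s.G + A2 (deriv s.G)) ≤ 2 * C / (N : ℝ) ^ 6 * s.Q)
    ∧ (1 / (N : ℝ) ^ 4 * (A2 s.G + A2 (deriv s.G)) ≤ 2 * C / (N : ℝ) ^ 6 * s.Q) := by
  have hQ := s.Q_nonneg
  have hN1 : (1 : ℝ) ≤ N := by exact_mod_cast hN
  have hN0 : (0 : ℝ) < N := by linarith
  have p1 : 1 ≤ (N : ℝ) ^ 2 := one_le_pow₀ hN1
  have hCQ : 0 ≤ C * s.Q := by positivity
  -- every norm is at most the largest one allowed
  have a1 : A2 (deriv s.G) ≤ C * s.Q / (N : ℝ) ^ 2 := h.w1.trans_eq (by ring)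
  have a0 : A2 s.G ≤ C * s.Q / (N : ℝ) ^ 2 := by
    refine h.w0.trans ?_
    rw [div_mul_eq_mul_div]
    gcongr
    · norm_num
  have a2 : A2 (deriv^[2] s.G) ≤ C * s.Q * (N : ℝ) ^ 2 := by
    show s.Q ≤ _
    have h1 : s.Q ≤ C * s.Q := le_mul_of_one_le_left hQ hC
    exact h1.trans (le_mul_of_one_le_right hCQ p1)
  have a3 : A2 (deriv^[3] s.G) ≤ C * s.Q * (N : ℝ) ^ 2 := h.w3.trans_eq (by ring)
  have up : C * s.Q / (N : ℝ) ^ 2 ≤ C * s.Q * (N : ℝ) ^ 2 :=
    (div_le_self hCQ p1).trans (le_mul_of_one_le_right hCQ p1)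
  have key : 1 / ((N : ℝ) ^ 4) ^ 2 * (2 * (C * s.Q * (N : ℝ) ^ 2)) = 2 * C / (N : ℝ) ^ 6 * s.Q := by
    field_simp
  have key' : 1 / (N : ℝ) ^ 4 * (2 * (C * s.Q / (N : ℝ) ^ 2)) = 2 * C / (N : ℝ) ^ 6 * s.Q := by
    field_simp
  refine ⟨?_, ?_, ?_, ?_⟩
  · rw [← key]; gcongr; linarith
  · rw [← key]; gcongr; linarith
  · rw [← key]; gcongr; linarith
  · rw [← key']; gcongr; linarith

/-- The refined bound. -/
theorem refined (C βm : ℝ) (hC : 1 ≤ C) (hm : 0 < βm) :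
    ∃ K, 0 ≤ K ∧ ∀ (c : Coef) (s : Src) (v : ℝ × ℝ → ℝ) (β δ γ ε : ℝ) (N : ℕ),
      Hyp c s v β δ γ C ε N → βm ≤ β →
        energy β v ≤ K * (s.Q / (N : ℝ) ^ 6 + ε ^ 2) := by
  have hP0 : 0 ≤ profConst := zero_le_one.trans profConst_ge.1
  refine ⟨20000000 * (C ^ 3 * profConst + 1) / βm, by positivity,
    fun c s v β δ γ ε N h hβm => ?_⟩
  have D := h.data
  have hβ := D.pos
  have hβ1 : β ≤ 1 := D.le.trans (by norm_num)
  have hN : (80 : ℝ) ≤ N := by exact_mod_cast h.hN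
  set R : ℝ := (N : ℝ) ^ 4 with hRdef
  have hR : 80 ≤ R := hN.trans (le_self_pow₀ (by linarith) (by norm_num))
  have hw1 : ContDiff ℝ 1 v := h.hv.of_le (by norm_num)
  have hw2 : ContDiff ℝ 2 v := h.hv.of_le (by norm_num)
  obtain ⟨o, op', oy⟩ := offBox_derivs h.hs
  obtain ⟨v0, v1, v2⟩ := continuous_derivs hw1
  have og : OffBox (gmult v) := fun q hq => by simp [gmult, o q hq, op' q hq, oy q hq]
  have cg : Continuous (gmult v) := by unfold gmult; fun_prop
  have cop : Continuous (c.op v) := continuous_op D.smooth0 hw2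
  have cS : Continuous (s.S R) := (Src.contDiff_S h.src R).continuous
  have oD : OffBox fun q => c.op v q - s.S R q := fun q hq => by
    simp [offBox_op h.hs q hq, Src.offBox_S h.src hR q hq]
  have cD : Continuous fun q => c.op v q - s.S R q := cop.sub cS
  set l : ℝ := β / 16000 with hldef
  have hl : 0 < l := by positivity
  have hD2 : ∫ q, (c.op v q - s.S R q) ^ 2 ≤ 80 * ε ^ 2 :=
    integral_le_sup (cD.pow 2) oD.sq (sq_nonneg ε) fun q hq => by
      rw [← sq_abs]; exact pow_le_pow_left₀ (abs_nonneg _) (h.err q hq).1 2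
  have pD := (abs_le.1 (pair_le hl cD cg oD og)).2
  have hG := h.src.hG
  have g1 : ContDiff ℝ ∞ (deriv s.G) := (contDiff_infty_iff_deriv.1 hG).2
  have g2 : ContDiff ℝ ∞ (deriv^[2] s.G) := (contDiff_infty_iff_deriv.1 g1).2
  have p0 := (abs_le.1 (gm_eta hR hl h.src.h0 h.src.b0 g2 h.src.sG.deriv.deriv hw1 h.hs)).2
  have p1 := (abs_le.1 (gm_eta hR hl h.src.h1 h.src.b1 g1 h.src.sG.deriv hw1 h.hs)).2
  have p2 := (abs_le.1 (gm_eta1 hR hl h.src.h2 h.src.b2 hG h.src.sG hw1 h.hs)).2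
  have p3 := (abs_le.1 (gm_eta hR hl h.src.h3 h.src.b3 hG h.src.sG hw1 h.hs)).2
  obtain ⟨n0, n1, n2, n3⟩ := Src.norms h.src hC (le_trans (by norm_num) h.hN)
  rw [← hRdef] at n0 n1 n2 n3
  have cE := (contDiff_eta R).continuous
  have cE1 := (contDiff_eta1 R).continuous
  have cT0 := continuous_term h.src.h0.continuous cE g2.continuous
  have cT1 := continuous_term h.src.h1.continuous cE g1.continuous
  have cT2 := continuous_term h.src.h2.continuous cE1 hG.continuous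
  have cT3 := continuous_term h.src.h3.continuous cE hG.continuous
  have split : (∫ q, c.op v q * gmult v q) = (∫ q, (c.op v q - s.S R q) * gmult v q)
      + ((∫ q, term s.c0 (eta R) (deriv^[2] s.G) q * gmult v q)
        + (∫ q, term s.c1 (eta R) (deriv s.G) q * gmult v q)
        + (∫ q, term s.c2 (eta1 R) s.G q * gmult v q)
        + ∫ q, term s.c3 (eta R) s.G q * gmult v q) := by
    have i : ∀ f : ℝ × ℝ → ℝ, Continuous f → Integrable fun q => f q * gmult v q := fun f hf =>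
      (og.mul_left f).integrable (hf.mul cg)
    rw [← integral_add (i _ cT0) (i _ cT1), ← integral_add ((i _ cT0).fun_add (i _ cT1)) (i _ cT2),
      ← integral_add (((i _ cT0).fun_add (i _ cT1)).fun_add (i _ cT2)) (i _ cT3),
      ← integral_add (i _ cD)
        ((((i _ cT0).fun_add (i _ cT1)).fun_add (i _ cT2)).fun_add (i _ cT3))]
    refine integral_congr_ae (Filter.Eventually.of_forall fun q => ?_)
    simp only [Src.S]
    ring
  obtain ⟨-, -, cH, cgm⟩ := energy_controls hβ hβ1 hw1 h.hs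
  have hg := D.global0 hw2 h.hs
  rw [split] at hg
  set M : ℝ := C ^ 2 * profConst / l with hM
  have hM0 : 0 ≤ M := by positivity
  have q0 := mul_le_mul_of_nonneg_left n0 hM0
  have q1 := mul_le_mul_of_nonneg_left n1 hM0
  have q2 := mul_le_mul_of_nonneg_left n2 hM0
  have q3 := mul_le_mul_of_nonneg_left n3 hM0
  have r0 : C ^ 2 * profConst / (l * R ^ 2) = M * (1 / R ^ 2) := by rw [hM]; field_simp
  have r1 : C ^ 2 * profConst / (l * R) = M * (1 / R) := by rw [hM]; field_simp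
  rw [r0] at p0 p1 p3
  rw [r1] at p2
  have e3 : deriv (deriv^[2] s.G) = deriv^[3] s.G := (Function.iterate_succ_apply' deriv 2 s.G).symm
  have e2 : deriv (deriv s.G) = deriv^[2] s.G := rfl
  rw [e3] at p0
  rw [e2] at p1
  have hHl : l * H v ≤ 1 / 1600 * energy β v := by
    rw [hldef]; linarith [cH]
  have hgl : l * (∫ q, gmult v q ^ 2) ≤ 1 / 2000 * energy β v := by
    rw [hldef]; linarith [cgm]
  have hDl := mul_le_mul_of_nonneg_left hD2 (by positivity : 0 ≤ 1 / (4 * l))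
  have hE := energy_nonneg hβ.le v
  have tot : energy β v ≤ 400 * (M * (C / (N : ℝ) ^ 6 * s.Q)) + 1000 / l * ε ^ 2 := by
    have e4 : 1 / (4 * l) * (80 * ε ^ 2) = 20 / l * ε ^ 2 := by field_simp; ring
    have e5 : 0 ≤ M * (C / (N : ℝ) ^ 6 * s.Q) := by
      have := s.Q_nonneg; positivity
    have e6 : 1000 / l * ε ^ 2 = 50 * (20 / l * ε ^ 2) := by field_simp; ring
    have e7 : 0 ≤ 20 / l * ε ^ 2 := by positivity
    have s0 := p0.trans (add_le_add le_rfl ((mul_assoc _ _ _).trans_le q0))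
    have s1 := p1.trans (add_le_add le_rfl ((mul_assoc _ _ _).trans_le q1))
    have s3 := p3.trans (add_le_add le_rfl ((mul_assoc _ _ _).trans_le q2))
    have s2 := p2.trans (add_le_add le_rfl ((mul_assoc _ _ _).trans_le q3))
    have sD := pD.trans (add_le_add hgl (hDl.trans_eq e4))
    clear p0 p1 p2 p3 pD q0 q1 q2 q3 hDl n0 n1 n2 n3 r0 r1 e4
    have e8 : M * (2 * C / (N : ℝ) ^ 6 * s.Q) = 2 * (M * (C / (N : ℝ) ^ 6 * s.Q)) := by ring
    rw [e8] at s0 s1 s2 s3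
    rw [e6]
    generalize M * (C / (N : ℝ) ^ 6 * s.Q) = X at *
    generalize 20 / l * ε ^ 2 = Y at *
    linarith only [hg, s0, s1, s2, s3, sD, hHl, hE, e5, e7]
  refine tot.trans ?_
  have hl' : 1 / l ≤ 16000 / βm := by
    rw [hldef, one_div_div]; gcongr
  have hx : 0 ≤ s.Q / (N : ℝ) ^ 6 := by have := s.Q_nonneg; positivity
  have k1 : 400 * (M * (C / (N : ℝ) ^ 6 * s.Q)) =
      1 / l * (400 * (C ^ 3 * profConst) * (s.Q / (N : ℝ) ^ 6)) := by rw [hM]; field_simp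
  have k2 : 1000 / l * ε ^ 2 = 1 / l * (1000 * ε ^ 2) := by ring
  rw [k1, k2]
  have hCP : 0 ≤ C ^ 3 * profConst := by positivity
  have m1 := mul_le_mul_of_nonneg_right hl'
    (by positivity : 0 ≤ 400 * (C ^ 3 * profConst) * (s.Q / (N : ℝ) ^ 6))
  have m2 := mul_le_mul_of_nonneg_right hl' (by positivity : 0 ≤ 1000 * ε ^ 2)
  have e : 20000000 * (C ^ 3 * profConst + 1) / βm * (s.Q / (N : ℝ) ^ 6 + ε ^ 2) =
      16000 / βm * (400 * (C ^ 3 * profConst) * (s.Q / (N : ℝ) ^ 6))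
      + 16000 / βm * (1000 * ε ^ 2)
      + (13600000 / βm * (C ^ 3 * profConst) * (s.Q / (N : ℝ) ^ 6)
        + 20000000 / βm * (s.Q / (N : ℝ) ^ 6)
        + 20000000 / βm * (C ^ 3 * profConst) * ε ^ 2
        + 4000000 / βm * ε ^ 2) := by ring
  have : 0 ≤ 13600000 / βm * (C ^ 3 * profConst) * (s.Q / (N : ℝ) ^ 6)
        + 20000000 / βm * (s.Q / (N : ℝ) ^ 6)
        + 20000000 / βm * (C ^ 3 * profConst) * ε ^ 2
        + 4000000 / βm * ε ^ 2 := by positivity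
  linarith

end Vale.Agent.P229.Est
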