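import Vale.Agent.P229.Est.Band

/-!
# P229: band traces on both sides, by reflecting the first coordinate
-/

open MeasureTheory
open scoped ContDiff

namespace Vale.Agent.P229.Est

/-- The reflection of the first coordinate. -/
noncomputable def refl : (ℝ × ℝ) →L[ℝ] (ℝ × ℝ) :=
  (-ContinuousLinearMap.fst ℝ ℝ ℝ).prod (ContinuousLinearMap.snd ℝ ℝ ℝ)

@[simp] theorem refl_apply (q : ℝ × ℝ) : refl q = (-q.1, q.2) := rfl

theorem refl_refl (q : ℝ × ℝ) : refl (refl q) = q := by simp

/-- The composition with the reflection. -/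
noncomputable def flp (f : ℝ × ℝ → ℝ) (q : ℝ × ℝ) : ℝ := f (refl q)

theorem flp_contDiff {n : ℕ∞ω} {f : ℝ × ℝ → ℝ} (hf : ContDiff ℝ n f) : ContDiff ℝ n (flp f) :=
  hf.comp refl.contDiff

theorem dp_flp {f : ℝ × ℝ → ℝ} (hf : Differentiable ℝ f) : dp (flp f) = -flp (dp f) := by
  funext q
  have h := (hf (refl q)).hasFDerivAt.comp q refl.hasFDerivAt
  show fderiv ℝ (f ∘ refl) q (1, 0) = -(fderiv ℝ f (refl q) (1, 0))
  rw [h.fderiv, ContinuousLinearMap.comp_apply,
    show refl (1, 0) = -((1, 0) : ℝ × ℝ) by simp, map_neg]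

theorem dy_flp {f : ℝ × ℝ → ℝ} (hf : Differentiable ℝ f) : dy (flp f) = flp (dy f) := by
  funext q
  have h := (hf (refl q)).hasFDerivAt.comp q refl.hasFDerivAt
  show fderiv ℝ (f ∘ refl) q (0, 1) = fderiv ℝ f (refl q) (0, 1)
  rw [h.fderiv, ContinuousLinearMap.comp_apply, show refl (0, 1) = ((0, 1) : ℝ × ℝ) by simp]

theorem dp_neg' (f : ℝ × ℝ → ℝ) : dp (-f) = -dp f := by
  funext q; simp [dp, fderiv_neg]

theorem dy_neg' (f : ℝ × ℝ → ℝ) : dy (-f) = -dy f := by
  funext q; simp [dy, fderiv_neg]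

theorem dp_flp_neg {f : ℝ × ℝ → ℝ} (hf : Differentiable ℝ f) : dp (-flp f) = flp (dp f) := by
  rw [dp_neg', dp_flp hf, neg_neg]

/-- The reflected coefficients. -/
noncomputable def Coef.flip (c : Coef) : Coef where
  d := -flp c.d
  a := flp c.a
  g := -flp c.g
  et := flp c.et
  ze := flp c.ze

theorem measurePreserving_refl : MeasurePreserving (fun q : ℝ × ℝ => refl q) := by
  have h := ((Measure.measurePreserving_neg (volume : Measure ℝ)).prod
    (MeasurePreserving.id (volume : Measure ℝ)))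
  rw [← Measure.volume_eq_prod] at h
  exact h

theorem refl_embedding : MeasurableEmbedding (fun q : ℝ × ℝ => refl q) :=
  ((MeasurableEquiv.neg ℝ).prodCongr (MeasurableEquiv.refl ℝ)).measurableEmbedding

theorem integral_flp (f : ℝ × ℝ → ℝ) : ∫ q, flp f q = ∫ q, f q :=
  measurePreserving_refl.integral_comp refl_embedding f

theorem SideHyp.reflect {β d0 γ Kc ε r : ℝ} {c : Coef} {v E : ℝ × ℝ → ℝ}
    (H : SideHyp β d0 γ Kc ε r c v E) : SideHyp β d0 γ Kc ε r c.flip (flp v) (flp E) := by
  have v1 : Differentiable ℝ v := H.hv.differentiable (by norm_num)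
  have vp : Differentiable ℝ (dp v) :=
    (contDiff_dp (m := 3) H.hv (by norm_num)).differentiable (by norm_num)
  have vy : Differentiable ℝ (dy v) :=
    (contDiff_dy (m := 3) H.hv (by norm_num)).differentiable (by norm_num)
  have d1 : Differentiable ℝ c.d := H.hd.differentiable (by norm_num)
  have d2 : Differentiable ℝ (dp c.d) :=
    (contDiff_dp (m := 2) H.hd (by norm_num)).differentiable two_ne_zero
  have a1 : Differentiable ℝ c.a := H.ha.differentiable (by norm_num)
  have a2 : Differentiable ℝ (dp c.a) :=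
    (contDiff_dp (m := 2) H.ha (by norm_num)).differentiable two_ne_zero
  have g1 : Differentiable ℝ c.g := H.hg.differentiable (by norm_num)
  have g2 : Differentiable ℝ (dp c.g) :=
    (contDiff_dp (m := 2) H.hg (by norm_num)).differentiable two_ne_zero
  have e1 : Differentiable ℝ c.et := H.het.differentiable (by norm_num)
  have e2 : Differentiable ℝ (dp c.et) :=
    (contDiff_dp (m := 2) H.het (by norm_num)).differentiable two_ne_zero
  have f1 : Differentiable ℝ E := H.hE.differentiable two_ne_zero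
  have f2 : Differentiable ℝ (dp E) :=
    (contDiff_dp (m := 1) H.hE (by norm_num)).differentiable one_ne_zero
  refine ⟨(flp_contDiff H.hd).neg, flp_contDiff H.ha, (flp_contDiff H.hg).neg,
    flp_contDiff H.het, ?_, flp_contDiff H.hv, ?_, flp_contDiff H.hE, ?_, ?_⟩
  · funext q; simp [Coef.flip, flp, H.hze]
  · intro q hq
    have h := tsupport_comp_subset_preimage v refl.continuous hq
    simpa using H.hvs _ h
  · intro q hq
    have := H.bounds (refl q) (by simpa using hq)
    simp only [Coef.flip, dp_flp a1, dp_flp e1, dp_flp f1, dy_flp d1,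
      dy_flp e1, dy_neg', dy_flp d2, dp_flp_neg d1, dp_flp_neg g1, dp_flp_neg a2, dp_flp_neg e2,
      dp_flp_neg f2, dp_flp d2, dp_flp g2, Pi.neg_apply, flp, abs_neg, neg_sub_neg]
    simpa [abs_sub_comm, ← sub_eq_add_neg, neg_add_eq_sub, flp, add_comm] using this
  · intro q hq hr
    have h := H.eqn (refl q) (by simpa using hq) (by simpa using hr)
    simp only [Coef.op, Coef.flip, dy_flp v1, dy_flp vy, dp_flp v1, dp_flp vy, dp_flp_neg vp,
      Pi.neg_apply, flp] at h ⊢
    rw [← h]; ring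

/-- The band on both sides of the slab. -/
def bandSet (r : ℝ) : Set (ℝ × ℝ) :=
  {q | 6 * r ≤ |q.1| ∧ |q.1| ≤ 7 * r ∧ |q.2| ≤ 3 / 10}

theorem traceSq_flp {v : ℝ × ℝ → ℝ} (hv : ContDiff ℝ 4 v) : traceSq (flp v) = flp (traceSq v) := by
  have v1 : Differentiable ℝ v := hv.differentiable (by norm_num)
  have h1 : ContDiff ℝ 3 (dp v) := contDiff_dp hv (by norm_num)
  have vp : Differentiable ℝ (dp v) := h1.differentiable (by norm_num)
  have vpp : Differentiable ℝ (dp (dp v)) :=
    (contDiff_dp (m := 2) h1 (by norm_num)).differentiable two_ne_zero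
  funext q
  simp only [traceSq, dp_flp v1, dy_flp v1, dp_flp_neg vp, dp_flp vpp, dy_neg', dy_flp vp, dy_flp vpp,
    Pi.neg_apply, flp, neg_sq]

theorem en_flp {β : ℝ} {w : ℝ × ℝ → ℝ} (hw : Differentiable ℝ w) :
    en β (flp w) = flp (en β w) ∧ en β (-flp w) = flp (en β w) := by
  constructor <;> funext q <;>
    simp [en, dp_neg', dy_neg', dp_flp hw, dy_flp hw, flp]

/-- Band traces on both sides of the slab. -/
theorem band_traces (βm Kc : ℝ) (hβm : 0 < βm) (hKc : 0 ≤ Kc) :
    ∃ K, 0 ≤ K ∧ ∀ (β d0 γ ε r : ℝ) (c : Coef) (v E : ℝ × ℝ → ℝ),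
      βm ≤ β → β ≤ 1 / 10000 →
      d0 ≤ 1 / 20000 → γ ≤ lam * β * Real.sqrt β / 100 → 0 < r →
      r ≤ lam * Real.sqrt β / 4 → SideHyp β d0 γ Kc ε r c v E →
      ∫ q in bandSet r, traceSq v q ≤
        K * r * ((∫ q, en β v q) + ε ^ 2
          + γ ^ 2 * ((∫ q, en β (dp v) q) + ∫ q, en β (dp (dp v)) q)) := by
  obtain ⟨K, hK, h⟩ := band_traces_left βm Kc hβm hKc
  refine ⟨2 * K, by positivity, fun β d0 γ ε r c v E hβl hβ1 hd0 hγ hr hr1 H => ?_⟩
  have hl := h β d0 γ ε r c v E hβl hβ1 hd0 hγ hr hr1 H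
  have hrr := h β d0 γ ε r c.flip (flp v) (flp E) hβl hβ1 hd0 hγ hr hr1 H.reflect
  have v1 : Differentiable ℝ v := H.hv.differentiable (by norm_num)
  have w1 : ContDiff ℝ 3 (dp v) := contDiff_dp H.hv (by norm_num)
  have vp : Differentiable ℝ (dp v) := w1.differentiable (by norm_num)
  have vpp : Differentiable ℝ (dp (dp v)) :=
    (contDiff_dp (m := 2) w1 (by norm_num)).differentiable two_ne_zero
  rw [(en_flp v1).1, dp_flp v1, (en_flp vp).2, dp_flp_neg vp, (en_flp vpp).1, integral_flp,
    integral_flp, integral_flp, traceSq_flp H.hv] at hrr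
  set BL := Set.Icc (-(7 * r)) (-(6 * r)) ×ˢ Set.Icc (-(3 / 10) : ℝ) (3 / 10) with hBL
  have hm : MeasurableSet BL := measurableSet_Icc.prod measurableSet_Icc
  have hc : Continuous (traceSq v) := by
    have w2 : ContDiff ℝ 2 (dp (dp v)) := contDiff_dp w1 (by norm_num)
    have c0 : Continuous (dy v) := (contDiff_dy (m := 3) H.hv (by norm_num)).continuous
    have c1 := w1.continuous
    have c2 := w2.continuous
    have c3 : Continuous (dy (dp v)) := (contDiff_dy (m := 2) w1 (by norm_num)).continuous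
    have c4 : Continuous (dy (dp (dp v))) := (contDiff_dy (m := 1) w2 (by norm_num)).continuous
    have c5 : Continuous (dp (dp (dp v))) := (contDiff_dp (m := 1) w2 (by norm_num)).continuous
    unfold traceSq; fun_prop
  have hI : IntegrableOn (traceSq v) BL :=
    hc.continuousOn.integrableOn_compact (isCompact_Icc.prod isCompact_Icc)
  have hIr : IntegrableOn (traceSq v) ((fun q => refl q) ⁻¹' BL) := by
    refine (hc.continuousOn.integrableOn_compact
      ((isCompact_Icc (a := 6 * r) (b := 7 * r)).prod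
        (isCompact_Icc (a := -(3 / 10 : ℝ)) (b := 3 / 10)))).mono_set ?_
    rintro q ⟨⟨h1, h2⟩, h3⟩
    simp only [refl_apply] at h1 h2
    exact ⟨⟨by linarith, by linarith⟩, h3⟩
  have hsub : bandSet r ⊆ BL ∪ (fun q => refl q) ⁻¹' BL := by
    rintro q ⟨h1, h2, h3⟩
    rcases le_total q.1 0 with hp | hp
    · left
      rw [abs_of_nonpos hp] at h1 h2
      exact ⟨⟨by linarith, by linarith⟩, abs_le.1 h3⟩
    · right
      rw [abs_of_nonneg hp] at h1 h2
      exact ⟨⟨by simp only [refl_apply]; linarith, by simp only [refl_apply]; linarith⟩,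
        abs_le.1 h3⟩
  have hnn : ∀ q, 0 ≤ traceSq v q := fun q => by unfold traceSq; positivity
  refine (setIntegral_mono_set (hI.union hIr) (Filter.Eventually.of_forall hnn)
    hsub.eventuallyLE).trans ?_
  have hd : Disjoint BL ((fun q => refl q) ⁻¹' BL) := by
    rw [Set.disjoint_left]
    rintro q ⟨⟨-, ha⟩, -⟩ ⟨⟨-, hb⟩, -⟩
    simp only [refl_apply] at hb
    linarith
  rw [setIntegral_union hd (refl_embedding.measurable hm) hI hIr]
  have e : ∫ q in (fun q => refl q) ⁻¹' BL, traceSq v q = ∫ q in BL, flp (traceSq v) q := by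
    rw [← measurePreserving_refl.setIntegral_preimage_emb refl_embedding
      (fun q => flp (traceSq v) q)]
    simp [flp]
  rw [e]
  linarith

end Vale.Agent.P229.Est
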