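import Vale.Agent.P229.Est.Identities

/-!
# P229: the identities as vanishing integrals of residuals
-/

open MeasureTheory
open scoped ContDiff

namespace Vale.Agent.P229.Est

/-- The bracket of (I0). -/
noncomputable def Coef.zterm (c : Coef) (ν : ℝ × ℝ → ℝ) (q : ℝ × ℝ) : ℝ :=
  dy (dy ν) q + 2 * dy (dp (c.d * ν)) q + dp (dp (c.a * ν)) q
    - dp (c.g * ν) q - dy (c.et * ν) q + 2 * c.ze q * ν q

/-- The residual of (I0). -/
noncomputable def Coef.res0 (c : Coef) (ν w : ℝ × ℝ → ℝ) (q : ℝ × ℝ) : ℝ :=
  c.op w q * (ν q * w q)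
    - (-(ν q * (dy w q ^ 2 + 2 * c.d q * dp w q * dy w q + c.a q * dp w q ^ 2))
        + 1 / 2 * w q ^ 2 * c.zterm ν q)

/-- The residual of (I1). -/
noncomputable def Coef.res1 (c : Coef) (θ w : ℝ × ℝ → ℝ) (q : ℝ × ℝ) : ℝ :=
  c.op w q * (θ q * dp w q)
    - (1 / 2 * dp θ q * (dy w q ^ 2 - c.a q * dp w q ^ 2)
        + θ q * (c.g q - dp c.a q / 2 - dy c.d q) * dp w q ^ 2
        - dy θ q * (dy w q * dp w q + c.d q * dp w q ^ 2)
        + θ q * (c.et q * dy w q * dp w q + c.ze q * w q * dp w q))

/-- The energy density. -/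
noncomputable def en (β : ℝ) (w : ℝ × ℝ → ℝ) (q : ℝ × ℝ) : ℝ := dy w q ^ 2 + β * dp w q ^ 2

/-- A continuous function vanishing off the support of `w` is integrable. -/
theorem integrable_of_eq_zero_off {f w : ℝ × ℝ → ℝ} (hf : Continuous f)
    (hs : HasCompactSupport w) (h : ∀ q, q ∉ tsupport w → f q = 0) : Integrable f :=
  hf.integrable_of_hasCompactSupport (HasCompactSupport.intro hs.isCompact h)

variable {c : Coef} {ν θ w : ℝ × ℝ → ℝ} {β : ℝ}

theorem en_nonneg (hβ : 0 ≤ β) (q : ℝ × ℝ) : 0 ≤ en β w q := by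
  unfold en; positivity

theorem en_continuous (hw : ContDiff ℝ 1 w) : Continuous (en β w) := by
  have h1 : Continuous (dy w) := (contDiff_dy (m := 0) hw (by simp)).continuous
  have h2 : Continuous (dp w) := (contDiff_dp (m := 0) hw (by simp)).continuous
  unfold en; fun_prop

theorem integrable_mul_en (hθ : Continuous θ) (hw : ContDiff ℝ 1 w) (hs : HasCompactSupport w) :
    Integrable fun q => θ q * en β w q :=
  integrable_of_eq_zero_off (hθ.mul (en_continuous hw)) hs fun q hq => by
    simp [en, eq_zero_off q hq]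

theorem integrable_en (hw : ContDiff ℝ 1 w) (hs : HasCompactSupport w) : Integrable (en β w) :=
  integrable_of_eq_zero_off (en_continuous hw) hs fun q hq => by simp [en, eq_zero_off q hq]

theorem op_continuous (hc : c.Smooth) (hw : ContDiff ℝ 2 w) : Continuous (c.op w) := by
  have h1 := hc.d.continuous
  have h2 := hc.a.continuous
  have h3 := hc.g.continuous
  have h4 := hc.et.continuous
  have h5 := hc.ze.continuous
  have h6 := hw.continuous
  have hp : ContDiff ℝ 1 (dp w) := contDiff_dp hw (by norm_num)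
  have hy : ContDiff ℝ 1 (dy w) := contDiff_dy hw (by norm_num)
  have h7 := hp.continuous
  have h8 := hy.continuous
  have h9 : Continuous (dy (dy w)) := (contDiff_dy (m := 0) hy (by simp)).continuous
  have h10 : Continuous (dp (dy w)) := (contDiff_dp (m := 0) hy (by simp)).continuous
  have h11 : Continuous (dp (dp w)) := (contDiff_dp (m := 0) hp (by simp)).continuous
  unfold Coef.op; fun_prop

theorem op_eq_zero_off (q : ℝ × ℝ) (hq : q ∉ tsupport w) : c.op w q = 0 := by
  have hy : tsupport (dy w) ⊆ tsupport w := tsupport_fderiv_apply_subset ℝ _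
  have hp : tsupport (dp w) ⊆ tsupport w := tsupport_fderiv_apply_subset ℝ _
  obtain ⟨h1, h2, h3⟩ := eq_zero_off (w := w) q hq
  obtain ⟨-, h4, h5⟩ := eq_zero_off (w := dy w) q fun h => hq (hy h)
  obtain ⟨-, h6, -⟩ := eq_zero_off (w := dp w) q fun h => hq (hp h)
  simp [Coef.op, h1, h2, h3, h4, h5, h6]

theorem res0_spec (hc : c.Smooth) (hν : ContDiff ℝ 2 ν) (hw : ContDiff ℝ 2 w)
    (hs : HasCompactSupport w) : Integrable (c.res0 ν w) ∧ ∫ q, c.res0 ν w q = 0 := by
  have cd := hc.d; have ca := hc.a; have cg := hc.g; have ce := hc.et; have cz := hc.ze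
  have d1 : ContDiff ℝ 1 (dp (c.d * ν)) := contDiff_dp (cd.mul hν) (by norm_num)
  have a1 : ContDiff ℝ 1 (dp (c.a * ν)) := contDiff_dp (ca.mul hν) (by norm_num)
  have y1 : ContDiff ℝ 1 (dy ν) := contDiff_dy hν (by norm_num)
  have n1 : ContDiff ℝ 1 ν := hν.of_le (by norm_num)
  have i1 : Continuous (dy (dy ν)) := (contDiff_dy (m := 0) y1 (by simp)).continuous
  have i2 : Continuous (dy (dp (c.d * ν))) := (contDiff_dy (m := 0) d1 (by simp)).continuous
  have i3 : Continuous (dp (dp (c.a * ν))) := (contDiff_dp (m := 0) a1 (by simp)).continuous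
  have i4 : Continuous (dp (c.g * ν)) := (contDiff_dp (m := 0) (cg.mul n1) (by simp)).continuous
  have i5 : Continuous (dy (c.et * ν)) := (contDiff_dy (m := 0) (ce.mul n1) (by simp)).continuous
  have i6 := cd.continuous
  have i7 := ca.continuous
  have i8 := cz.continuous
  have i9 := hν.continuous
  have j1 := hw.continuous
  have j2 : Continuous (dp w) := (contDiff_dp (m := 0) (hw.of_le one_le_two) (by simp)).continuous
  have j3 : Continuous (dy w) := (contDiff_dy (m := 0) (hw.of_le one_le_two) (by simp)).continuous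
  have j4 := op_continuous hc hw
  have hT : Integrable fun q => c.op w q * (ν q * w q) :=
    integrable_of_eq_zero_off (by fun_prop) hs fun q hq => by simp [eq_zero_off q hq]
  have hR : Integrable fun q =>
      -(ν q * (dy w q ^ 2 + 2 * c.d q * dp w q * dy w q + c.a q * dp w q ^ 2))
        + 1 / 2 * w q ^ 2 * c.zterm ν q :=
    integrable_of_eq_zero_off (by unfold Coef.zterm; fun_prop) hs fun q hq => by
      simp [eq_zero_off q hq]
  refine ⟨hT.sub hR, ?_⟩
  unfold Coef.res0
  rw [integral_sub hT hR, ident_zero hc hν hw hs]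
  simp [Coef.zterm]

theorem res1_spec (hc : c.Smooth) (hθ : ContDiff ℝ 1 θ) (hw : ContDiff ℝ 2 w)
    (hs : HasCompactSupport w) : Integrable (c.res1 θ w) ∧ ∫ q, c.res1 θ w q = 0 := by
  have i1 : Continuous (dp θ) := (contDiff_dp (m := 0) hθ (by simp)).continuous
  have i2 : Continuous (dy θ) := (contDiff_dy (m := 0) hθ (by simp)).continuous
  have i3 : Continuous (dp c.a) :=
    (contDiff_dp (m := 0) (hc.a.of_le one_le_two) (by simp)).continuous
  have i4 : Continuous (dy c.d) :=
    (contDiff_dy (m := 0) (hc.d.of_le one_le_two) (by simp)).continuous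
  have i5 := hc.d.continuous
  have i6 := hc.a.continuous
  have i7 := hc.g.continuous
  have i8 := hc.et.continuous
  have i9 := hc.ze.continuous
  have i10 := hθ.continuous
  have j1 := hw.continuous
  have j2 : Continuous (dp w) := (contDiff_dp (m := 0) (hw.of_le one_le_two) (by simp)).continuous
  have j3 : Continuous (dy w) := (contDiff_dy (m := 0) (hw.of_le one_le_two) (by simp)).continuous
  have j4 := op_continuous hc hw
  have hT : Integrable fun q => c.op w q * (θ q * dp w q) :=
    integrable_of_eq_zero_off (by fun_prop) hs fun q hq => by simp [eq_zero_off q hq]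
  have hR : Integrable fun q =>
      1 / 2 * dp θ q * (dy w q ^ 2 - c.a q * dp w q ^ 2)
        + θ q * (c.g q - dp c.a q / 2 - dy c.d q) * dp w q ^ 2
        - dy θ q * (dy w q * dp w q + c.d q * dp w q ^ 2)
        + θ q * (c.et q * dy w q * dp w q + c.ze q * w q * dp w q) :=
    integrable_of_eq_zero_off (by fun_prop) hs fun q hq => by simp [eq_zero_off q hq]
  refine ⟨hT.sub hR, ?_⟩
  unfold Coef.res1
  rw [integral_sub hT hR, ident_one hc hθ hw hs, sub_self]

/-- A pointwise bound modulo two residuals is an integral bound. -/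
theorem integral_le_of_res {P W R R' : ℝ × ℝ → ℝ} {a b : ℝ} (hP : Integrable P)
    (hW : Integrable W) (hR : Integrable R ∧ ∫ q, R q = 0) (hR' : Integrable R' ∧ ∫ q, R' q = 0)
    (h : ∀ q, P q ≤ a * R q + b * R' q + W q) : ∫ q, P q ≤ ∫ q, W q := by
  have h1 := integral_mono hP (((hR.1.const_mul a).fun_add (hR'.1.const_mul b)).fun_add hW) h
  rw [integral_add ((hR.1.const_mul a).fun_add (hR'.1.const_mul b)) hW,
    integral_add (hR.1.const_mul a) (hR'.1.const_mul b), integral_const_mul, integral_const_mul,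
    hR.2, hR'.2] at h1
  simpa using h1

end Vale.Agent.P229.Est
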