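import Vale.Agent.P229.Est.Identities

/-!
# P229: hypotheses on the coefficients, energy, and two elementary inequalities

`Lvl c β δ μ K j` says that on the box the coefficients of the equation for the `j`-th
`p`-derivative are close to those of the model operator
`∂_yy + β (p² + y² - 1) ∂_pp + 2 (j+1) β p ∂_p`.
-/

open MeasureTheory
open scoped ContDiff

namespace Vale.Agent.P229.Est

/-- The open disc containing all supports. -/
def Box : Set (ℝ × ℝ) := {q | q.1 ^ 2 + q.2 ^ 2 < 9 / 4}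

theorem box_bounds {q : ℝ × ℝ} (hq : q ∈ Box) : |q.1| ≤ 3 / 2 ∧ |q.2| ≤ 3 / 2 := by
  have h : q.1 ^ 2 + q.2 ^ 2 < 9 / 4 := hq
  refine ⟨abs_le_of_sq_le_sq ?_ (by norm_num), abs_le_of_sq_le_sq ?_ (by norm_num)⟩
  · nlinarith [sq_nonneg q.2]
  · nlinarith [sq_nonneg q.1]

theorem isOpen_box : IsOpen Box :=
  isOpen_lt (by fun_prop) continuous_const

/-- Closeness of the coefficients to the model at level `j`. -/
structure Lvl (c : Coef) (β δ μ K : ℝ) (j : ℕ) : Prop where
  a0 : ∀ q ∈ Box, |c.a q - β * (q.1 ^ 2 + q.2 ^ 2 - 1)| ≤ δ * β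
  ap : ∀ q ∈ Box, |dp c.a q - 2 * β * q.1| ≤ δ * β * (|q.1| + Real.sqrt β)
  ay : ∀ q ∈ Box, |dy c.a q - 2 * β * q.2| ≤ δ * β
  app : ∀ q ∈ Box, |dp (dp c.a) q| ≤ K * β
  g0 : ∀ q ∈ Box, |c.g q - (j + 1 : ℝ) * (2 * β * q.1)| ≤ δ * β * (|q.1| + Real.sqrt β)
  gp : ∀ q ∈ Box, |dp c.g q| ≤ K * β
  et0 : ∀ q ∈ Box, |c.et q| ≤ δ * β
  ety : ∀ q ∈ Box, |dy c.et q| ≤ K * β
  ze0 : ∀ q ∈ Box, |c.ze q| ≤ K * β
  d0 : ∀ q ∈ Box, |c.d q| ≤ μ
  dd : ∀ q ∈ Box, |dp c.d q| ≤ μ ∧ |dy c.d q| ≤ μ ∧ |dy (dp c.d) q| ≤ μ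

theorem Lvl.mono {c : Coef} {β δ δ' μ μ' K K' : ℝ} {j : ℕ} (h : Lvl c β δ μ K j) (hβ : 0 ≤ β)
    (hδ : δ ≤ δ') (hμ : μ ≤ μ') (hK : K ≤ K') : Lvl c β δ' μ' K' j := by
  have e1 : δ * β ≤ δ' * β := mul_le_mul_of_nonneg_right hδ hβ
  have e2 : K * β ≤ K' * β := mul_le_mul_of_nonneg_right hK hβ
  have e3 : ∀ q : ℝ × ℝ, δ * β * (|q.1| + Real.sqrt β) ≤ δ' * β * (|q.1| + Real.sqrt β) :=
    fun q => mul_le_mul_of_nonneg_right e1 (by positivity)
  exact
    { a0 := fun q hq => (h.a0 q hq).trans e1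
      ap := fun q hq => (h.ap q hq).trans (e3 q)
      ay := fun q hq => (h.ay q hq).trans e1
      app := fun q hq => (h.app q hq).trans e2
      g0 := fun q hq => (h.g0 q hq).trans (e3 q)
      gp := fun q hq => (h.gp q hq).trans e2
      et0 := fun q hq => (h.et0 q hq).trans e1
      ety := fun q hq => (h.ety q hq).trans e2
      ze0 := fun q hq => (h.ze0 q hq).trans e2
      d0 := fun q hq => (h.d0 q hq).trans hμ
      dd := fun q hq => ⟨(h.dd q hq).1.trans hμ, (h.dd q hq).2.1.trans hμ,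
        (h.dd q hq).2.2.trans hμ⟩ }

/-- The `p`-derivative satisfies an equation of the next level. -/
theorem Lvl.next {c : Coef} {β δ μ K : ℝ} {j : ℕ} (hc : c.Smooth)
    (h : Lvl c β δ μ K j) (hμ : μ ≤ δ * β)
    (hμK : μ ≤ K * β) :
    Lvl c.next β (3 * δ) μ (3 * K) (j + 1) := by
  have h1 := hc.a.differentiable two_ne_zero
  have h3 := hc.g.differentiable one_ne_zero
  have h4 := hc.et.differentiable one_ne_zero
  have hap : Differentiable ℝ (dp c.a) :=
    (contDiff_dp (m := 1) hc.a (by norm_num)).differentiable one_ne_zero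
  have hdp : Differentiable ℝ (dp c.d) :=
    (contDiff_dp (m := 1) hc.d (by norm_num)).differentiable one_ne_zero
  refine
    { a0 := fun q hq => (h.a0 q hq).trans ?_
      ap := fun q hq => (h.ap q hq).trans ?_
      ay := fun q hq => (h.ay q hq).trans ?_
      app := fun q hq => (h.app q hq).trans ?_
      g0 := fun q hq => ?_
      gp := fun q hq => ?_
      et0 := fun q hq => ?_
      ety := fun q hq => ?_
      ze0 := fun q hq => ?_
      d0 := h.d0
      dd := h.dd }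
  · nlinarith [abs_nonneg (c.a q - β * (q.1 ^ 2 + q.2 ^ 2 - 1)), h.a0 q hq]
  · nlinarith [abs_nonneg (dp c.a q - 2 * β * q.1), h.ap q hq]
  · nlinarith [abs_nonneg (dy c.a q - 2 * β * q.2), h.ay q hq]
  · nlinarith [abs_nonneg (dp (dp c.a) q), h.app q hq]
  · have e := abs_add_le (c.g q - (j + 1 : ℝ) * (2 * β * q.1)) (dp c.a q - 2 * β * q.1)
    have n := abs_nonneg (c.g q - (j + 1 : ℝ) * (2 * β * q.1))
    simp only [Coef.next, Pi.add_apply, Nat.cast_add, Nat.cast_one]
    rw [show c.g q + dp c.a q - ((j : ℝ) + 1 + 1) * (2 * β * q.1)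
      = c.g q - ((j : ℝ) + 1) * (2 * β * q.1) + (dp c.a q - 2 * β * q.1) by ring]
    linarith [h.g0 q hq, h.ap q hq]
  · simp only [Coef.next]
    rw [dp_add h3 hap]
    linarith [abs_add_le (dp c.g q) (dp (dp c.a) q), h.gp q hq, h.app q hq,
      abs_nonneg (dp c.g q)]
  · simp only [Coef.next, Pi.add_apply, Pi.smul_apply, smul_eq_mul]
    have := abs_mul (2 : ℝ) (dp c.d q)
    rw [abs_two] at this
    linarith [abs_add_le (c.et q) (2 * dp c.d q), h.et0 q hq, (h.dd q hq).1, abs_nonneg (c.et q)]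
  · simp only [Coef.next]
    rw [dy_add h4 (hdp.const_smul (2 : ℝ)), dy_smul]
    have := abs_mul (2 : ℝ) (dy (dp c.d) q)
    rw [abs_two] at this
    linarith [abs_add_le (dy c.et q) (2 * dy (dp c.d) q), h.ety q hq, (h.dd q hq).2.2,
      abs_nonneg (dy c.et q)]
  · simp only [Coef.next, Pi.add_apply]
    linarith [abs_add_le (c.ze q) (dp c.g q), h.ze0 q hq, h.gp q hq, abs_nonneg (c.ze q)]

/-- The energy. -/
noncomputable def energy (β : ℝ) (w : ℝ × ℝ → ℝ) : ℝ := ∫ q, (dy w q ^ 2 + β * dp w q ^ 2)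

variable {w f : ℝ × ℝ → ℝ}

theorem integrable_of_off (hf : Continuous f) (hs : HasCompactSupport w)
    (h : ∀ q, q ∉ tsupport w → f q = 0) : Integrable f :=
  hf.integrable_of_hasCompactSupport (HasCompactSupport.intro hs.isCompact h)

theorem hasCompactSupport_of_box (hs : tsupport w ⊆ Box) : HasCompactSupport w := by
  refine (isCompact_Icc (a := ((-3 / 2, -3 / 2) : ℝ × ℝ)) (b := (3 / 2, 3 / 2))).of_isClosed_subset
    (isClosed_tsupport w) fun q hq => ?_
  obtain ⟨h1, h2⟩ := box_bounds (hs hq)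
  rw [abs_le] at h1 h2
  exact ⟨⟨by linarith [h1.1], by linarith [h2.1]⟩, ⟨by linarith [h1.2], by linarith [h2.2]⟩⟩

theorem continuous_derivs (hw : ContDiff ℝ 1 w) :
    Continuous w ∧ Continuous (dp w) ∧ Continuous (dy w) :=
  ⟨hw.continuous, (contDiff_dp (m := 0) hw (by simp)).continuous,
    (contDiff_dy (m := 0) hw (by simp)).continuous⟩

/-- Poincaré in `y`. -/
theorem poincare (hw : ContDiff ℝ 1 w) (hs : tsupport w ⊆ Box) :
    ∫ q, w q ^ 2 ≤ 9 * ∫ q, dy w q ^ 2 := by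
  have hcs := hasCompactSupport_of_box hs
  obtain ⟨c0, c1, c2⟩ := continuous_derivs hw
  let Y : ℝ × ℝ → ℝ := fun q => q.2
  have hY : ContDiff ℝ 1 Y := contDiff_snd
  have hYd : ∀ q, dy Y q = 1 := fun q => by simp [Y, dy, fderiv_snd]
  have k : ∫ q, (-(2 : ℝ) * q.2 * w q * dy w q) = ∫ q, w q ^ 2 := by
    refine integral_div (A := fun _ => (0 : ℝ)) (B := (-1 : ℝ) • (Y * w * w)) contDiff_const
      (by simp only [Pi.mul_def, Pi.smul_def]; fun_prop) HasCompactSupport.zero ?_ ?_ fun q => ?_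
    · exact HasCompactSupport.intro hcs.isCompact fun q hq => by simp [eq_zero_off q hq]
    · exact integrable_of_off (by fun_prop) hcs fun q hq => by simp [eq_zero_off q hq]
    · have hd := hw.differentiable one_ne_zero
      have hYd' := hY.differentiable one_ne_zero
      simp (disch := fun_prop) only [dp_const, dy_smul, dy_mul, Pi.mul_apply, hYd]
      simp only [Y]
      ring
  have i1 : Integrable fun q => w q ^ 2 :=
    integrable_of_off (by fun_prop) hcs fun q hq => by simp [eq_zero_off q hq]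
  have i2 : Integrable fun q => dy w q ^ 2 :=
    integrable_of_off (by fun_prop) hcs fun q hq => by simp [eq_zero_off q hq]
  have i3 : Integrable fun q => -(2 : ℝ) * q.2 * w q * dy w q :=
    integrable_of_off (by fun_prop) hcs fun q hq => by simp [eq_zero_off q hq]
  have m : ∫ q, (-(2 : ℝ) * q.2 * w q * dy w q) ≤ ∫ q, (1 / 2 * w q ^ 2 + 9 / 2 * dy w q ^ 2) := by
    refine integral_mono i3 ((i1.const_mul _).add (i2.const_mul _)) fun q => ?_
    by_cases hq : q ∈ tsupport w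
    · have h2 := (box_bounds (hs hq)).2
      have h3 : q.2 ^ 2 ≤ 9 / 4 := by nlinarith [sq_abs q.2, abs_nonneg q.2]
      nlinarith [sq_nonneg (w q + 2 * q.2 * dy w q),
        mul_le_mul_of_nonneg_right h3 (sq_nonneg (dy w q))]
    · simp [eq_zero_off q hq]
  rw [k, integral_add (i1.const_mul _) (i2.const_mul _), integral_const_mul,
    integral_const_mul] at m
  linarith

end Vale.Agent.P229.Est
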