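import Vale.Agent.P229.Est.Trapezoid

/-!
# P229: the pointwise facts used by the band traces
-/

open MeasureTheory
open scoped ContDiff

namespace Vale.Agent.P229.Est

set_option linter.unnecessarySeqFocus false

/-- The hypotheses on one equation `op v = E` outside the slab `|p| < r`. -/
structure SideHyp (β d0 γ Kc ε r : ℝ) (c : Coef) (v E : ℝ × ℝ → ℝ) : Prop where
  hd : ContDiff ℝ 3 c.d
  ha : ContDiff ℝ 3 c.a
  hg : ContDiff ℝ 3 c.g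
  het : ContDiff ℝ 3 c.et
  hze : c.ze = fun _ => 0
  hv : ContDiff ℝ 4 v
  hvs : ∀ q ∈ tsupport v, q.1 ^ 2 + q.2 ^ 2 < (3 / 2) ^ 2
  hE : ContDiff ℝ 2 E
  bounds : ∀ q : ℝ × ℝ, q.1 ^ 2 + q.2 ^ 2 < (3 / 2) ^ 2 →
    (|c.a q - β * (q.1 ^ 2 + q.2 ^ 2 - 1)| ≤ d0 * β ∧
      |dp c.a q - 2 * β * q.1| ≤ d0 * β * (|q.1| + Real.sqrt β) ∧
      |c.g q - dp c.a q| ≤ d0 * β * (|q.1| + Real.sqrt β) ∧ |c.et q| ≤ d0 * β) ∧
    (|c.d q| ≤ γ ∧ |dp c.d q| ≤ γ ∧ |dy c.d q| ≤ γ) ∧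
    (|dp (dp c.d) q| ≤ Kc ∧ |dy (dp c.d) q| ≤ Kc ∧ |dp (dp c.a) q| ≤ Kc ∧ |dp c.g q| ≤ Kc ∧
      |dp (dp c.g) q| ≤ Kc ∧ |dp c.et q| ≤ Kc ∧ |dy c.et q| ≤ Kc ∧ |dp (dp c.et) q| ≤ Kc) ∧
    (r < |q.1| → |E q| ≤ ε ∧ |dp E q| ≤ ε ∧ |dp (dp E) q| ≤ ε)
  eqn : ∀ q : ℝ × ℝ, q.1 ^ 2 + q.2 ^ 2 < (3 / 2) ^ 2 → r < |q.1| → c.op v q = E q

/-- The indicator of a box containing the disc. -/
noncomputable def boxInd : ℝ × ℝ → ℝ :=
  (Set.Icc (-2 : ℝ) 2 ×ˢ Set.Icc (-2 : ℝ) 2).indicator fun _ => 1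

theorem boxInd_integrable : Integrable boxInd :=
  (integrable_indicator_iff (measurableSet_Icc.prod measurableSet_Icc)).2
    (integrableOn_const (by
      rw [Measure.volume_eq_prod, Measure.prod_prod]
      exact (ENNReal.mul_lt_top (by simp) (by simp)).ne))

theorem boxInd_nonneg (q : ℝ × ℝ) : 0 ≤ boxInd q :=
  Set.indicator_nonneg (fun _ _ => zero_le_one) q

theorem boxInd_eq_one {q : ℝ × ℝ} (h : q.1 ^ 2 + q.2 ^ 2 < (3 / 2) ^ 2) : boxInd q = 1 :=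
  Set.indicator_of_mem (Set.mk_mem_prod
    (Set.mem_Icc.2 ⟨by nlinarith [sq_nonneg q.2, sq_nonneg (q.1 + 2)],
      by nlinarith [sq_nonneg q.2, sq_nonneg (q.1 - 2)]⟩)
    (Set.mem_Icc.2 ⟨by nlinarith [sq_nonneg q.1, sq_nonneg (q.2 + 2)],
      by nlinarith [sq_nonneg q.1, sq_nonneg (q.2 - 2)]⟩)) _

theorem sq_add_le4 (a b c d : ℝ) :
    (a + b + c + d) ^ 2 ≤ 4 * (a ^ 2 + b ^ 2 + c ^ 2 + d ^ 2) := by
  nlinarith [sq_nonneg (a - b), sq_nonneg (a - c), sq_nonneg (a - d), sq_nonneg (b - c),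
    sq_nonneg (b - d), sq_nonneg (c - d)]

theorem sq_mul_le {x y X : ℝ} (h : |x| ≤ X) : (x * y) ^ 2 ≤ X ^ 2 * y ^ 2 := by
  rw [mul_pow, ← sq_abs x]
  exact mul_le_mul_of_nonneg_right (pow_le_pow_left₀ (abs_nonneg x) h 2) (sq_nonneg y)

theorem en_parts {β : ℝ} (hβ : 0 < β) (w : ℝ × ℝ → ℝ) (q : ℝ × ℝ) :
    dy w q ^ 2 ≤ en β w q ∧ dp w q ^ 2 ≤ 1 / β * en β w q := by
  refine ⟨le_add_of_nonneg_right (by positivity), ?_⟩
  rw [div_mul_eq_mul_div, one_mul, le_div_iff₀ hβ, en]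
  linarith [sq_nonneg (dy w q)]

variable {β d0 γ Kc ε r : ℝ} {c : Coef} {v E : ℝ × ℝ → ℝ}

theorem SideHyp.smooth (H : SideHyp β d0 γ Kc ε r c v E) :
    c.Smooth ∧ c.next.Smooth ∧ c.next.next.Smooth := by
  have hz : ContDiff ℝ 2 c.ze := by rw [H.hze]; exact contDiff_const
  have pd : ContDiff ℝ 2 (dp c.d) := contDiff_dp H.hd (by norm_num)
  have pa : ContDiff ℝ 2 (dp c.a) := contDiff_dp H.ha (by norm_num)
  have pg : ContDiff ℝ 2 (dp c.g) := contDiff_dp H.hg (by norm_num)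
  have g1 : ContDiff ℝ 2 (c.g + dp c.a) := (H.hg.of_le (by norm_num)).add pa
  have pg1 : ContDiff ℝ 1 (dp (c.g + dp c.a)) := contDiff_dp g1 (by norm_num)
  have e1 : ContDiff ℝ 1 (c.et + (2 : ℝ) • dp c.d) :=
    (H.het.of_le (by norm_num)).add ((pd.of_le one_le_two).const_smul (2 : ℝ))
  exact ⟨⟨H.hd.of_le (by norm_num), H.ha.of_le (by norm_num), H.hg.of_le (by norm_num),
      H.het.of_le (by norm_num), hz.of_le one_le_two⟩,
    ⟨H.hd.of_le (by norm_num), H.ha.of_le (by norm_num), g1.of_le one_le_two, e1,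
      (hz.add pg).of_le one_le_two⟩,
    ⟨H.hd.of_le (by norm_num), H.ha.of_le (by norm_num), (g1.add pa).of_le one_le_two,
      e1.add ((pd.of_le one_le_two).const_smul (2 : ℝ)),
      ((hz.add pg).of_le one_le_two).add pg1⟩⟩

/-- The coefficients of the three levels. -/
theorem SideHyp.coefs (H : SideHyp β d0 γ Kc ε r c v E) (q : ℝ × ℝ) :
    (c.next.g q = c.g q + dp c.a q ∧ c.next.next.g q = c.g q + 2 * dp c.a q) ∧
    (c.next.et q = c.et q + 2 * dp c.d q ∧ c.next.next.et q = c.et q + 4 * dp c.d q) ∧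
    (c.ze q = 0 ∧ c.next.ze q = dp c.g q ∧
      c.next.next.ze q = 2 * dp c.g q + dp (dp c.a) q) ∧
    (dp c.next.g q = dp c.g q + dp (dp c.a) q ∧
      dp c.next.next.g q = dp c.g q + 2 * dp (dp c.a) q) ∧
    (dy c.next.et q = dy c.et q + 2 * dy (dp c.d) q ∧
      dy c.next.next.et q = dy c.et q + 4 * dy (dp c.d) q) := by
  have k1 : Differentiable ℝ c.g := H.hg.differentiable (by norm_num)
  have k2 : Differentiable ℝ (dp c.a) :=
    (contDiff_dp (m := 2) H.ha (by norm_num)).differentiable two_ne_zero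
  have k3 : Differentiable ℝ c.et := H.het.differentiable (by norm_num)
  have k4 : Differentiable ℝ (dp c.d) :=
    (contDiff_dp (m := 2) H.hd (by norm_num)).differentiable two_ne_zero
  refine ⟨⟨rfl, by simp [Coef.next]; ring⟩, ⟨by simp [Coef.next], by simp [Coef.next]; ring⟩,
    ⟨by simp [H.hze], by simp [Coef.next, H.hze], ?_⟩, ⟨?_, ?_⟩, ⟨?_, ?_⟩⟩
  · simp only [Coef.next, Pi.add_apply]; simp (disch := fun_prop) only [dp_add]; simp [H.hze]; ring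
  · simp only [Coef.next]; rw [dp_add k1 k2]
  · simp only [Coef.next]; simp (disch := fun_prop) only [dp_add]; ring
  · simp only [Coef.next]; rw [dy_add k3 (k4.const_smul (2 : ℝ)), dy_smul]
  · simp only [Coef.next]; simp (disch := fun_prop) only [dy_add, dy_smul]; ring

/-- The right sides of the three levels off the slab. -/
theorem SideHyp.rhs (H : SideHyp β d0 γ Kc ε r c v E) {q : ℝ × ℝ} (hq : q ∈ tsupport v)
    (hr : q.1 < -r) :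
    boxInd q = 1 ∧ c.op v q ^ 2 ≤ ε ^ 2 ∧
    (c.next.ze q * dp v q) ^ 2 ≤ Kc ^ 2 * dp v q ^ 2 ∧
    c.next.op (dp v) q ^ 2 ≤ 4 * ε ^ 2 + 4 * Kc ^ 2 * dy v q ^ 2 ∧
    (c.next.next.ze q * dp (dp v) q) ^ 2 ≤ 9 * Kc ^ 2 * dp (dp v) q ^ 2 ∧
    c.next.next.op (dp (dp v)) q ^ 2 ≤ 4 * ε ^ 2 + 4 * Kc ^ 2 * dy v q ^ 2
      + 64 * Kc ^ 2 * dy (dp v) q ^ 2 + 4 * Kc ^ 2 * dp v q ^ 2 := by
  have hqd : q.1 ^ 2 + q.2 ^ 2 < (3 / 2) ^ 2 := H.hvs q hq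
  obtain ⟨hs0, hs1, -⟩ := H.smooth
  have k5 : Differentiable ℝ (dp c.g) :=
    (contDiff_dp (m := 2) H.hg (by norm_num)).differentiable two_ne_zero
  have k4 : Differentiable ℝ (dp c.d) :=
    (contDiff_dp (m := 2) H.hd (by norm_num)).differentiable two_ne_zero
  have k3 : Differentiable ℝ c.et := H.het.differentiable (by norm_num)
  have k6 : Differentiable ℝ (dp c.et) :=
    (contDiff_dp (m := 2) H.het (by norm_num)).differentiable two_ne_zero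
  have k7 : Differentiable ℝ (dy v) :=
    (contDiff_dy (m := 3) H.hv (by norm_num)).differentiable (by norm_num)
  have k8 : Differentiable ℝ (dp E) :=
    (contDiff_dp (m := 1) H.hE (by norm_num)).differentiable one_ne_zero
  have hU : ∀ᶠ p in nhds q, p.1 ^ 2 + p.2 ^ 2 < (3 / 2) ^ 2 ∧ p.1 < -r := by
    have o1 : IsOpen {p : ℝ × ℝ | p.1 ^ 2 + p.2 ^ 2 < (3 / 2) ^ 2} :=
      isOpen_lt (by fun_prop) continuous_const
    have o2 : IsOpen {p : ℝ × ℝ | p.1 < -r} := isOpen_lt continuous_fst continuous_const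
    exact (o1.inter o2).mem_nhds ⟨hqd, hr⟩
  have hop : c.op v =ᶠ[nhds q] E := hU.mono fun p hp =>
    H.eqn p hp.1 (by linarith [hp.2, neg_le_abs p.1])
  have he1 : c.next.op (dp v) =ᶠ[nhds q] dp E - dp c.et * dy v := by
    filter_upwards [hop.eventuallyEq_nhds] with p hp
    have h := op_dp hs0 (H.hv.of_le (by norm_num)) p
    have hd : dp (c.op v) p = dp E p := by simp only [dp, hp.fderiv_eq]
    rw [hd] at h
    simp [h, H.hze]
  have h2 := op_dp hs1 (contDiff_dp (m := 3) H.hv (by norm_num)) q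
  have hd2 : dp (c.next.op (dp v)) q = dp (dp E - dp c.et * dy v) q := by
    simp only [dp, he1.fderiv_eq]
  have zz : c.ze + dp c.g = dp c.g := by rw [H.hze]; funext p; simp
  rw [hd2, show c.next.et = c.et + (2 : ℝ) • dp c.d from rfl,
    show c.next.ze = c.ze + dp c.g from rfl, zz] at h2
  simp (disch := fun_prop) only [dp_sub, dp_mul, dp_add, dp_smul] at h2
  rw [dp_dy (H.hv.of_le (by norm_num))] at h2
  have f2 : c.next.next.op (dp (dp v)) q = dp (dp E) q + -(dp (dp c.et) q * dy v q)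
      + -((2 * dp c.et q + 2 * dp (dp c.d) q) * dy (dp v) q) + -(dp (dp c.g) q * dp v q) := by
    linear_combination -h2
  obtain ⟨-, -, ⟨k1, k2, k3', k4', k5', k6', k7', k8'⟩, hE'⟩ := H.bounds q hqd
  obtain ⟨b0, b1, b2⟩ := hE' (by linarith [neg_le_abs q.1])
  obtain ⟨-, -, ⟨-, z1, z2⟩, -⟩ := H.coefs q
  rw [hop.eq_of_nhds, he1.eq_of_nhds, f2, z1, z2, Pi.sub_apply, Pi.mul_apply, sub_eq_add_neg]
  have sε : ∀ x : ℝ, |x| ≤ ε → x ^ 2 ≤ ε ^ 2 := fun x hx => by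
    rw [← sq_abs x]; exact pow_le_pow_left₀ (abs_nonneg x) hx 2
  refine ⟨boxInd_eq_one hqd, sε _ b0, sq_mul_le k4', ?_, ?_, ?_⟩
  · linarith [sq_add_le4 (dp E q) (-(dp c.et q * dy v q)) 0 0, sε _ b1,
      sq_mul_le (y := dy v q) k6']
  · have k : |2 * dp c.g q + dp (dp c.a) q| ≤ 3 * Kc := by
      rw [abs_le]; constructor <;> linarith [abs_le.1 k4', abs_le.1 k3']
    linarith [sq_mul_le (y := dp (dp v) q) k]
  · have k : |2 * dp c.et q + 2 * dp (dp c.d) q| ≤ 4 * Kc := by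
      rw [abs_le]; constructor <;> linarith [abs_le.1 k6', abs_le.1 k1]
    linarith [sq_add_le4 (dp (dp E) q) (-(dp (dp c.et) q * dy v q))
      (-((2 * dp c.et q + 2 * dp (dp c.d) q) * dy (dp v) q)) (-(dp (dp c.g) q * dp v q)),
      sε _ b2, sq_mul_le (y := dy v q) k8', sq_mul_le (y := dy (dp v) q) k,
      sq_mul_le (y := dp v q) k5']

/-- What LEFT needs at a point left of the first step. -/
theorem SideHyp.farFacts (H : SideHyp β d0 γ Kc ε r c v E) (hβ : 0 < β) (hβ1 : β ≤ 1 / 10000)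
    (hKc : 0 ≤ Kc) (hd0 : d0 ≤ 1 / 20000) (hγ : γ ≤ lam * β * Real.sqrt β / 100)
    {q : ℝ × ℝ} (hq : q ∈ tsupport v) (hp : q.1 ≤ -(lam * Real.sqrt β)) :
    c.next.Bd (5 * Kc + 4) q ∧ c.next.next.Bd (5 * Kc + 4) q ∧ |c.a q| ≤ 2 * β ∧
    |c.next.et q| ≤ lam * β / 40 ∧ |c.next.next.et q| ≤ lam * β / 40 ∧ |c.d q| ≤ γ ∧
    c.next.g q - dp c.a q / 2 - dy c.d q ≤ -(lam * β * Real.sqrt β) ∧
    c.next.next.g q - dp c.a q / 2 - dy c.d q ≤ -(lam * β * Real.sqrt β) := by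
  have hqd : q.1 ^ 2 + q.2 ^ 2 < (3 / 2) ^ 2 := H.hvs q hq
  obtain ⟨⟨g1, g2⟩, ⟨e1, e2⟩, ⟨-, z1, z2⟩, ⟨pg1, pg2⟩, ⟨ye1, ye2⟩⟩ := H.coefs q
  obtain ⟨⟨ba, bap, bg, be⟩, ⟨bd, bpd, byd⟩, ⟨-, k2, k3, k4, -, -, k7, -⟩, -⟩ := H.bounds q hqd
  set s := Real.sqrt β
  have hs0 : 0 < s := Real.sqrt_pos.2 hβ
  have hs1 : s ≤ 1 / 100 := by
    rw [Real.sqrt_le_iff]; exact ⟨by norm_num, by linarith⟩
  have hl : lam = 1 / 200 := rfl
  rw [hl] at hp hγ ⊢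
  have hp32 : |q.1| ≤ 3 / 2 := abs_le_of_sq_le_sq (by linarith [sq_nonneg q.2]) (by norm_num)
  have hn : q.1 ^ 2 + q.2 ^ 2 - 1 ≤ 5 / 4 := by linarith
  have a1 := mul_le_mul_of_nonneg_left hn hβ.le
  have a2 : -β ≤ β * (q.1 ^ 2 + q.2 ^ 2 - 1) := by
    linarith [mul_nonneg hβ.le (add_nonneg (sq_nonneg q.1) (sq_nonneg q.2))]
  have hd0β : d0 * β ≤ β / 20000 := by linarith [mul_le_mul_of_nonneg_right hd0 hβ.le]
  have hneg : |q.1| = -q.1 := abs_of_nonpos (by linarith)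
  have hd0n : 0 ≤ d0 * β := (abs_nonneg _).trans be
  have herr : d0 * β * (|q.1| + s) ≤ β / 20000 * (201 * -q.1) :=
    mul_le_mul hd0β (by linarith) (by positivity) (by positivity)
  have hbs : 0 < β * s := mul_pos hβ hs0
  have hbs1 : β * s ≤ β * (1 / 100) := mul_le_mul_of_nonneg_left hs1 hβ.le
  have hp0 : 0 ≤ β * -q.1 := mul_nonneg hβ.le (by linarith)
  have hpl := mul_le_mul_of_nonneg_left (by linarith : 1 / 200 * s ≤ -q.1) hβ.le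
  have hp15 := mul_le_mul_of_nonneg_left (by linarith : -q.1 ≤ 3 / 2) hβ.le
  have h1 := abs_le.1 ba
  have h2 := abs_le.1 bap
  have h3 := abs_le.1 bg
  have h5 := abs_le.1 be
  have h6 := abs_le.1 bpd
  have h7 := abs_le.1 byd
  have h8 := abs_le.1 k2
  have h9 := abs_le.1 k3
  have h10 := abs_le.1 k4
  have h11 := abs_le.1 k7
  have hbd : ∀ c' : Coef, c'.d = c.d → c'.a = c.a → |c'.g q| ≤ 5 * Kc + 4 →
      |dp c'.g q| ≤ 5 * Kc + 4 → |dy c'.et q| ≤ 5 * Kc + 4 → |c'.ze q| ≤ 5 * Kc + 4 →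
      c'.Bd (5 * Kc + 4) q := by
    intro c' e e' h3' h4' h5' h6'
    refine ⟨?_, ?_, ?_, ?_, ?_, h3', h4', h5', h6'⟩ <;> (try rw [e]) <;> (try rw [e']) <;>
      rw [abs_le] <;> constructor <;> linarith
  refine ⟨hbd _ rfl rfl ?_ ?_ ?_ ?_, hbd _ rfl rfl ?_ ?_ ?_ ?_, ?_, ?_, ?_, bd, ?_, ?_⟩
  all_goals
    (try rw [g1]) <;> (try rw [g2]) <;> (try rw [e1]) <;> (try rw [e2]) <;> (try rw [z1]) <;>
    (try rw [z2]) <;> (try rw [pg1]) <;> (try rw [pg2]) <;> (try rw [ye1]) <;> (try rw [ye2]) <;>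
    first
      | linarith
      | (rw [abs_le]; constructor <;> linarith)

/-- What TRAPEZOID needs at a point of its region. -/
theorem SideHyp.trapFacts (H : SideHyp β d0 γ Kc ε r c v E) (hβ : 0 < β) (hβ1 : β ≤ 1 / 10000)
    (hd0 : d0 ≤ 1 / 20000) (hγ : γ ≤ lam * β * Real.sqrt β / 100) (hr : 0 < r)
    {q : ℝ × ℝ} (hq : q ∈ tsupport v) (hT : InTrap (Real.sqrt β) r q) :
    (c.a q ≤ -(7 / 10 * β) ∧ |c.a q| ≤ 2 * β ∧ |dp c.a q| ≤ 8 * β ∧ |dy c.d q| ≤ β ∧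
      |c.d q| ≤ Real.sqrt β / 5) ∧
    (|c.g q| ≤ 8 * β ∧ |c.next.g q| ≤ 8 * β ∧ |c.next.next.g q| ≤ 8 * β) ∧
    (|c.et q| ≤ β ∧ |c.next.et q| ≤ β ∧ |c.next.next.et q| ≤ β) := by
  have hqd : q.1 ^ 2 + q.2 ^ 2 < (3 / 2) ^ 2 := H.hvs q hq
  obtain ⟨⟨g1, g2⟩, ⟨e1, e2⟩, -⟩ := H.coefs q
  obtain ⟨⟨ba, bap, bg, be⟩, ⟨bd, bpd, byd⟩, -⟩ := H.bounds q hqd
  set s := Real.sqrt β
  have hs0 : 0 < s := Real.sqrt_pos.2 hβ
  have hs1 : s ≤ 1 / 100 := by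
    rw [Real.sqrt_le_iff]; exact ⟨by norm_num, by linarith⟩
  have hl : lam = 1 / 200 := rfl
  have hy := hT.sq_le hs0
  obtain ⟨hp1, hp2, -⟩ := hT
  rw [hl] at hp1 hγ
  have hp : |q.1| ≤ s / 50 := by rw [abs_le]; constructor <;> linarith
  have hp' := abs_le.1 hp
  have hsq : q.1 ^ 2 ≤ 1 / 1000000 := by
    have := pow_le_pow_left₀ (abs_nonneg _) (hp.trans (by linarith : s / 50 ≤ 1 / 1000)) 2
    rw [sq_abs] at this; linarith
  have a1 := mul_le_mul_of_nonneg_left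
    (by linarith : q.1 ^ 2 + q.2 ^ 2 - 1 ≤ -(75 / 100)) hβ.le
  have a2 : -β ≤ β * (q.1 ^ 2 + q.2 ^ 2 - 1) := by
    linarith [mul_nonneg hβ.le (add_nonneg (sq_nonneg q.1) (sq_nonneg q.2))]
  have hd0β : d0 * β ≤ β / 20000 := by linarith [mul_le_mul_of_nonneg_right hd0 hβ.le]
  have herr : d0 * β * (|q.1| + s) ≤ β / 20000 * 1 :=
    mul_le_mul hd0β (by linarith) (by positivity) (by positivity)
  have hb1 := mul_le_mul_of_nonneg_left (by linarith : q.1 ≤ 1 / 1000) hβ.le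
  have hb2 := mul_le_mul_of_nonneg_left (by linarith : -(1 / 1000) ≤ q.1) hβ.le
  have hbs : 0 < β * s := mul_pos hβ hs0
  have hbs1 : β * s ≤ β * (1 / 100) := mul_le_mul_of_nonneg_left hs1 hβ.le
  have hbs2 : β * s ≤ 1 * s := mul_le_mul_of_nonneg_right (by linarith) hs0.le
  have h1 := abs_le.1 ba
  have h2 := abs_le.1 bap
  have h3 := abs_le.1 bg
  have h5 := abs_le.1 be
  have h6 := abs_le.1 bpd
  refine ⟨⟨by linarith, ?_, ?_, byd.trans (by linarith), bd.trans (by linarith)⟩,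
    ⟨?_, ?_, ?_⟩, ?_, ?_, ?_⟩ <;>
    (try rw [g1]) <;> (try rw [g2]) <;> (try rw [e1]) <;> (try rw [e2]) <;>
    rw [abs_le] <;> constructor <;> linarith

end Vale.Agent.P229.Est
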