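import Vale.Agent.P229.Est.Basic

/-!
# P229: one smooth falling step and its rescalings

`step` is `1` left of `-1`, `0` right of `1`, with derivative `-slope`; `slope ≥ 1 / 2` on
`[-1 / 2, 1 / 2]`.  `fallP h x₀` is the rescaled step as a function of the first coordinate.
-/

open MeasureTheory
open scoped ContDiff

namespace Vale.Agent.P229.Est

/-- The profile of the slope. -/
noncomputable def bmp : ℝ → ℝ :=
  fun x => (⟨1 / 2, 1, by norm_num, by norm_num⟩ : ContDiffBump (0 : ℝ)) x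

theorem bmp_contDiff {n : ℕ∞} : ContDiff ℝ n bmp := ContDiffBump.contDiff _

theorem bmp_continuous : Continuous bmp := (bmp_contDiff (n := 0)).continuous

theorem bmp_nonneg (x : ℝ) : 0 ≤ bmp x := ContDiffBump.nonneg _

theorem bmp_le_one (x : ℝ) : bmp x ≤ 1 := ContDiffBump.le_one _

theorem bmp_eq_one {x : ℝ} (hx : |x| ≤ 1 / 2) : bmp x = 1 :=
  ContDiffBump.one_of_mem_closedBall _ (by simpa [Real.dist_eq] using hx)

theorem bmp_eq_zero {x : ℝ} (hx : 1 ≤ |x|) : bmp x = 0 :=
  ContDiffBump.zero_of_le_dist _ (by simpa [Real.dist_eq] using hx)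

/-- The mass of the profile. -/
noncomputable def bmpMass : ℝ := ∫ t in (-1 : ℝ)..1, bmp t

theorem bmpMass_mem : 1 ≤ bmpMass ∧ bmpMass ≤ 2 := by
  refine ⟨?_, ?_⟩
  · have h := intervalIntegral.integral_mono_interval (c := (-1 : ℝ)) (d := 1) (a := -(1 / 2))
      (b := 1 / 2) (f := bmp) (μ := volume) (by norm_num) (by norm_num) (by norm_num)
      (Filter.Eventually.of_forall bmp_nonneg) (bmp_continuous.intervalIntegrable _ _)
    have e : ∫ t in (-(1 / 2) : ℝ)..1 / 2, bmp t = 1 := by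
      rw [intervalIntegral.integral_congr (g := fun _ => (1 : ℝ)) ?_]
      · norm_num
      · intro x hx
        rw [Set.uIcc_of_le (by norm_num : (-(1 / 2) : ℝ) ≤ 1 / 2)] at hx
        exact bmp_eq_one (abs_le.2 ⟨hx.1, hx.2⟩)
    rw [e] at h; exact h
  · have h := intervalIntegral.integral_mono_on (f := bmp) (g := fun _ => (1 : ℝ))
      (by norm_num : (-1 : ℝ) ≤ 1) (bmp_continuous.intervalIntegrable (μ := volume) _ _)
      intervalIntegrable_const (fun x _ => bmp_le_one x)
    norm_num at h; exact h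

theorem bmpMass_pos : 0 < bmpMass := lt_of_lt_of_le one_pos bmpMass_mem.1

/-- The falling step. -/
noncomputable def step (x : ℝ) : ℝ := (∫ t in x..1, bmp t) / bmpMass

/-- Minus the derivative of the step. -/
noncomputable def slope (x : ℝ) : ℝ := bmp x / bmpMass

theorem slope_nonneg (x : ℝ) : 0 ≤ slope x := div_nonneg (bmp_nonneg x) bmpMass_pos.le

theorem slope_le_one (x : ℝ) : slope x ≤ 1 :=
  (div_le_one bmpMass_pos).2 ((bmp_le_one x).trans bmpMass_mem.1)

theorem half_le_slope {x : ℝ} (hx : |x| ≤ 1 / 2) : 1 / 2 ≤ slope x := by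
  rw [slope, bmp_eq_one hx, le_div_iff₀ bmpMass_pos]; linarith [bmpMass_mem.2]

theorem slope_eq_zero {x : ℝ} (hx : 1 ≤ |x|) : slope x = 0 := by
  rw [slope, bmp_eq_zero hx, zero_div]

theorem slope_contDiff {n : ℕ∞} : ContDiff ℝ n slope := bmp_contDiff.div_const _

theorem step_hasDerivAt (x : ℝ) : HasDerivAt step (-slope x) x := by
  have h := intervalIntegral.integral_hasDerivAt_left (f := bmp)
    (bmp_continuous.intervalIntegrable x (1 : ℝ)) bmp_continuous.stronglyMeasurable.stronglyMeasurableAtFilter bmp_continuous.continuousAt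
  unfold step slope; rw [← neg_div]; exact h.div_const bmpMass

theorem step_antitone : Antitone step :=
  antitone_of_hasDerivAt_nonpos step_hasDerivAt fun x => neg_nonpos.2 (slope_nonneg x)

theorem step_eq_zero {x : ℝ} (hx : 1 ≤ x) : step x = 0 := by
  rw [step, intervalIntegral.integral_congr (g := fun _ => (0 : ℝ)) ?_]
  · simp
  · intro t ht
    rw [Set.uIcc_of_ge hx] at ht
    exact bmp_eq_zero (ht.1.trans (le_abs_self t))

theorem step_eq_one {x : ℝ} (hx : x ≤ -1) : step x = 1 := by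
  have e : ∫ t in x..(-1 : ℝ), bmp t = 0 := by
    rw [intervalIntegral.integral_congr (g := fun _ => (0 : ℝ)) ?_]
    · simp
    · intro t ht
      rw [Set.uIcc_of_le hx] at ht
      exact bmp_eq_zero (le_abs.2 (Or.inr (by linarith [ht.2])))
  rw [step, ← intervalIntegral.integral_add_adjacent_intervals
    (bmp_continuous.intervalIntegrable x (-1 : ℝ)) (bmp_continuous.intervalIntegrable _ _), e,
    zero_add]
  exact div_self bmpMass_pos.ne'

theorem step_mem (x : ℝ) : 0 ≤ step x ∧ step x ≤ 1 := by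
  refine ⟨?_, ?_⟩
  · rw [← step_eq_zero (le_max_right x 1)]; exact step_antitone (le_max_left _ _)
  · rw [← step_eq_one (min_le_right x (-1))]; exact step_antitone (min_le_left _ _)

theorem step_contDiff : ∀ {n : ℕ}, ContDiff ℝ n step := by
  intro n
  have hd : deriv step = fun x => -slope x := funext fun x => (step_hasDerivAt x).deriv
  have hdiff : Differentiable ℝ step := fun x => (step_hasDerivAt x).differentiableAt
  cases n with
  | zero => exact_mod_cast contDiff_zero.2 hdiff.continuous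
  | succ n =>
    rw [Nat.cast_succ, contDiff_succ_iff_deriv]
    exact ⟨hdiff, fun h => by simp at h, by rw [hd]; exact slope_contDiff.neg⟩

/-- The step between `x₀ - h` and `x₀ + h`, as a function of the first coordinate. -/
noncomputable def fallP (h x₀ : ℝ) (q : ℝ × ℝ) : ℝ := step ((q.1 - x₀) / h)

/-- Minus its `p`-derivative. -/
noncomputable def slopeP (h x₀ : ℝ) (q : ℝ × ℝ) : ℝ := slope ((q.1 - x₀) / h) / h

variable {h x₀ : ℝ} {q : ℝ × ℝ}

theorem fallP_contDiff {n : ℕ} : ContDiff ℝ n (fallP h x₀) :=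
  step_contDiff.comp ((contDiff_fst.sub contDiff_const).div_const _)

theorem slopeP_contDiff {n : ℕ} : ContDiff ℝ n (slopeP h x₀) := by
  have h1 : ContDiff ℝ n slope := by exact_mod_cast slope_contDiff (n := (n : ℕ∞))
  exact (h1.comp ((contDiff_fst.sub contDiff_const).div_const _)).div_const _

theorem hasFDerivAt_comp_fst {f : ℝ → ℝ} {f' : ℝ} (hf : HasDerivAt f f' ((q.1 - x₀) / h)) :
    HasFDerivAt (fun q : ℝ × ℝ => f ((q.1 - x₀) / h))
      ((f' / h) • ContinuousLinearMap.fst ℝ ℝ ℝ) q := by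
  have h1 : HasFDerivAt (fun q : ℝ × ℝ => (q.1 - x₀) / h)
      (h⁻¹ • ContinuousLinearMap.fst ℝ ℝ ℝ) q := by
    simpa [div_eq_mul_inv] using ((hasFDerivAt_fst (𝕜 := ℝ) (E := ℝ) (F := ℝ) (p := q)).sub_const
      x₀).mul_const h⁻¹
  have h2 := hf.comp_hasFDerivAt q h1
  rw [smul_smul, ← div_eq_mul_inv] at h2
  exact h2

theorem dp_fallP : dp (fallP h x₀) q = -slopeP h x₀ q := by
  show fderiv ℝ (fun q : ℝ × ℝ => step ((q.1 - x₀) / h)) q (1, 0) = _
  rw [(hasFDerivAt_comp_fst (step_hasDerivAt _)).fderiv]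
  simp [slopeP, neg_div]

theorem dy_fallP : dy (fallP h x₀) q = 0 := by
  show fderiv ℝ (fun q : ℝ × ℝ => step ((q.1 - x₀) / h)) q (0, 1) = _
  rw [(hasFDerivAt_comp_fst (step_hasDerivAt _)).fderiv]
  simp

theorem dy_slopeP : dy (slopeP h x₀) q = 0 := by
  have hs : DifferentiableAt ℝ slope ((q.1 - x₀) / h) :=
    (slope_contDiff (n := 1)).differentiable one_ne_zero _
  have e : slopeP h x₀ = fun q : ℝ × ℝ => slope ((q.1 - x₀) / h) * h⁻¹ :=
    funext fun q => div_eq_mul_inv _ _
  rw [dy, e]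
  rw [((hasFDerivAt_comp_fst hs.hasDerivAt).mul_const h⁻¹).fderiv]
  simp

theorem fallP_mem : 0 ≤ fallP h x₀ q ∧ fallP h x₀ q ≤ 1 := step_mem _

theorem slopeP_nonneg (hh : 0 < h) : 0 ≤ slopeP h x₀ q := div_nonneg (slope_nonneg _) hh.le

theorem slopeP_le (hh : 0 < h) : slopeP h x₀ q ≤ 1 / h :=
  div_le_div_of_nonneg_right (slope_le_one _) hh.le

theorem fallP_eq_zero (hh : 0 < h) (hq : x₀ + h ≤ q.1) : fallP h x₀ q = 0 :=
  step_eq_zero ((le_div_iff₀ hh).2 (by linarith))

theorem fallP_eq_one (hh : 0 < h) (hq : q.1 ≤ x₀ - h) : fallP h x₀ q = 1 :=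
  step_eq_one ((div_le_iff₀ hh).2 (by linarith))

theorem slopeP_eq_zero (hh : 0 < h) (hq : q.1 ≤ x₀ - h ∨ x₀ + h ≤ q.1) : slopeP h x₀ q = 0 := by
  rw [slopeP, slope_eq_zero, zero_div]
  rcases hq with hq | hq
  · exact le_abs.2 (Or.inr (by rw [← neg_div, le_div_iff₀ hh]; linarith))
  · exact le_abs.2 (Or.inl ((le_div_iff₀ hh).2 (by linarith)))

theorem half_le_slopeP (hh : 0 < h) (hq : |q.1 - x₀| ≤ h / 2) : 1 / (2 * h) ≤ slopeP h x₀ q := by
  have : 1 / 2 ≤ slope ((q.1 - x₀) / h) :=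
    half_le_slope (by rw [abs_div, abs_of_pos hh, div_le_iff₀ hh]; linarith)
  rw [slopeP, ← div_div]
  exact div_le_div_of_nonneg_right this hh.le

end Vale.Agent.P229.Est
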