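import Vale.Agent.P229.Est.TestLeft

/-!
# P229: pointwise facts for the test pairing

Off the source the equation gives the second `y`-derivative of `v_p`; the cut-off has its slope in
the band.
-/

open MeasureTheory
open scoped ContDiff

namespace Vale.Agent.P229.Est

variable {c : Coef} {s : Src} {v : ℝ × ℝ → ℝ} {β δ γ C ε : ℝ} {N : ℕ}

theorem Hyp.R_ge (h : Hyp c s v β δ γ C ε N) : (80 : ℝ) ≤ (N : ℝ) ^ 4 := by
  have : (80 : ℝ) ≤ N := by exact_mod_cast h.hN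
  exact this.trans (le_self_pow₀ (by linarith) (by norm_num))

/-- The source vanishes off the tube. -/
theorem Src.S_zero {R : ℝ} {q : ℝ × ℝ} (hq : 1 < |R * q.1|) : s.S R q = 0 := by
  simp [Src.S, term, eta, eta1, eta0_zero hq.le, deriv_eta0_zero hq]

/-- Off the tube the equation is source free. -/
theorem dp_op_of_far {R : ℝ} {q : ℝ × ℝ} (hq : 1 < |R * q.1|) :
    dp (c.op v - s.S R) q = dp (c.op v) q := by
  have e : (c.op v - s.S R) =ᶠ[nhds q] c.op v := by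
    have ho : IsOpen {z : ℝ × ℝ | 1 < |R * z.1|} := isOpen_lt continuous_const (by fun_prop)
    filter_upwards [ho.mem_nhds hq] with z hz
    simp [Src.S_zero (s := s) hz]
  simp only [dp, e.fderiv_eq]

/-- Sup bounds on the coefficients at the levels zero and one. -/
theorem coef_sup (D : Data c β δ γ C) {q : ℝ × ℝ} (hq : q ∈ Box) :
    |c.g q| ≤ 1 ∧ |c.et q| ≤ 1 ∧ |dp c.a q| ≤ 1 ∧ |dy c.a q| ≤ 1 ∧ |c.d q| ≤ 1 ∧
      |c.next.g q| ≤ 1 ∧ |c.next.et q| ≤ 1 ∧ |c.next.ze q| ≤ C := by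
  obtain ⟨b1, b2⟩ := box_bounds hq
  have hβ := D.pos; have hβ1 := D.le; have hδ := D.dle; have h0 := D.delta_nonneg
  have hC := D.one_le
  have hsq : Real.sqrt β ≤ 1 := Real.sqrt_le_one.2 (by linarith)
  have hs0 := Real.sqrt_nonneg β
  have hδβ : δ * β ≤ 1 / 1000 * β := mul_le_mul_of_nonneg_right (by linarith) hβ.le
  have hlin : δ * β * (|q.1| + Real.sqrt β) ≤ 1 / 1000 * β * (5 / 2) :=
    mul_le_mul hδβ (by linarith) (by positivity) (by positivity)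
  have hlin1 : 3 * δ * β * (|q.1| + Real.sqrt β) ≤ 3 * (1 / 1000 * β * (5 / 2)) := by
    rw [mul_assoc 3 δ β, mul_assoc (3 : ℝ)]
    exact mul_le_mul_of_nonneg_left hlin (by norm_num)
  have hp : |2 * β * q.1| ≤ 3 * β := by
    rw [abs_mul, abs_of_pos (by positivity : (0:ℝ) < 2 * β)]
    calc 2 * β * |q.1| ≤ 2 * β * (3 / 2) := mul_le_mul_of_nonneg_left b1 (by positivity)
      _ = 3 * β := by ring
  have hy : |2 * β * q.2| ≤ 3 * β := by
    rw [abs_mul, abs_of_pos (by positivity : (0:ℝ) < 2 * β)]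
    calc 2 * β * |q.2| ≤ 2 * β * (3 / 2) := mul_le_mul_of_nonneg_left b2 (by positivity)
      _ = 3 * β := by ring
  have hμ : γ ≤ 1 / 1000 * β := D.gle.trans hδβ
  rw [abs_le] at hp hy
  obtain ⟨g1, g1'⟩ := abs_le.1 ((D.lvl.g0 q hq).trans hlin)
  obtain ⟨g2, g2'⟩ := abs_le.1 ((D.lvl1.g0 q hq).trans hlin1)
  obtain ⟨a1, a1'⟩ := abs_le.1 ((D.lvl.ap q hq).trans hlin)
  obtain ⟨y1, y1'⟩ := abs_le.1 ((D.lvl.ay q hq).trans hδβ)
  push_cast at g1 g1' g2 g2'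
  refine ⟨abs_le.2 ⟨by linarith, by linarith⟩, (D.lvl.et0 q hq).trans (by linarith),
    abs_le.2 ⟨by linarith, by linarith⟩, abs_le.2 ⟨by linarith, by linarith⟩,
    (D.lvl.d0 q hq).trans (by linarith), abs_le.2 ⟨by linarith, by linarith⟩,
    (D.lvl1.et0 q hq).trans (by linarith), (D.lvl1.ze0 q hq).trans ?_⟩
  calc 3 * C * β ≤ 3 * C * (1 / 3) := mul_le_mul_of_nonneg_left (by linarith) (by positivity)
    _ = C := by ring

/-- Solving the equation for `(v_p)_yy`. -/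
theorem yy_first {C ε d a g1 e1 z1 ep Y w1 w1y w1p w2y w2p vy : ℝ} (hC : 1 ≤ C) (hε : 0 ≤ ε)
    (bd : |d| ≤ 1) (ba : |a| ≤ C) (bg : |g1| ≤ 1) (be : |e1| ≤ 1) (bz : |z1| ≤ C) (bep : |ep| ≤ C)
    (hE : |Y + 2 * d * w2y + a * w2p + g1 * w1p + e1 * w1y + z1 * w1 + ep * vy| ≤ ε) :
    |Y| ≤ 2 * C * (ε + |vy| + |w1| + |w1y| + |w1p| + |w2y| + |w2p|) := by
  obtain ⟨m1, m1'⟩ := abs_le.1 (abs_mul_le bd (le_refl |w2y|))
  obtain ⟨m2, m2'⟩ := abs_le.1 (abs_mul_le ba (le_refl |w2p|))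
  obtain ⟨m3, m3'⟩ := abs_le.1 (abs_mul_le bg (le_refl |w1p|))
  obtain ⟨m4, m4'⟩ := abs_le.1 (abs_mul_le be (le_refl |w1y|))
  obtain ⟨m5, m5'⟩ := abs_le.1 (abs_mul_le bz (le_refl |w1|))
  obtain ⟨m6, m6'⟩ := abs_le.1 (abs_mul_le bep (le_refl |vy|))
  obtain ⟨t1, t1'⟩ := abs_le.1 hE
  have hY : |Y| ≤ ε + C * |vy| + C * |w1| + |w1y| + |w1p| + 2 * |w2y| + C * |w2p| :=
    abs_le.2 ⟨by linarith only [t1, m1', m2', m3', m4', m5', m6'],
      by linarith only [t1', m1, m2, m3, m4, m5, m6]⟩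
  have hC0 : 0 ≤ C := zero_le_one.trans hC
  have n1 := mul_le_mul_of_nonneg_right hC hε
  have n2 := mul_le_mul_of_nonneg_right hC (abs_nonneg w1y)
  have n3 := mul_le_mul_of_nonneg_right hC (abs_nonneg w1p)
  have n4 := mul_le_mul_of_nonneg_right hC (abs_nonneg w2y)
  have p1 := mul_nonneg hC0 (abs_nonneg vy)
  have p2 := mul_nonneg hC0 (abs_nonneg w1)
  have p3 := mul_nonneg hC0 (abs_nonneg w2p)
  linarith only [hY, n1, n2, n3, n4, p1, p2, p3, hε, abs_nonneg w1y, abs_nonneg w1p]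

/-- The scalar bound behind `yy_sq`. -/
theorem yy_alg {C ε d a g1 e1 z1 ep ay ayy Y w1 w1y w1p w2y w2p vy S : ℝ} (hC : 1 ≤ C) (hε : 0 ≤ ε)
    (bd : |d| ≤ 1) (ba : |a| ≤ C) (bg : |g1| ≤ 1) (be : |e1| ≤ 1) (bz : |z1| ≤ C) (bep : |ep| ≤ C)
    (bayy : |ayy| ≤ C) (bay : |ay| ≤ 1)
    (hE : |Y + 2 * d * w2y + a * w2p + g1 * w1p + e1 * w1y + z1 * w1 + ep * vy| ≤ ε)
    (hS : |vy| ^ 2 + |w1| ^ 2 + |w1y| ^ 2 + |w1p| ^ 2 + |w2y| ^ 2 + |w2p| ^ 2 ≤ S) :
    (ayy * w1 + 2 * ay * w1y + a * Y) ^ 2 ≤ 112 * C ^ 4 * (ε ^ 2 + S) := by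
  have hY := yy_first hC hε bd ba bg be bz bep hE
  set u := ε + |vy| + |w1| + |w1y| + |w1p| + |w2y| + |w2p| with hu
  have hC2 : C ≤ C ^ 2 := by nlinarith
  obtain ⟨k1, k1'⟩ := abs_le.1 (abs_mul_le bayy (le_refl |w1|))
  obtain ⟨k2, k2'⟩ := abs_le.1 (abs_mul_le bay (le_refl |w1y|))
  obtain ⟨k3, k3'⟩ := abs_le.1 (abs_mul_le ba hY)
  have p1 := mul_le_mul_of_nonneg_right hC2 (abs_nonneg w1)
  have p2 := mul_le_mul_of_nonneg_right (one_le_pow₀ (n := 2) hC) (abs_nonneg w1y)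
  have p3 : C ^ 2 * |w1| + C ^ 2 * |w1y| ≤ C ^ 2 * u := by
    rw [← mul_add]
    refine mul_le_mul_of_nonneg_left ?_ (by positivity)
    linarith [abs_nonneg vy, abs_nonneg w1p, abs_nonneg w2y, abs_nonneg w2p]
  have p4 : 0 ≤ C ^ 2 * |w1| := by positivity
  have hU : |ayy * w1 + 2 * ay * w1y + a * Y| ≤ 4 * C ^ 2 * u :=
    abs_le.2 ⟨by linarith only [k1, k2, k3, p1, p2, p3, p4],
      by linarith only [k1', k2', k3', p1, p2, p3, p4]⟩
  have hs := sq_sum_le_card_mul_sum_sq (s := (Finset.univ : Finset (Fin 7)))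
    (f := ![ε, |vy|, |w1|, |w1y|, |w1p|, |w2y|, |w2p|])
  simp [Fin.sum_univ_seven] at hs
  have hs' : u ^ 2 ≤ 7 * (ε ^ 2 + S) := by
    rw [hu]; simp only [sq_abs] at hS ⊢; linarith
  calc (ayy * w1 + 2 * ay * w1y + a * Y) ^ 2
      = |ayy * w1 + 2 * ay * w1y + a * Y| ^ 2 := (sq_abs _).symm
    _ ≤ (4 * C ^ 2 * u) ^ 2 := pow_le_pow_left₀ (abs_nonneg _) hU 2
    _ = 16 * C ^ 4 * u ^ 2 := by ring
    _ ≤ 16 * C ^ 4 * (7 * (ε ^ 2 + S)) := mul_le_mul_of_nonneg_left hs' (by positivity)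
    _ = 112 * C ^ 4 * (ε ^ 2 + S) := by ring

/-- The second `y`-derivative of `a v_p` where the equation is source free. -/
theorem yy_sq (h : Hyp c s v β δ γ C ε N) {q : ℝ × ℝ} (hq : q ∈ Box)
    (hfar : 1 < |(N : ℝ) ^ 4 * q.1|) :
    dy (dy (c.a * dp v)) q ^ 2 ≤ 112 * C ^ 4 * (ε ^ 2 + six v q) := by
  have D := h.data
  have hw : ContDiff ℝ 3 (dp v) := contDiff_dp h.hv (by norm_num)
  have hwy : ContDiff ℝ 2 (dy (dp v)) := contDiff_dy hw (by norm_num)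
  have h2 : ContDiff ℝ 2 c.a := D.ha.of_le (by norm_num)
  have hay : ContDiff ℝ 1 (dy c.a) := contDiff_dy h2 (by norm_num)
  have ka := h2.differentiable two_ne_zero
  have kw := hw.differentiable (by norm_num)
  have kay := hay.differentiable one_ne_zero
  have kwy := hwy.differentiable two_ne_zero
  have e1 : dy (c.a * dp v) = dy c.a * dp v + c.a * dy (dp v) := funext fun r => by
    rw [dy_mul ka kw]; rfl
  have e2 : dy (dy (c.a * dp v)) q =
      dy (dy c.a) q * dp v q + 2 * dy c.a q * dy (dp v) q + c.a q * dy (dy (dp v)) q := by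
    rw [e1, dy_add (kay.mul kw) (ka.mul kwy), dy_mul kay kw, dy_mul ka kwy]
    ring
  have hop := op_dp D.smooth0 (h.hv.of_le (by norm_num)) q
  have hz : dp c.ze q = 0 := by rw [D.hz, dp_const]
  rw [hz, zero_mul, add_zero] at hop
  have hE := (h.err q hq).2.1
  rw [dp_op_of_far hfar, hop] at hE
  have e3 : dp (dy (dp v)) q = dy (dp (dp v)) q := dp_dy (hw.of_le (by norm_num)) q
  simp only [Coef.op] at hE
  rw [e3] at hE
  obtain ⟨bg, bet, bap, bay, bd, bg1, bet1, bze1⟩ := coef_sup D hq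
  obtain ⟨s1, -, -, -, s5, s6⟩ := D.sup q hq
  have hC := D.one_le
  simp only [Coef.next, Pi.add_apply] at bg1 bet1 bze1 hE
  rw [e2]
  refine yy_alg h.data.one_le h.hε bd s6 bg1 bet1 bze1 s1 s5 bay hE ?_
  simp only [six, sq_abs]
  exact le_rfl

theorem hasCompactSupport_deriv_k0 : HasCompactSupport (deriv k0) :=
  HasCompactSupport.intro (isCompact_Icc (a := (-7 : ℝ)) (b := 7)) fun x hx => deriv_k0_zero <| by
    right
    by_contra hc
    push Not at hc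
    rw [abs_le] at hc
    exact hx ⟨hc.1, hc.2⟩

theorem exists_k0_bound : ∃ L, 0 ≤ L ∧ ∀ x, |deriv k0 x| ≤ L := by
  obtain ⟨L, hL⟩ := hasCompactSupport_deriv_k0.exists_bound_of_continuous
    (contDiff_k0.continuous_deriv (by simp))
  exact ⟨max L 0, le_max_right _ _, fun x => (hL x).trans (le_max_left _ _)⟩

theorem suppP_dcut {R : ℝ} (hR : 80 ≤ R) : SuppP fun p => R * deriv k0 (R * p) :=
  deriv_scale k0 R ▸ (suppP_cut hR).deriv

/-- The slope of the cut-off times `G` lives in the band. -/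
theorem band_of_ne {R : ℝ} {G : ℝ → ℝ} (hR : 0 < R) (hG : SuppY G) {q : ℝ × ℝ}
    (hq : term (fun _ => 1) (fun p => R * deriv k0 (R * p)) G q ≠ 0) :
    q ∈ band (1 / R) ∧ 1 < |R * q.1| := by
  simp only [term, one_mul] at hq
  have h1 : deriv k0 (R * q.1) ≠ 0 := fun e => hq (by simp [e])
  have h2 : G q.2 ≠ 0 := fun e => hq (by simp [e])
  have h3 : 6 ≤ |R * q.1| ∧ |R * q.1| ≤ 7 := by
    constructor <;> by_contra hc <;> push Not at hc
    · exact h1 (deriv_k0_zero (Or.inl hc))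
    · exact h1 (deriv_k0_zero (Or.inr hc))
  have h4 : |q.2| ≤ 27 / 100 := by
    by_contra hc; push Not at hc; exact h2 (hG _ hc)
  refine ⟨⟨?_, ?_, by linarith⟩, by linarith [h3.1]⟩
  · rw [mul_one_div, div_le_iff₀ hR, mul_comm |q.1|, ← abs_of_pos hR, ← abs_mul]; exact h3.1
  · rw [mul_one_div, le_div_iff₀ hR, mul_comm |q.1|, ← abs_of_pos hR, ← abs_mul]; exact h3.2

theorem measurableSet_band (r : ℝ) : MeasurableSet (band r) :=
  (((isClosed_le continuous_const (by fun_prop)).inter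
    ((isClosed_le (by fun_prop) continuous_const).inter
      (isClosed_le (by fun_prop) continuous_const))).measurableSet :
    MeasurableSet ({q : ℝ × ℝ | 6 * r ≤ |q.1|} ∩ ({q | |q.1| ≤ 7 * r} ∩ {q | |q.2| ≤ 3 / 10})))

theorem integrable_six (hv : ContDiff ℝ 4 v) (hs : tsupport v ⊆ Box) : Integrable (six v) := by
  have h1 : ContDiff ℝ 3 (dp v) := contDiff_dp hv (by norm_num)
  have h2 : ContDiff ℝ 2 (dp (dp v)) := contDiff_dp h1 (by norm_num)
  obtain ⟨-, a1, a2⟩ := continuous_derivs (hv.of_le (by norm_num))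
  obtain ⟨-, a3, a4⟩ := continuous_derivs (h1.of_le (by norm_num))
  obtain ⟨-, a5, a6⟩ := continuous_derivs (h2.of_le (by norm_num))
  have s1 := tsupport_dp_subset.trans hs
  have s2 := tsupport_dp_subset.trans s1
  obtain ⟨-, o1, o2⟩ := offBox_derivs hs
  obtain ⟨-, o3, o4⟩ := offBox_derivs s1
  obtain ⟨-, o5, o6⟩ := offBox_derivs s2
  refine OffBox.integrable (fun q hq => ?_) (by unfold six; fun_prop)
  simp [six, o1 q hq, o2 q hq, o3 q hq, o4 q hq, o5 q hq, o6 q hq]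

theorem eps_sq_le (h : Hyp c s v β δ γ C ε N) (hε : ε ≤ C / (N : ℝ) ^ 28) :
    ε ^ 2 ≤ C ^ 3 / (N : ℝ) ^ 55 * s.Q := by
  have hN : (80 : ℝ) ≤ N := by exact_mod_cast h.hN
  have hN0 : (0 : ℝ) < N := by linarith
  have hC : 0 < C := lt_of_lt_of_le one_pos h.data.one_le
  calc ε ^ 2 ≤ (C / (N : ℝ) ^ 28) ^ 2 := pow_le_pow_left₀ h.hε hε 2
    _ = C ^ 3 / (N : ℝ) ^ 55 * (1 / (C * (N : ℝ))) := by field_simp
    _ ≤ C ^ 3 / (N : ℝ) ^ 55 * s.Q := mul_le_mul_of_nonneg_left h.src.w2 (by positivity)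

end Vale.Agent.P229.Est
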