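import Vale.Agent.P229.Est.Refined

/-!
# P229: the test pairing from below

On the support of the source the cut-off is one, so the leading term is `∫ c₀ η g²`.
-/

open MeasureTheory
open scoped ContDiff

namespace Vale.Agent.P229.Est

/-- The test function. -/
noncomputable def testFun (s : Src) (R : ℝ) : ℝ × ℝ → ℝ :=
  term (fun _ => 1) (cut R) (deriv^[2] s.G)

theorem eta_mul_cut {R : ℝ} (p : ℝ) :
    eta R p * cut R p = eta R p ∧ eta1 R p * cut R p = eta1 R p := by
  rcases le_or_gt |R * p| 6 with h | h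
  · simp [cut, k0_one h]
  · have h1 : 1 < |R * p| := by linarith
    simp [eta, eta1, eta0_zero h1.le, deriv_eta0_zero h1]

theorem integrable_line {u : ℝ → ℝ} {m : ℝ} (hu : Continuous u) (h : ∀ p, m < |p| → u p = 0) :
    Integrable u :=
  hu.integrable_of_hasCompactSupport (HasCompactSupport.intro
    (isCompact_Icc (a := -m) (b := m)) fun p hp => h p (by
      by_contra hc; push Not at hc; exact hp ⟨(abs_le.1 hc).1, (abs_le.1 hc).2⟩))

theorem integral_eta {R : ℝ} (hR : 0 < R) : ∫ p, eta R p = R⁻¹ * ∫ x, eta0 x :=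
  int_scale hR eta0

/-- A lower order term against the signal. -/
theorem low_pair {c : ℝ × ℝ → ℝ} {Φ g : ℝ → ℝ} {C R n : ℝ} (hC : 1 ≤ C) (hR : 80 ≤ R) (hn : 0 < n)
    (hc : Continuous c) (hcb : ∀ q ∈ Box, |c q| ≤ C) (hΦ : Continuous Φ) (hg : Continuous g)
    (hΦ' : SuppY Φ) (hg' : SuppY g) (hA : A2 Φ ≤ C / n ^ 2 * A2 g) :
    |∫ q, term c (eta R) Φ q * g q.2| ≤ C ^ 2 * (∫ x, eta0 x) * (A2 g / (n * R)) := by
  have hR0 : 0 < R := by linarith
  have hη := (contDiff_eta R).continuous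
  have hη0 : ∀ p, 0 ≤ eta R p := fun p => eta0_nonneg _
  have hI : 0 ≤ ∫ x, eta0 x := integral_eta0_pos.le
  have iη : Integrable (eta R) := integrable_line hη (suppP_eta hR)
  have iΦ : Integrable fun y => Φ y ^ 2 :=
    integrable_line (m := 27 / 100) (hΦ.pow 2) fun y hy => by simp [hΦ' y hy]
  have ig : Integrable fun y => g y ^ 2 :=
    integrable_line (m := 27 / 100) (hg.pow 2) fun y hy => by simp [hg' y hy]
  have iW : Integrable fun y => n / 2 * Φ y ^ 2 + 1 / (2 * n) * g y ^ 2 :=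
    (iΦ.const_mul _).add (ig.const_mul _)
  refine (abs_integral_le_integral_abs).trans ?_
  have hb : ∫ q, |term c (eta R) Φ q * g q.2| ≤
      ∫ q : ℝ × ℝ, C * (eta R q.1 * (n / 2 * Φ q.2 ^ 2 + 1 / (2 * n) * g q.2 ^ 2)) := by
    refine integral_mono (((offBox_term (suppP_eta hR) hΦ').mul_right _).integrable
      ((continuous_term hc hη hΦ).mul (hg.comp continuous_snd))).abs ((iη.mul_prod iW).const_mul C)
      fun q => ?_
    by_cases hq : q ∈ Box
    · have e : |term c (eta R) Φ q * g q.2| = |c q| * (eta R q.1 * (|Φ q.2| * |g q.2|)) := by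
        simp only [term, abs_mul, abs_of_nonneg (hη0 q.1)]; ring
      rw [e]
      refine mul_le_mul (hcb q hq) (mul_le_mul_of_nonneg_left ?_ (hη0 _))
        (mul_nonneg (hη0 _) (by positivity)) (by linarith)
      have e' : n / 2 * Φ q.2 ^ 2 + 1 / (2 * n) * g q.2 ^ 2 - |Φ q.2| * |g q.2| =
          n / 2 * (|Φ q.2| - |g q.2| / n) ^ 2 := by
        rw [← sq_abs (Φ q.2), ← sq_abs (g q.2)]; field_simp; ring
      have := mul_nonneg (by positivity : 0 ≤ n / 2) (sq_nonneg (|Φ q.2| - |g q.2| / n))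
      linarith
    · simp only [offBox_term (suppP_eta hR) hΦ' q hq, zero_mul, abs_zero]
      have := hη0 q.1
      have : 0 ≤ n / 2 * Φ q.2 ^ 2 + 1 / (2 * n) * g q.2 ^ 2 := by positivity
      have : 0 ≤ C := by linarith
      positivity
  refine hb.trans ?_
  have hfub : ∫ q : ℝ × ℝ, eta R q.1 * (n / 2 * Φ q.2 ^ 2 + 1 / (2 * n) * g q.2 ^ 2) =
      (∫ p, eta R p) * ∫ y, (n / 2 * Φ y ^ 2 + 1 / (2 * n) * g y ^ 2) :=
    integral_prod_mul (eta R) fun y => n / 2 * Φ y ^ 2 + 1 / (2 * n) * g y ^ 2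
  rw [integral_const_mul, hfub, integral_eta hR0, integral_add (iΦ.const_mul _) (ig.const_mul _),
    integral_const_mul, integral_const_mul]
  have hg2 := A2_nonneg g
  have h1 : n / 2 * A2 Φ + 1 / (2 * n) * A2 g ≤ C / n * A2 g := by
    have h2 := mul_le_mul_of_nonneg_left hA (by positivity : 0 ≤ n / 2)
    have e2 : n / 2 * (C / n ^ 2 * A2 g) = C * (1 / (2 * n) * A2 g) := by field_simp
    have e3 : C / n * A2 g = 2 * (C * (1 / (2 * n) * A2 g)) := by field_simp
    have h3 : 1 / (2 * n) * A2 g ≤ C * (1 / (2 * n) * A2 g) :=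
      le_mul_of_one_le_left (by positivity) hC
    linarith
  calc C * (R⁻¹ * (∫ x, eta0 x) * (n / 2 * A2 Φ + 1 / (2 * n) * A2 g))
      ≤ C * (R⁻¹ * (∫ x, eta0 x) * (C / n * A2 g)) := by gcongr
    _ = C ^ 2 * (∫ x, eta0 x) * (A2 g / (n * R)) := by field_simp

theorem test_left (C : ℝ) (hC : 1 ≤ C) :
    ∃ K, 0 ≤ K ∧ ∀ (c : Coef) (s : Src) (v : ℝ × ℝ → ℝ) (β δ γ ε : ℝ) (N : ℕ),
      Hyp c s v β δ γ C ε N → ε ≤ C / (N : ℝ) ^ 28 →
        (∫ x, eta0 x) / C * (s.Q / (N : ℝ) ^ 4) - K * (s.Q / (N : ℝ) ^ 5) ≤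
          ∫ q, c.op v q * testFun s ((N : ℝ) ^ 4) q := by
  have hP0 : 0 ≤ profConst := zero_le_one.trans profConst_ge.1
  have hI : 0 ≤ ∫ x, eta0 x := integral_eta0_pos.le
  refine ⟨profConst + 20 * C ^ 3 + 3 * (C ^ 2 * ∫ x, eta0 x), by positivity,
    fun c s v β δ γ ε N h hεN => ?_⟩
  have hN : (80 : ℝ) ≤ N := by exact_mod_cast h.hN
  have hN1 : (1 : ℝ) ≤ N := by linarith
  have hN0 : (0 : ℝ) < N := by linarith
  set R : ℝ := (N : ℝ) ^ 4 with hRdef
  have hR : 80 ≤ R := hN.trans (le_self_pow₀ hN1 (by norm_num))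
  have hR0 : 0 < R := by linarith
  have hsrc := h.src
  have hG := hsrc.hG
  have g1 : ContDiff ℝ ∞ (deriv s.G) := (contDiff_infty_iff_deriv.1 hG).2
  have g2 : ContDiff ℝ ∞ (deriv^[2] s.G) := (contDiff_infty_iff_deriv.1 g1).2
  have s1 : SuppY (deriv s.G) := hsrc.sG.deriv
  have s2 : SuppY (deriv^[2] s.G) := s1.deriv
  set g := deriv^[2] s.G with hgdef
  have hQ : s.Q = A2 g := rfl
  have hQ0 := s.Q_nonneg
  have cη := (contDiff_eta R).continuous
  have cη1 := (contDiff_eta1 R).continuous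
  have cF : Continuous (testFun s R) :=
    continuous_term continuous_const (contDiff_cut R).continuous g2.continuous
  have oF : OffBox (testFun s R) := offBox_term (suppP_cut hR) s2
  have cS : Continuous (s.S R) := (Src.contDiff_S hsrc R).continuous
  have cop : Continuous (c.op v) := continuous_op h.data.smooth0 (h.hv.of_le (by norm_num))
  have oD : OffBox fun q => c.op v q - s.S R q := fun q hq => by
    simp [offBox_op h.hs q hq, Src.offBox_S hsrc hR q hq]
  have cD : Continuous fun q => c.op v q - s.S R q := cop.sub cS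
  -- the error
  have hD2 : ∫ q, (c.op v q - s.S R q) ^ 2 ≤ 80 * ε ^ 2 :=
    integral_le_sup (cD.pow 2) oD.sq (sq_nonneg ε) fun q hq => by
      rw [← sq_abs]; exact pow_le_pow_left₀ (abs_nonneg _) (h.err q hq).1 2
  have hF2 : ∫ q, testFun s R q ^ 2 ≤ profConst / R * s.Q := by
    refine (term_sq continuous_const (M := 1) (fun _ _ => by simp) (contDiff_cut R).continuous
      g2.continuous (suppP_cut hR) s2).trans ?_
    rw [one_pow, one_mul, div_eq_inv_mul]
    simp only [cut]
    rw [int_sq_scale hR0]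
    exact mul_le_mul_of_nonneg_right
      (mul_le_mul_of_nonneg_left profConst_ge.2.2.2.2.2.2.2.1 (by positivity)) hQ0
  have pD := (abs_le.1 (pair_le (l := 1 / (N : ℝ)) (by positivity) cD cF oD oF)).1
  have hε2 : ε ^ 2 ≤ C ^ 2 / (N : ℝ) ^ 56 := by
    calc ε ^ 2 ≤ (C / (N : ℝ) ^ 28) ^ 2 := pow_le_pow_left₀ h.hε hεN 2
      _ = C ^ 2 / (N : ℝ) ^ 56 := by ring
  have hone : 1 ≤ C * (N : ℝ) * s.Q := by
    have := hsrc.w2
    rw [div_le_iff₀ (by positivity)] at this
    linarith
  have eD : (N : ℝ) / 4 * (80 * ε ^ 2) ≤ 20 * C ^ 3 * (s.Q / (N : ℝ) ^ 5) := by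
    calc (N : ℝ) / 4 * (80 * ε ^ 2) = 20 * N * ε ^ 2 := by ring
      _ ≤ 20 * N * (C ^ 2 / (N : ℝ) ^ 56) * (C * N * s.Q) := by
          refine le_trans ?_ (le_mul_of_one_le_right (by positivity) hone)
          gcongr
      _ = 20 * C ^ 3 * (s.Q / (N : ℝ) ^ 54) := by field_simp
      _ ≤ 20 * C ^ 3 * (s.Q / (N : ℝ) ^ 5) := by
          refine mul_le_mul_of_nonneg_left ?_ (by positivity)
          exact div_le_div_of_nonneg_left hQ0 (by positivity) (pow_le_pow_right₀ hN1 (by norm_num))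
  have eF : 1 / (N : ℝ) * (profConst / R * s.Q) = profConst * (s.Q / (N : ℝ) ^ 5) := by
    rw [hRdef]; field_simp
  have pD' : -(profConst * (s.Q / (N : ℝ) ^ 5) + 20 * C ^ 3 * (s.Q / (N : ℝ) ^ 5)) ≤
      ∫ q, (c.op v q - s.S R q) * testFun s R q := by
    have e : 1 / (4 * (1 / (N : ℝ))) = (N : ℝ) / 4 := by field_simp
    rw [e] at pD
    have a := mul_le_mul_of_nonneg_left hF2 (by positivity : 0 ≤ 1 / (N : ℝ))
    have b := mul_le_mul_of_nonneg_left hD2 (by positivity : 0 ≤ (N : ℝ) / 4)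
    linarith
  -- the source
  have i0 : Integrable fun q : ℝ × ℝ => term s.c0 (eta R) g q * g q.2 :=
    ((offBox_term (suppP_eta hR) s2).mul_right _).integrable
      ((continuous_term hsrc.h0.continuous cη g2.continuous).mul
        (g2.continuous.comp continuous_snd))
  have i1 : Integrable fun q : ℝ × ℝ => term s.c1 (eta R) (deriv s.G) q * g q.2 :=
    ((offBox_term (suppP_eta hR) s1).mul_right _).integrable
      ((continuous_term hsrc.h1.continuous cη g1.continuous).mul
        (g2.continuous.comp continuous_snd))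
  have i2 : Integrable fun q : ℝ × ℝ => term s.c2 (eta1 R) s.G q * g q.2 :=
    ((offBox_term (suppP_eta1 hR) hsrc.sG).mul_right _).integrable
      ((continuous_term hsrc.h2.continuous cη1 hG.continuous).mul
        (g2.continuous.comp continuous_snd))
  have i3 : Integrable fun q : ℝ × ℝ => term s.c3 (eta R) s.G q * g q.2 :=
    ((offBox_term (suppP_eta hR) hsrc.sG).mul_right _).integrable
      ((continuous_term hsrc.h3.continuous cη hG.continuous).mul
        (g2.continuous.comp continuous_snd))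
  have split : (∫ q, c.op v q * testFun s R q) = (∫ q, (c.op v q - s.S R q) * testFun s R q)
      + ((∫ q : ℝ × ℝ, term s.c0 (eta R) g q * g q.2)
        + (∫ q : ℝ × ℝ, term s.c1 (eta R) (deriv s.G) q * g q.2)
        + (∫ q : ℝ × ℝ, term s.c2 (eta1 R) s.G q * g q.2)
        + ∫ q : ℝ × ℝ, term s.c3 (eta R) s.G q * g q.2) := by
    rw [← integral_add i0 i1, ← integral_add (i0.fun_add i1) i2,
      ← integral_add ((i0.fun_add i1).fun_add i2) i3,
      ← integral_add ((oD.mul_right _).integrable (cD.mul cF))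
        (((i0.fun_add i1).fun_add i2).fun_add i3)]
    refine integral_congr_ae (Filter.Eventually.of_forall fun q => ?_)
    obtain ⟨e1, e2⟩ := eta_mul_cut (R := R) q.1
    have f : ∀ (k : ℝ × ℝ → ℝ) (φ Φ : ℝ → ℝ), φ q.1 * cut R q.1 = φ q.1 →
        term k φ Φ q * testFun s R q = term k φ Φ q * g q.2 := by
      intro k φ Φ e
      simp only [term, testFun, one_mul]
      rw [show k q * φ q.1 * Φ q.2 * (cut R q.1 * deriv^[2] s.G q.2)
        = k q * (φ q.1 * cut R q.1) * Φ q.2 * deriv^[2] s.G q.2 by ring, e]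
    have a0 := f s.c0 (eta R) g e1
    have a1 := f s.c1 (eta R) (deriv s.G) e1
    have a2 := f s.c2 (eta1 R) s.G e2
    have a3 := f s.c3 (eta R) s.G e1
    simp only [Src.S, ← hgdef]
    linear_combination a0 + a1 + a2 + a3
  have ig : Integrable fun y => g y ^ 2 :=
    integrable_line (m := 27 / 100) (g2.continuous.pow 2) fun y hy => by simp [s2 y hy]
  have main : 1 / C * (R⁻¹ * (∫ x, eta0 x) * s.Q) ≤
      ∫ q : ℝ × ℝ, term s.c0 (eta R) g q * g q.2 := by
    have e : (∫ q : ℝ × ℝ, 1 / C * (eta R q.1 * g q.2 ^ 2)) =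
        1 / C * (R⁻¹ * (∫ x, eta0 x) * s.Q) := by
      have hfub : (∫ q : ℝ × ℝ, eta R q.1 * g q.2 ^ 2) = (∫ p, eta R p) * ∫ y, g y ^ 2 :=
        integral_prod_mul (eta R) fun y => g y ^ 2
      rw [integral_const_mul, hfub, integral_eta hR0]
      rfl
    rw [← e]
    refine integral_mono
      (((integrable_line cη (suppP_eta hR)).mul_prod ig).const_mul _) i0 fun q => ?_
    by_cases hq : q ∈ Box
    · have h0 : 0 ≤ eta R q.1 * g q.2 ^ 2 := mul_nonneg (eta0_nonneg _) (sq_nonneg _)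
      calc 1 / C * (eta R q.1 * g q.2 ^ 2) ≤ s.c0 q * (eta R q.1 * g q.2 ^ 2) :=
            mul_le_mul_of_nonneg_right (hsrc.low q hq) h0
        _ = term s.c0 (eta R) g q * g q.2 := by simp [term]; ring
    · have h1 := offBox_term (c := fun _ => 1) (suppP_eta hR) s2 q hq
      have h2 := offBox_term (c := s.c0) (suppP_eta hR) s2 q hq
      rw [term, one_mul] at h1
      have : eta R q.1 * g q.2 ^ 2 = 0 := by linear_combination g q.2 * h1
      simp [h2, this]
  have hA0 : A2 s.G ≤ C / (N : ℝ) ^ 2 * A2 g :=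
    hsrc.w0.trans (mul_le_mul_of_nonneg_right (div_le_div_of_nonneg_left (by linarith)
      (by positivity) (pow_le_pow_right₀ hN1 (by norm_num))) hQ0)
  have l1 := (abs_le.1 (low_pair hC hR hN0 hsrc.h1.continuous (fun q hq => (hsrc.b1 q hq).1)
    g1.continuous g2.continuous s1 s2 hsrc.w1)).1
  have l3 := (abs_le.1 (low_pair hC hR hN0 hsrc.h3.continuous (fun q hq => (hsrc.b3 q hq).1)
    hG.continuous g2.continuous hsrc.sG s2 hA0)).1
  have hc2 : ContDiff ℝ 1 s.c2 := hsrc.h2.of_le (by norm_num)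
  have hdc2 : Continuous (dp s.c2) := (continuous_derivs hc2).2.1
  have l2 := (abs_le.1 (low_pair hC hR hN0 hdc2 (fun q hq => (hsrc.b2 q hq).2.1)
    hG.continuous g2.continuous hsrc.sG s2 hA0)).2
  -- one integration by parts
  have k : (∫ q : ℝ × ℝ, term s.c2 (eta1 R) s.G q * g q.2) =
      -∫ q : ℝ × ℝ, term (dp s.c2) (eta R) s.G q * g q.2 := by
    have hP : ContDiff ℝ 1 (fun y => s.G y * g y) := (hG.mul g2).of_le (by simp)
    have hP' : SuppY fun y => s.G y * g y := fun y hy => by simp [hsrc.sG y hy]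
    have hE : ContDiff ℝ 1 (eta R) := (contDiff_eta R).of_le (by simp)
    have k := ibp_p (f := term s.c2 (eta R) fun y => s.G y * g y) (g := fun _ => (1 : ℝ))
      (contDiff_term hc2 hE hP) contDiff_const (offBox_term (suppP_eta hR) hP')
    simp only [dp_const, mul_zero, integral_zero, mul_one, integral_neg] at k
    simp only [dp_term (hc2.differentiable one_ne_zero) (hE.differentiable one_ne_zero)
      (hP.differentiable one_ne_zero), deriv_eta] at k
    have j1 : Integrable (term (dp s.c2) (eta R) fun y => s.G y * g y) :=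
      (offBox_term (suppP_eta hR) hP').integrable (continuous_term hdc2 cη hP.continuous)
    have j2 : Integrable (term s.c2 (eta1 R) fun y => s.G y * g y) :=
      (offBox_term (suppP_eta1 hR) hP').integrable
        (continuous_term hc2.continuous cη1 hP.continuous)
    rw [integral_add j1 j2] at k
    have e : ∀ (u : ℝ × ℝ → ℝ) (φ : ℝ → ℝ), (∫ q, term u φ (fun y => s.G y * g y) q) =
        ∫ q : ℝ × ℝ, term u φ s.G q * g q.2 := fun u φ =>
      integral_congr_ae (Filter.Eventually.of_forall fun q => by simp [term]; ring)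
    rw [e, e] at k
    linarith
  have eN : A2 g / ((N : ℝ) * R) = s.Q / (N : ℝ) ^ 5 := by rw [hQ, hRdef]; ring
  have eM : 1 / C * (R⁻¹ * (∫ x, eta0 x) * s.Q) = (∫ x, eta0 x) / C * (s.Q / (N : ℝ) ^ 4) := by
    rw [hRdef]; ring
  rw [eN] at l1 l2 l3
  rw [eM] at main
  rw [k] at split
  linarith

end Vale.Agent.P229.Est
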