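import Vale.Agent.P229.Est.TestAux

/-!
# P229: the terms of the test pairing from above
-/

open MeasureTheory
open scoped ContDiff

namespace Vale.Agent.P229.Est

variable {c : Coef} {s : Src} {v f g : ℝ × ℝ → ℝ} {β δ γ C ε M l R : ℝ} {N : ℕ}

theorem cut_sq {R : ℝ} (hR : 0 < R) : ∫ p, cut R p ^ 2 ≤ R⁻¹ * profConst := by
  simp only [cut]
  rw [int_sq_scale hR]
  exact mul_le_mul_of_nonneg_left profConst_ge.2.2.2.2.2.2.2.1 (by positivity)

/-- A coefficient times the test function against a derivative of `v`. -/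
theorem pairQ (hs : s.OK C N) (hR : 80 ≤ R) (hl : 0 < l) (hf : Continuous f)
    (hfb : ∀ q ∈ Box, |f q| ≤ M) (hg : Continuous g) (hg' : OffBox g) :
    |∫ q, term f (cut R) (deriv^[2] s.G) q * g q| ≤
      l * (∫ q, g q ^ 2) + M ^ 2 * profConst / (4 * l * R) * s.Q := by
  have hR0 : 0 < R := by linarith
  have g2 : ContDiff ℝ ∞ (deriv^[2] s.G) :=
    (contDiff_infty_iff_deriv.1 (contDiff_infty_iff_deriv.1 hs.hG).2).2
  refine (pairA hl hf hfb (contDiff_cut R).continuous g2.continuous (suppP_cut hR)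
    hs.sG.deriv.deriv hg hg').trans ?_
  refine add_le_add le_rfl ?_
  calc 1 / (4 * l) * (M ^ 2 * ((∫ p, cut R p ^ 2) * A2 (deriv^[2] s.G)))
      ≤ 1 / (4 * l) * (M ^ 2 * (R⁻¹ * profConst * A2 (deriv^[2] s.G))) := by
        have := A2_nonneg (deriv^[2] s.G)
        gcongr
        exact cut_sq hR0
    _ = M ^ 2 * profConst / (4 * l * R) * s.Q := by rw [Src.Q]; field_simp

/-- Smoothness facts used by all terms. -/
theorem Hyp.facts (h : Hyp c s v β δ γ C ε N) :
    ContDiff ℝ ∞ (deriv s.G) ∧ ContDiff ℝ ∞ (deriv^[2] s.G) ∧ ContDiff ℝ ∞ (deriv^[3] s.G) ∧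
      ContDiff ℝ ∞ (deriv^[4] s.G) := by
  have g1 := (contDiff_infty_iff_deriv.1 h.src.hG).2
  have g2 : ContDiff ℝ ∞ (deriv^[2] s.G) := (contDiff_infty_iff_deriv.1 g1).2
  have g3 : ContDiff ℝ ∞ (deriv^[3] s.G) := by
    rw [Function.iterate_succ_apply']; exact (contDiff_infty_iff_deriv.1 g2).2
  refine ⟨g1, g2, g3, ?_⟩
  rw [Function.iterate_succ_apply']; exact (contDiff_infty_iff_deriv.1 g3).2

theorem dy_term_one (φ Φ : ℝ → ℝ) (hφ : Differentiable ℝ φ) (hΦ : Differentiable ℝ Φ) :
    dy (term (fun _ => 1) φ Φ) = term (fun _ => 1) φ (deriv Φ) := funext fun q => by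
  rw [dy_term (differentiable_const _) hφ hΦ]
  simp [term]

/-- `v_yy`: two integrations by parts and the tube. -/
theorem term_yy (h : Hyp c s v β δ γ C ε N) :
    |∫ q, term (fun _ => 1) (cut ((N : ℝ) ^ 4)) (deriv^[2] s.G) q * dy (dy v) q| ≤
      2 * (N : ℝ) * H v + 13 * C * profConst * (s.Q / (N : ℝ) ^ 5) := by
  have hR := h.R_ge
  set R : ℝ := (N : ℝ) ^ 4 with hRdef
  have hR0 : 0 < R := by linarith
  have hN : (80 : ℝ) ≤ N := by exact_mod_cast h.hN
  have hN0 : (0 : ℝ) < N := by linarith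
  obtain ⟨g1, g2, g3, g4⟩ := h.facts
  have e1 : (1 : ℕ∞ω) ≤ ∞ := WithTop.coe_le_coe.2 le_top
  have hc : ContDiff ℝ 1 (cut R) := (contDiff_cut R).of_le e1
  have hv1 : ContDiff ℝ 1 v := h.hv.of_le (by norm_num)
  have hvy : ContDiff ℝ 1 (dy v) := contDiff_dy h.hv (by norm_num)
  have sP := suppP_cut hR
  have d2 := dy_term_one (cut R) (deriv^[2] s.G) (hc.differentiable one_ne_zero)
    (g2.differentiable (by simp))
  rw [← Function.iterate_succ_apply' deriv 2 s.G] at d2
  have d3 := dy_term_one (cut R) (deriv^[3] s.G) (hc.differentiable one_ne_zero)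
    (g3.differentiable (by simp))
  rw [← Function.iterate_succ_apply' deriv 3 s.G] at d3
  have sY3 : SuppY (deriv^[3] s.G) := h.src.sG.deriv.deriv.deriv
  have sY4 : SuppY (deriv^[4] s.G) := h.src.sG.deriv.deriv.deriv.deriv
  have cone : ContDiff ℝ 1 fun _ : ℝ × ℝ => (1 : ℝ) := contDiff_const
  have k1 := ibp_y (g := dy v) (contDiff_term cone hc (g2.of_le e1)) hvy
    (offBox_term sP h.src.sG.deriv.deriv)
  have k2 := ibp_y (g := v) (contDiff_term cone hc (g3.of_le e1)) hv1 (offBox_term sP sY3)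
  rw [d2, integral_neg] at k1
  rw [d3, integral_neg] at k2
  rw [k1, k2, neg_neg]
  refine (tube_pair (R := R) (l := (N : ℝ)) (m := 7) hR0 hN0 hv1 h.hs
    (continuous_term continuous_const hc.continuous g4.continuous)
    (offBox_term sP sY4) fun q hq => ?_).trans ?_
  · simp [term, cut, k0_zero hq.le]
  · refine add_le_add (le_of_eq (by rw [H])) ?_
    have hb := term_sq (c := fun _ : ℝ × ℝ => (1 : ℝ)) (M := 1) continuous_const
      (fun _ _ => by simp) hc.continuous g4.continuous sP sY4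
    have hA := mul_le_mul (cut_sq hR0) h.src.w4 (A2_nonneg _)
      (mul_nonneg (by positivity) (zero_le_one.trans profConst_ge.1))
    calc (1 + 7 ^ 2) / (4 * (N : ℝ) * R) * ∫ q, term (fun _ => 1) (cut R) (deriv^[4] s.G) q ^ 2
        ≤ (1 + 7 ^ 2) / (4 * (N : ℝ) * R) *
            (1 ^ 2 * (R⁻¹ * profConst * (C * (N : ℝ) ^ 4 * s.Q))) :=
          mul_le_mul_of_nonneg_left (hb.trans (mul_le_mul_of_nonneg_left hA (by norm_num)))
            (by positivity)
      _ = 25 / 2 * (C * profConst * (s.Q / (N : ℝ) ^ 5)) := by rw [hRdef]; field_simp; ring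
      _ ≤ 13 * C * profConst * (s.Q / (N : ℝ) ^ 5) := by
          have := s.Q_nonneg; have := h.data.one_le; have := profConst_ge.1
          have : 0 ≤ C * profConst * (s.Q / (N : ℝ) ^ 5) := by positivity
          linarith

/-- The mixed term `2 d v_py`. -/
theorem term_mixed (h : Hyp c s v β δ γ C ε N) (hγ : γ ≤ C / (N : ℝ) ^ 32) :
    |∫ q, term (fun r => 2 * c.d r) (cut ((N : ℝ) ^ 4)) (deriv^[2] s.G) q * dp (dy v) q| ≤
      1 / (N : ℝ) ^ 29 * energy β (dp v) + C ^ 2 * profConst * (s.Q / (N : ℝ) ^ 5) := by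
  have hN : (80 : ℝ) ≤ N := by exact_mod_cast h.hN
  have hN0 : (0 : ℝ) < N := by linarith
  have D := h.data
  have hw : ContDiff ℝ 1 (dp v) := contDiff_dp h.hv (by norm_num)
  have s1 := tsupport_dp_subset.trans h.hs
  obtain ⟨-, -, oy⟩ := offBox_derivs s1
  obtain ⟨-, -, cy⟩ := continuous_derivs hw
  have e : ∀ q, dp (dy v) q = dy (dp v) q := dp_dy (h.hv.of_le (by norm_num))
  simp only [e]
  refine (pairQ (M := 2 * (C / (N : ℝ) ^ 32)) h.src h.R_ge
    (l := 1 / (N : ℝ) ^ 29) (by positivity) (D.hd.continuous.const_mul 2) (fun q hq => ?_)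
    cy oy).trans (add_le_add ?_ ?_)
  · rw [abs_mul, abs_two]
    exact mul_le_mul_of_nonneg_left ((D.lvl.d0 q hq).trans hγ) zero_le_two
  · exact mul_le_mul_of_nonneg_left
      (energy_controls D.pos (D.le.trans (by norm_num)) hw s1).1 (by positivity)
  · have hx : 0 ≤ C ^ 2 * profConst * s.Q := by
      have := s.Q_nonneg; have := profConst_ge.1; positivity
    calc (2 * (C / (N : ℝ) ^ 32)) ^ 2 * profConst / (4 * (1 / (N : ℝ) ^ 29) * (N : ℝ) ^ 4) * s.Q
        = C ^ 2 * profConst * s.Q / (N : ℝ) ^ 39 := by field_simp; ring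
      _ ≤ C ^ 2 * profConst * s.Q / (N : ℝ) ^ 5 := by
          gcongr
          · linarith
          · norm_num
      _ = C ^ 2 * profConst * (s.Q / (N : ℝ) ^ 5) := by ring

/-- A bounded coefficient against a first derivative. -/
theorem term_low (h : Hyp c s v β δ γ C ε N) (hf : Continuous f) (hfb : ∀ q ∈ Box, |f q| ≤ 1)
    (hg : Continuous g) (hg' : OffBox g) :
    |∫ q, term f (cut ((N : ℝ) ^ 4)) (deriv^[2] s.G) q * g q| ≤
      (N : ℝ) * (∫ q, g q ^ 2) + profConst * (s.Q / (N : ℝ) ^ 5) := by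
  have hN : (80 : ℝ) ≤ N := by exact_mod_cast h.hN
  have hN0 : (0 : ℝ) < N := by linarith
  refine (pairQ (l := (N : ℝ)) (M := 1) h.src h.R_ge hN0 hf hfb hg hg').trans (add_le_add le_rfl ?_)
  have hx : 0 ≤ profConst * (s.Q / (N : ℝ) ^ 5) := by
    have := s.Q_nonneg; have := profConst_ge.1; positivity
  calc 1 ^ 2 * profConst / (4 * (N : ℝ) * (N : ℝ) ^ 4) * s.Q
      = 1 / 4 * (profConst * (s.Q / (N : ℝ) ^ 5)) := by field_simp
    _ ≤ profConst * (s.Q / (N : ℝ) ^ 5) := by linarith

/-- The integral of the absolute slope. -/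
noncomputable def slopeMass : ℝ := ∫ x, |deriv k0 x|

/-- The slope of the cut-off: two `y`-integrations by parts and the band trace. -/
theorem term_slope (h : Hyp c s v β δ γ C ε N) {L : ℝ} (hL0 : 0 ≤ L)
    (hL : ∀ x, |deriv k0 x| ≤ L) :
    |∫ q, term c.a (fun p => (N : ℝ) ^ 4 * deriv k0 ((N : ℝ) ^ 4 * p)) (deriv^[2] s.G) q * dp v q|
      ≤ 112 * L * C ^ 4 * (N : ℝ) ^ 5 *
          ((∫ q in band (1 / (N : ℝ) ^ 4), six v q) + 80 * ε ^ 2)
        + slopeMass * C * (s.Q / (N : ℝ) ^ 5) := by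
  have hR := h.R_ge
  set R : ℝ := (N : ℝ) ^ 4 with hRdef
  have hR0 : 0 < R := by linarith
  have hN : (80 : ℝ) ≤ N := by exact_mod_cast h.hN
  have hN0 : (0 : ℝ) < N := by linarith
  obtain ⟨g1, g2, g3, g4⟩ := h.facts
  have e1 : (1 : ℕ∞ω) ≤ ∞ := WithTop.coe_le_coe.2 le_top
  set k' : ℝ → ℝ := fun p => R * deriv k0 (R * p) with hk'
  have hkc : ContDiff ℝ ∞ k' :=
    contDiff_const.mul (contDiff_scale (contDiff_infty_iff_deriv.1 contDiff_k0).2 R)
  have hk : ContDiff ℝ 1 k' := hkc.of_le e1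
  have sk : SuppP k' := suppP_dcut hR
  have hw : ContDiff ℝ 3 (dp v) := contDiff_dp h.hv (by norm_num)
  set u := c.a * dp v with hu
  have hu2 : ContDiff ℝ 2 u := (h.data.ha.of_le (by norm_num)).mul (hw.of_le (by norm_num))
  have hu1 : ContDiff ℝ 1 (dy u) := contDiff_dy hu2 (by norm_num)
  obtain ⟨o, op', -⟩ := offBox_derivs h.hs
  have ou : OffBox u := fun q hq => by simp [hu, op' q hq]
  have ouy : OffBox (dy u) := (offBox_derivs (w := u) (by
    refine ((tsupport_mul_subset_right (f := c.a) (g := dp v)).trans ?_)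
    exact tsupport_dp_subset.trans h.hs)).2.2
  have d1 := dy_term_one k' (deriv s.G) (hk.differentiable one_ne_zero)
    (g1.differentiable (by simp))
  have d0 := dy_term_one k' s.G (hk.differentiable one_ne_zero) (h.src.hG.differentiable (by simp))
  have cone : ContDiff ℝ 1 fun _ : ℝ × ℝ => (1 : ℝ) := contDiff_const
  have k1 := ibp_y (g := term (fun _ => 1) k' (deriv s.G)) (hu2.of_le (by norm_num))
    (contDiff_term cone hk (g1.of_le e1)) ou
  have k2 := ibp_y (g := term (fun _ => 1) k' s.G) hu1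
    (contDiff_term cone hk (h.src.hG.of_le e1)) ouy
  rw [d1, integral_neg] at k1
  rw [d0, integral_neg] at k2
  have e : (∫ q, term c.a k' (deriv^[2] s.G) q * dp v q) =
      ∫ q, dy (dy u) q * term (fun _ => 1) k' s.G q := by
    rw [show (∫ q, term c.a k' (deriv^[2] s.G) q * dp v q) =
        ∫ q, u q * term (fun _ => 1) k' (deriv (deriv s.G)) q from
      integral_congr_ae (Filter.Eventually.of_forall fun q => by
        simp only [term, hu, Pi.mul_apply, Function.iterate_succ, Function.iterate_zero,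
          Function.comp_apply, id_eq]
        ring), k1, k2, neg_neg]
  rw [e]
  have cu : Continuous (dy (dy u)) := (continuous_derivs hu1).2.2
  have ct : Continuous (term (fun _ => 1) k' s.G) :=
    continuous_term continuous_const hk.continuous h.src.hG.continuous
  have i0 : Integrable fun q => dy (dy u) q * term (fun _ => 1) k' s.G q :=
    ((offBox_term sk h.src.sG).mul_left _).integrable (cu.mul ct)
  have iS := (integrable_six h.hv h.hs).indicator (measurableSet_band (1 / R))
  have ck : Continuous fun p => |k' p| := hk.continuous.abs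
  have ik : Integrable fun p => |k' p| := ck.integrable_of_hasCompactSupport <|
    HasCompactSupport.intro (isCompact_Icc (a := (-1 / 10 : ℝ)) (b := 1 / 10)) fun p hp => by
      have : 1 / 10 < |p| := by
        by_contra hc; push Not at hc; rw [abs_le] at hc; exact hp ⟨by linarith [hc.1], hc.2⟩
      simp [sk p this]
  have iG : Integrable fun y => s.G y ^ 2 := (h.src.hG.continuous.pow 2).integrable_of_hasCompactSupport <|
    HasCompactSupport.intro (isCompact_Icc (a := (-27 / 100 : ℝ)) (b := 27 / 100)) fun p hp => by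
      have : 27 / 100 < |p| := by
        by_contra hc; push Not at hc; rw [abs_le] at hc; exact hp ⟨by linarith [hc.1], hc.2⟩
      simp [h.src.sG p this]
  set A := (N : ℝ) * (R * L) * (112 * C ^ 4) with hA
  have hA0 : 0 ≤ A := by have := h.data.one_le; positivity
  have hP : Integrable fun q : ℝ × ℝ =>
      A * ((band (1 / R)).indicator (six v) q + 5 * ε ^ 2 * B0 q)
        + 1 / (4 * (N : ℝ)) * (|k' q.1| * s.G q.2 ^ 2) :=
    ((iS.add (integrable_B0.const_mul _)).const_mul _).add ((ik.mul_prod iG).const_mul _)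
  refine (abs_integral_le_integral_abs (f := fun q => dy (dy u) q * term (fun _ => 1) k' s.G q)
    ).trans ((integral_mono i0.abs hP fun q => ?_).trans ?_)
  · by_cases hq : term (fun _ => 1) k' s.G q = 0
    · simp only [hq, mul_zero, abs_zero]
      have : 0 ≤ (band (1 / R)).indicator (six v) q :=
        Set.indicator_nonneg (fun _ _ => by unfold six; positivity) q
      have := B0_nonneg q
      positivity
    · have hb : q ∈ Box := by
        by_contra hc; exact hq (offBox_term sk h.src.sG q hc)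
      obtain ⟨hband, hfar⟩ := band_of_ne hR0 h.src.sG hq
      have hU := yy_sq h hb hfar
      rw [Set.indicator_of_mem hband, abs_mul]
      have et : |term (fun _ => 1) k' s.G q| = |k' q.1| * |s.G q.2| := by simp [term, abs_mul]
      rw [et]
      have hk0 : |k' q.1| ≤ R * L := by
        simp only [hk', abs_mul, abs_of_pos hR0]
        exact mul_le_mul_of_nonneg_left (hL _) hR0.le
      have am : |dy (dy u) q| * |s.G q.2| ≤
          (N : ℝ) * dy (dy u) q ^ 2 + 1 / (4 * (N : ℝ)) * s.G q.2 ^ 2 := by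
        have he : (N : ℝ) * dy (dy u) q ^ 2 + 1 / (4 * (N : ℝ)) * s.G q.2 ^ 2
            - |dy (dy u) q| * |s.G q.2|
            = (N : ℝ) * (|dy (dy u) q| - |s.G q.2| / (2 * (N : ℝ))) ^ 2 := by
          rw [← sq_abs (dy (dy u) q), ← sq_abs (s.G q.2)]; field_simp; ring
        have := mul_nonneg hN0.le (sq_nonneg (|dy (dy u) q| - |s.G q.2| / (2 * (N : ℝ))))
        linarith
      have a1 := mul_le_mul_of_nonneg_left am (abs_nonneg (k' q.1))
      have a2 : |k' q.1| * ((N : ℝ) * dy (dy u) q ^ 2) ≤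
          R * L * ((N : ℝ) * (112 * C ^ 4 * (ε ^ 2 + six v q))) :=
        mul_le_mul hk0 (mul_le_mul_of_nonneg_left hU hN0.le) (by positivity) (by positivity)
      have a3 : A * ε ^ 2 ≤ A * (5 * ε ^ 2 * B0 q) := by
        refine mul_le_mul_of_nonneg_left ?_ hA0
        have := mul_le_mul_of_nonneg_left (one_le_B0 hb) (sq_nonneg ε)
        linarith
      rw [hA] at a3 ⊢
      linarith
  · have i5 : Integrable fun q : ℝ × ℝ => 5 * ε ^ 2 * B0 q := integrable_B0.const_mul _
    have i6 : Integrable fun q : ℝ × ℝ => A * ((band (1 / R)).indicator (six v) q + 5 * ε ^ 2 * B0 q) :=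
      (iS.add i5).const_mul _
    rw [integral_add i6 ((ik.mul_prod iG).const_mul _), integral_const_mul, integral_add iS i5,
      integral_indicator (measurableSet_band (1 / R)), integral_const_mul, integral_const_mul]
    have hp2 : ∫ q : ℝ × ℝ, |k' q.1| * s.G q.2 ^ 2 = slopeMass * A2 s.G := by
      rw [A2, ← show (∫ p, |k' p|) = slopeMass by
        simp only [hk', abs_mul, abs_of_pos hR0, slopeMass]
        rw [integral_const_mul, int_scale hR0 fun x => |deriv k0 x|]
        field_simp, ← integral_prod_mul]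
      rfl
    rw [hp2]
    refine add_le_add ?_ ?_
    · rw [hA, hRdef]
      calc (N : ℝ) * ((N : ℝ) ^ 4 * L) * (112 * C ^ 4) *
            ((∫ q in band (1 / (N : ℝ) ^ 4), six v q) + 5 * ε ^ 2 * ∫ q, B0 q)
          ≤ (N : ℝ) * ((N : ℝ) ^ 4 * L) * (112 * C ^ 4) *
            ((∫ q in band (1 / (N : ℝ) ^ 4), six v q) + 80 * ε ^ 2) := by
            have := h.data.one_le
            refine mul_le_mul_of_nonneg_left (add_le_add le_rfl ?_) (by positivity)
            have := mul_le_mul_of_nonneg_left integral_B0 (by positivity : 0 ≤ 5 * ε ^ 2)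
            linarith
        _ = 112 * L * C ^ 4 * (N : ℝ) ^ 5 *
            ((∫ q in band (1 / (N : ℝ) ^ 4), six v q) + 80 * ε ^ 2) := by ring
    · have hS : 0 ≤ slopeMass := integral_nonneg fun _ => abs_nonneg _
      have hx : 0 ≤ slopeMass * C * (s.Q / (N : ℝ) ^ 5) := by
        have := s.Q_nonneg; have := h.data.one_le; positivity
      calc 1 / (4 * (N : ℝ)) * (slopeMass * A2 s.G)
          ≤ 1 / (4 * (N : ℝ)) * (slopeMass * (C / (N : ℝ) ^ 4 * s.Q)) :=
            mul_le_mul_of_nonneg_left (mul_le_mul_of_nonneg_left h.src.w0 hS) (by positivity)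
        _ = 1 / 4 * (slopeMass * C * (s.Q / (N : ℝ) ^ 5)) := by field_simp
        _ ≤ slopeMass * C * (s.Q / (N : ℝ) ^ 5) := by linarith

end Vale.Agent.P229.Est
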