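import Vale.Agent.P229.Est.Left

/-!
# P229: TRAPEZOID, the estimate at one level up to a thin band beside the source

The weight is `χ(p/√β + y²/2) K₁(p) K₂(p) exp(-p/√β)`: `K₁` rises inside the region known from
LEFT, `K₂` falls on a band of width `r`, and the lateral cut is steeper than the characteristics.
-/

open MeasureTheory
open scoped ContDiff

namespace Vale.Agent.P229.Est

variable {s r : ℝ} {q : ℝ × ℝ}

/-- The lateral argument. -/
noncomputable def phi (s : ℝ) (q : ℝ × ℝ) : ℝ := (q.1 / s + q.2 ^ 2 / 2 - 17 / 200) / (3 / 200)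

/-- The lateral cut. -/
noncomputable def chi (s : ℝ) (q : ℝ × ℝ) : ℝ := step (phi s q)

/-- The rise inside the region known from LEFT. -/
noncomputable def rise (s : ℝ) (q : ℝ × ℝ) : ℝ := 1 - fallP (lam * s / 4) (-(7 * lam * s / 2)) q

/-- The fall beside the source. -/
noncomputable def fall (r : ℝ) (q : ℝ × ℝ) : ℝ := fallP r (-(13 * r / 2)) q

/-- The growth factor. -/
noncomputable def expW (s : ℝ) (q : ℝ × ℝ) : ℝ := Real.exp (-q.1 / s)

/-- The weight. -/
noncomputable def trap (s r : ℝ) (q : ℝ × ℝ) : ℝ := chi s q * rise s q * fall r q * expW s q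

/-- The weight carried by the band. -/
noncomputable def bandW (s r : ℝ) (q : ℝ × ℝ) : ℝ :=
  chi s q * rise s q * slopeP r (-(13 * r / 2)) q * expW s q

/-- The part of the weight's derivative living where LEFT applies. -/
noncomputable def strip (s r : ℝ) (q : ℝ × ℝ) : ℝ :=
  chi s q * slopeP (lam * s / 4) (-(7 * lam * s / 2)) q * fall r q * expW s q

/-- The lateral part of the weight's derivative. -/
noncomputable def lat (s r : ℝ) (q : ℝ × ℝ) : ℝ :=
  200 / (3 * s) * slope (phi s q) * rise s q * fall r q * expW s q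

theorem phi_hasFDerivAt (q : ℝ × ℝ) : HasFDerivAt (phi s)
    ((200 / (3 * s)) • ContinuousLinearMap.fst ℝ ℝ ℝ
      + (200 / 3 * q.2) • ContinuousLinearMap.snd ℝ ℝ ℝ) q := by
  have h1 := (hasFDerivAt_fst (𝕜 := ℝ) (E := ℝ) (F := ℝ) (p := q)).mul_const s⁻¹
  have h2 := ((hasFDerivAt_snd (𝕜 := ℝ) (E := ℝ) (F := ℝ) (p := q)).pow 2).mul_const (2 : ℝ)⁻¹
  have h3 := ((h1.fun_add h2).sub_const (17 / 200 : ℝ)).mul_const (3 / 200 : ℝ)⁻¹
  have e : (phi s) = fun q : ℝ × ℝ =>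
      (q.1 * s⁻¹ + q.2 ^ 2 * (2 : ℝ)⁻¹ - 17 / 200) * (3 / 200 : ℝ)⁻¹ := by
    funext q; simp only [phi, div_eq_mul_inv]
  rw [e]
  refine h3.congr_fderiv (ContinuousLinearMap.ext fun v => ?_)
  simp
  field_simp

theorem phi_contDiff {n : ℕ∞ω} : ContDiff ℝ n (phi s) := by unfold phi; fun_prop

theorem chi_contDiff : ContDiff ℝ 2 (chi s) := (step_contDiff (n := 2)).comp phi_contDiff

theorem rise_contDiff : ContDiff ℝ 2 (rise s) := contDiff_const.sub (fallP_contDiff (n := 2))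

theorem fall_contDiff : ContDiff ℝ 2 (fall r) := fallP_contDiff (n := 2)

theorem expW_contDiff : ContDiff ℝ 2 (expW s) := by unfold expW; fun_prop

theorem trap_contDiff : ContDiff ℝ 2 (trap s r) :=
  (((chi_contDiff.mul rise_contDiff).mul fall_contDiff).mul expW_contDiff)

theorem bandW_continuous : Continuous (bandW s r) :=
  (((chi_contDiff.continuous.mul rise_contDiff.continuous).mul
    (slopeP_contDiff (n := 0)).continuous).mul expW_contDiff.continuous)

theorem expW_hasFDerivAt (q : ℝ × ℝ) : HasFDerivAt (expW s)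
    ((-(expW s q) / s) • ContinuousLinearMap.fst ℝ ℝ ℝ) q := by
  have h1 := (((hasFDerivAt_fst (𝕜 := ℝ) (E := ℝ) (F := ℝ) (p := q)).neg).mul_const s⁻¹).exp
  refine (h1.congr_of_eventuallyEq (Filter.Eventually.of_forall fun r => ?_)).congr_fderiv
    (ContinuousLinearMap.ext fun v => ?_)
  · simp [expW, div_eq_mul_inv]
  · simp [expW, div_eq_mul_inv]; ring

theorem trap_deriv (q : ℝ × ℝ) :
    dp (trap s r) q = -(trap s r q / s) - lat s r q + strip s r q - bandW s r q ∧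
      dy (trap s r) q = -(200 / 3 * slope (phi s q) * rise s q * fall r q * expW s q * q.2) := by
  have hc : Differentiable ℝ (chi s) := chi_contDiff.differentiable two_ne_zero
  have h1 : Differentiable ℝ (rise s) := rise_contDiff.differentiable two_ne_zero
  have h2 : Differentiable ℝ (fall r) := fall_contDiff.differentiable two_ne_zero
  have h3 : Differentiable ℝ (expW s) := expW_contDiff.differentiable two_ne_zero
  have e : trap s r = chi s * rise s * fall r * expW s := rfl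
  have dc : fderiv ℝ (chi s) q = _ :=
    ((step_hasDerivAt (phi s q)).comp_hasFDerivAt q (phi_hasFDerivAt q)).fderiv
  have de : fderiv ℝ (expW s) q = _ := (expW_hasFDerivAt q).fderiv
  have pr : dp (rise s) q = slopeP (lam * s / 4) (-(7 * lam * s / 2)) q := by
    show dp ((fun _ => (1 : ℝ)) - fallP _ _) q = _
    rw [dp_sub (differentiable_const _) ((fallP_contDiff (n := 1)).differentiable one_ne_zero),
      dp_const, dp_fallP]
    ring
  have yr : dy (rise s) q = 0 := by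
    show dy ((fun _ => (1 : ℝ)) - fallP _ _) q = _
    rw [dy_sub (differentiable_const _) ((fallP_contDiff (n := 1)).differentiable one_ne_zero),
      dy_const, dy_fallP]
    ring
  have pf : dp (fall r) q = -slopeP r (-(13 * r / 2)) q := dp_fallP
  have yf : dy (fall r) q = 0 := dy_fallP
  have pc : dp (chi s) q = -(200 / (3 * s) * slope (phi s q)) := by simp [dp, dc]; ring
  have yc : dy (chi s) q = -(200 / 3 * q.2 * slope (phi s q)) := by simp [dy, dc]; ring
  have pe : dp (expW s) q = -(expW s q) / s := by simp [dp, de]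
  have ye : dy (expW s) q = 0 := by simp [dy, de]
  constructor
  · rw [e]
    simp (disch := fun_prop) only [dp_mul, Pi.mul_apply, pr, pf, pc, pe, lat, strip, bandW]
    ring
  · rw [e]
    simp (disch := fun_prop) only [dy_mul, Pi.mul_apply, yr, yf, yc, ye]
    ring

theorem lat_nonneg (hs : 0 < s) : 0 ≤ lat s r q := by
  have := (step_mem ((q.1 - -(7 * lam * s / 2)) / (lam * s / 4))).2
  have h1 : 0 ≤ rise s q := by
    simp only [rise, fallP]; linarith
  have h2 : 0 ≤ fall r q := (step_mem _).1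
  have h3 : 0 ≤ slope (phi s q) := slope_nonneg _
  have h4 : 0 ≤ expW s q := (Real.exp_pos _).le
  unfold lat; positivity

theorem trap_nonneg : 0 ≤ trap s r q := by
  have := (fallP_mem (h := lam * s / 4) (x₀ := -(7 * lam * s / 2)) (q := q)).2
  have h1 : 0 ≤ rise s q := by simp only [rise]; linarith
  exact mul_nonneg (mul_nonneg (mul_nonneg (step_mem _).1 h1) (step_mem _).1) (Real.exp_pos _).le

theorem bandW_nonneg (hr : 0 < r) : 0 ≤ bandW s r q := by
  have := (fallP_mem (h := lam * s / 4) (x₀ := -(7 * lam * s / 2)) (q := q)).2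
  have h1 : 0 ≤ rise s q := by simp only [rise]; linarith
  exact mul_nonneg (mul_nonneg (mul_nonneg (step_mem _).1 h1) (slopeP_nonneg hr))
    (Real.exp_pos _).le

/-- The region carrying the weight and its derivatives. -/
def InTrap (s r : ℝ) (q : ℝ × ℝ) : Prop :=
  -(15 * lam * s / 4) < q.1 ∧ q.1 < -(11 * r / 2) ∧ q.1 / s + q.2 ^ 2 / 2 < 1 / 10

/-- Outside that region the weight and its derivatives vanish. -/
theorem trap_eq_zero (hs : 0 < s) (hr : 0 < r) (h : ¬InTrap s r q) :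
    trap s r q = 0 ∧ lat s r q = 0 ∧ strip s r q = 0 ∧ bandW s r q = 0 ∧
      dy (trap s r) q = 0 := by
  have hl : 0 < lam * s / 4 := by simp [lam]; positivity
  rw [(trap_deriv q).2]
  simp only [InTrap, not_and_or, not_lt] at h
  rcases h with h | h | h
  · have h1 : rise s q = 0 := by rw [rise, fallP_eq_one hl (by linarith), sub_self]
    have h2 := slopeP_eq_zero (x₀ := -(7 * lam * s / 2)) (q := q) hl (Or.inl (by linarith))
    simp [trap, lat, strip, bandW, h1, h2]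
  · have h1 : fall r q = 0 := fallP_eq_zero hr (by linarith)
    have h2 := slopeP_eq_zero (x₀ := -(13 * r / 2)) (q := q) hr (Or.inr (by linarith))
    simp [trap, lat, strip, bandW, h1, h2]
  · have hphi : 1 ≤ phi s q := by rw [phi, le_div_iff₀ (by norm_num)]; linarith
    have h1 : chi s q = 0 := step_eq_zero hphi
    have h2 : slope (phi s q) = 0 := slope_eq_zero (hphi.trans (le_abs_self _))
    simp [trap, lat, strip, bandW, h1, h2]

/-- In the region, `y² ≤ 6 / 25`. -/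
theorem InTrap.sq_le (hs : 0 < s) (h : InTrap s r q) : q.2 ^ 2 ≤ 6 / 25 := by
  have : -(15 * lam / 4) < q.1 / s := by rw [lt_div_iff₀ hs]; linarith [h.1]
  have := h.2.2
  norm_num [lam] at *
  linarith

/-- The strip weight sits where the LEFT step is one. -/
theorem strip_le (hs : 0 < s) :
    strip s r q ≤ 4 / (lam * s) * Real.exp 1 * fallP (lam * s / 2) (-(5 * lam * s / 2)) q := by
  have hl0 : 0 < lam * s := by simp [lam]; positivity
  have hl : 0 < lam * s / 4 := by positivity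
  by_cases hz : slopeP (lam * s / 4) (-(7 * lam * s / 2)) q = 0
  · have := (fallP_mem (h := lam * s / 2) (x₀ := -(5 * lam * s / 2)) (q := q)).1
    simp only [strip, hz, mul_zero, zero_mul]
    positivity
  obtain ⟨hp1, hp2⟩ : -(15 * lam * s / 4) < q.1 ∧ q.1 < -(13 * lam * s / 4) := by
    constructor <;> by_contra hc <;>
      exact hz (slopeP_eq_zero hl (by first | exact Or.inl (by linarith) | exact Or.inr (by linarith)))
  rw [fallP_eq_one (by positivity : 0 < lam * s / 2) (by linarith), mul_one]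
  have he : expW s q ≤ Real.exp 1 := by
    refine Real.exp_le_exp.2 ((div_le_one hs).2 ?_)
    have : lam = 1 / 200 := rfl
    rw [this] at hp1; linarith
  have e0 : 0 ≤ slopeP (lam * s / 4) (-(7 * lam * s / 2)) q := slopeP_nonneg hl
  have e1 : slopeP (lam * s / 4) (-(7 * lam * s / 2)) q ≤ 4 / (lam * s) := by
    refine (slopeP_le hl).trans (le_of_eq ?_); field_simp
  have c0 := (step_mem (phi s q)).1
  have f0 : 0 ≤ fall r q := (step_mem _).1
  calc strip s r q
      = chi s q * slopeP (lam * s / 4) (-(7 * lam * s / 2)) q * fall r q * expW s q := rfl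
    _ ≤ 1 * (4 / (lam * s)) * 1 * Real.exp 1 := by
        refine mul_le_mul (mul_le_mul (mul_le_mul (step_mem _).2 e1 e0 zero_le_one)
          (step_mem _).2 f0 (by positivity)) he (Real.exp_pos _).le (by positivity)
    _ = _ := by ring

theorem trap_lat {A B a d y s β : ℝ} (hs : 0 < s) (hsq : s ^ 2 = β) (ha : a ≤ -(7 / 10 * β))
    (hd : |d| ≤ s / 5) (hy : y ^ 2 ≤ 6 / 25) :
    0 ≤ 1 / 2 * (A ^ 2 - a * B ^ 2) - s * y * (A * B + d * B ^ 2) := by
  have hy1 : |y| ≤ 1 / 2 := abs_le_of_sq_le_sq (by linarith) (by norm_num)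
  have h1 : s * y * (A * B) ≤ 5 / 16 * A ^ 2 + 1 / 5 * β * B ^ 2 := by
    rw [← hsq]
    calc s * y * (A * B) ≤ s * |y| * (|A| * |B|) := by
          rw [← abs_mul A B]
          refine (le_abs_self _).trans (le_of_eq ?_)
          rw [abs_mul, abs_mul, abs_of_pos hs]
      _ ≤ s * (1 / 2) * (|A| * |B|) := by gcongr
      _ ≤ 5 / 16 * |A| ^ 2 + 1 / 5 * s ^ 2 * |B| ^ 2 := by
          nlinarith [sq_nonneg (5 / 4 * |A| - s * |B|)]
      _ = _ := by rw [sq_abs, sq_abs]
  have h2 : s * y * (d * B ^ 2) ≤ 1 / 10 * β * B ^ 2 := by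
    calc s * y * (d * B ^ 2) ≤ s * |y| * (|d| * B ^ 2) := by
          refine (le_abs_self _).trans (le_of_eq ?_)
          rw [abs_mul, abs_mul, abs_mul, abs_of_pos hs, abs_of_nonneg (sq_nonneg B)]
      _ ≤ s * (1 / 2) * (s / 5 * B ^ 2) := by gcongr
      _ = _ := by rw [← hsq]; ring
  nlinarith [mul_le_mul_of_nonneg_right ha (sq_nonneg B), sq_nonneg A,
    mul_nonneg (hsq ▸ sq_nonneg s : 0 ≤ β) (sq_nonneg B)]

theorem trap_bulk {A B F v a g ap dyd et ze s β : ℝ} (hs : 0 < s) (hs1 : s ≤ 1 / 100)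
    (hsq : s ^ 2 = β) (ha : a ≤ -(7 / 10 * β)) (hg : |g| ≤ 8 * β) (hap : |ap| ≤ 8 * β)
    (hdd : |dyd| ≤ β) (het : |et| ≤ β) :
    1 / (10 * s) * (A ^ 2 + β * B ^ 2) ≤
      F * B + 1 / (2 * s) * (A ^ 2 - a * B ^ 2) - (g - ap / 2 - dyd) * B ^ 2
        - (et * A * B + ze * v * B) + 5 / s * (F ^ 2 + (ze * v) ^ 2) := by
  have hβ : 0 ≤ β := hsq ▸ sq_nonneg s
  have y1 : ∀ x : ℝ, |x * B| ≤ s / 20 * B ^ 2 + 5 / s * x ^ 2 := fun x => by
    have := young (x := x) (B := B) (mul_pos (by norm_num : (0 : ℝ) < 2 / 5) hs)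
    refine this.trans (le_of_eq ?_)
    field_simp; ring
  have h1 := abs_le.1 (y1 F)
  have h2 := abs_le.1 (y1 (ze * v))
  have h3 : (g - ap / 2 - dyd) * B ^ 2 ≤ 13 * β * B ^ 2 :=
    mul_le_mul_of_nonneg_right (by linarith [abs_le.1 hg, abs_le.1 hap, abs_le.1 hdd]) (sq_nonneg B)
  have h4 : et * A * B ≤ s / 2 * A ^ 2 + s / 2 * (β * B ^ 2) := by
    calc et * A * B ≤ |et| * (|A| * |B|) := by
          refine (le_abs_self _).trans (le_of_eq ?_); rw [abs_mul, abs_mul]; ring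
      _ ≤ s * s * (|A| * |B|) := by gcongr; rw [← sq, hsq]; exact het
      _ ≤ s * ((|A| ^ 2 + s ^ 2 * |B| ^ 2) / 2) := by
          nlinarith [mul_nonneg hs.le (sq_nonneg (|A| - s * |B|))]
      _ = _ := by rw [sq_abs, sq_abs, hsq]; ring
  have h5 : 1 / (2 * s) * (A ^ 2 + 7 / 10 * β * B ^ 2) ≤ 1 / (2 * s) * (A ^ 2 - a * B ^ 2) :=
    mul_le_mul_of_nonneg_left (by nlinarith [sq_nonneg B]) (by positivity)
  have eβ : β = s * s := by rw [← hsq]; ring
  have hA : 1 / (10 * s) ≤ 1 / (2 * s) - s / 2 := by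
    rw [div_sub_div _ _ (by positivity) two_ne_zero, div_le_div_iff₀ (by positivity) (by positivity)]
    nlinarith
  have hB : 1 / (10 * s) * β ≤ 1 / (2 * s) * (7 / 10 * β) - 13 * β - s / 2 * β - s / 10 := by
    subst eβ
    field_simp
    nlinarith
  nlinarith [mul_le_mul_of_nonneg_right hA (sq_nonneg A), mul_le_mul_of_nonneg_right hB (sq_nonneg B)]

theorem trap_point {T L S Bd Ks ρ W A B F v a G et ze d y s β M : ℝ} (hs : 0 < s) (hs1 : s ≤ 1 / 100)
    (hT : 0 ≤ T) (hL : 0 ≤ L) (hBd : 0 ≤ Bd) (hS : S ≤ Ks * ρ) (hρ : 0 ≤ ρ) (hKs : 0 ≤ Ks)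
    (hβ : 0 ≤ β) (ha : a ≤ -(7 / 10 * β)) (ha2 : |a| ≤ 2 * β)
    (hb : 1 / (10 * s) * (A ^ 2 + β * B ^ 2) ≤ F * B + 1 / (2 * s) * (A ^ 2 - a * B ^ 2)
      - G * B ^ 2 - (et * A * B + ze * v * B) + 5 / s * M)
    (hlat : 0 ≤ 1 / 2 * (A ^ 2 - a * B ^ 2) - s * y * (A * B + d * B ^ 2)) (hM : 0 ≤ M)
    (hW : T * M + ρ * (A ^ 2 + β * B ^ 2) ≤ W) :
    (T + Bd) * (A ^ 2 + β * B ^ 2) ≤
      10 * (F * (T * B) - (1 / 2 * (-(T / s) - L + S - Bd) * (A ^ 2 - a * B ^ 2)
        + T * G * B ^ 2 - -(L * s * y) * (A * B + d * B ^ 2) + T * (et * A * B + ze * v * B)))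
        + 10 * (5 / s + Ks) * W := by
  have e : 0 ≤ A ^ 2 + β * B ^ 2 := by positivity
  have i1 := mul_le_mul_of_nonneg_right ha (sq_nonneg B)
  have i2 := mul_le_mul_of_nonneg_right (neg_le_of_abs_le ha2) (sq_nonneg B)
  have i3 := mul_nonneg hβ (sq_nonneg B)
  have q1 : 1 / 5 * (A ^ 2 + β * B ^ 2) ≤ 1 / 2 * (A ^ 2 - a * B ^ 2) := by
    linarith [sq_nonneg A]
  have q2 : 1 / 2 * (A ^ 2 - a * B ^ 2) ≤ A ^ 2 + β * B ^ 2 := by linarith [sq_nonneg A]
  have q0 : 0 ≤ 1 / 2 * (A ^ 2 - a * B ^ 2) := le_trans (by linarith) q1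
  have m1 := mul_le_mul_of_nonneg_left hb hT
  have m2 := mul_nonneg hL hlat
  have m3 := mul_le_mul_of_nonneg_left q1 hBd
  have m4 := (mul_le_mul_of_nonneg_right hS q0).trans
    (mul_le_mul_of_nonneg_left q2 (mul_nonneg hKs hρ))
  have u := mul_le_mul_of_nonneg_left hW (by positivity : 0 ≤ 5 / s + Ks)
  have u1 : 0 ≤ 5 / s * (ρ * (A ^ 2 + β * B ^ 2)) := by positivity
  have u2 : 0 ≤ Ks * (T * M) := by positivity
  have m6 : T * (A ^ 2 + β * B ^ 2) ≤ 1 / s * (T * (A ^ 2 + β * B ^ 2)) :=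
    le_mul_of_one_le_left (mul_nonneg hT e) (by rw [one_le_div hs]; linarith)
  have m7 : Bd * (A ^ 2 + β * B ^ 2) ≤ 10 * (Bd * (1 / 5 * (A ^ 2 + β * B ^ 2))) := by
    linarith [mul_nonneg hBd e]
  linear_combination 10 * m1 + 10 * m2 + 10 * m3 + 10 * m4 + 10 * u + 10 * u1 + 10 * u2 + m6 + m7

/-- The constant of TRAPEZOID. -/
noncomputable def trapK (β : ℝ) : ℝ :=
  10 * (5 / Real.sqrt β + 4 / (lam * Real.sqrt β) * Real.exp 1)

/-- TRAPEZOID at one level. -/
theorem trap_level_at {β : ℝ} (hβ : 0 < β) (hβ1 : β ≤ 1 / 10000)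
    (c : Coef) (w : ℝ × ℝ → ℝ) (r : ℝ) (W : ℝ × ℝ → ℝ)
    (hr : 0 < r) (hc : c.Smooth) (hw : ContDiff ℝ 2 w) (hs : HasCompactSupport w)
    (hW : Integrable W) (hW0 : ∀ q, 0 ≤ W q)
    (hyp : ∀ q ∈ tsupport w, InTrap (Real.sqrt β) r q →
        c.a q ≤ -(7 / 10 * β) ∧ |c.a q| ≤ 2 * β ∧ |c.g q| ≤ 8 * β ∧ |dp c.a q| ≤ 8 * β ∧
        |dy c.d q| ≤ β ∧ |c.et q| ≤ β ∧ |c.d q| ≤ Real.sqrt β / 5 ∧
        trap (Real.sqrt β) r q * (c.op w q ^ 2 + (c.ze q * w q) ^ 2)
          + fallP (lam * Real.sqrt β / 2) (-(5 * lam * Real.sqrt β / 2)) q * en β w q ≤ W q) :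
    ∫ q, (trap (Real.sqrt β) r q + bandW (Real.sqrt β) r q) * en β w q
      ≤ trapK β * ∫ q, W q := by
  unfold trapK
  set s := Real.sqrt β with hs'
  have hs0 : 0 < s := Real.sqrt_pos.2 hβ
  have hsq : s ^ 2 = β := Real.sq_sqrt hβ.le
  have hs1 : s ≤ 1 / 100 :=
    abs_le_of_sq_le_sq' (by rw [hsq]; linarith) (by norm_num) |>.2
  set Ks := 4 / (lam * s) * Real.exp 1 with hKs
  have hKs0 : 0 ≤ Ks := by
    have : (0 : ℝ) < lam := by norm_num [lam]
    positivity
  clear_value s Ks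
  rw [← integral_const_mul]
  have h1 := res1_spec (θ := trap s r) hc (trap_contDiff.of_le one_le_two) hw hs
  refine integral_le_of_res (a := 10) (b := 0)
    (integrable_mul_en (trap_contDiff.continuous.add bandW_continuous) (hw.of_le one_le_two) hs)
    (hW.const_mul _) h1 h1 fun q => ?_
  have hKW : 0 ≤ 10 * (5 / s + Ks) * W q := mul_nonneg (by positivity) (hW0 q)
  by_cases hq : q ∈ tsupport w
  swap
  · obtain ⟨e1, e2, e3⟩ := eq_zero_off (w := w) q hq
    simp [en, Coef.res1, e1, e2, e3]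
    linarith
  obtain ⟨dtp, dty⟩ := trap_deriv (s := s) (r := r) q
  by_cases hT : InTrap s r q
  swap
  · obtain ⟨z1, z2, z3, z4, z5⟩ := trap_eq_zero hs0 hr hT
    simp [Coef.res1, z1, z4, z5, dtp, z2, z3]
    linarith
  obtain ⟨ha, ha2, hg, hap, hdd, het, hd, hWq⟩ := hyp q hq hT
  have hlat : dy (trap s r) q = -(lat s r q * s * q.2) := by
    rw [dty]; simp only [lat]; field_simp
  simp only [Coef.res1, dtp, hlat]
  have t0 : 0 ≤ trap s r q := trap_nonneg
  have l0 : 0 ≤ lat s r q := lat_nonneg hs0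
  have b0 : 0 ≤ bandW s r q := bandW_nonneg hr
  have st := strip_le (r := r) (q := q) hs0
  rw [← hKs] at st
  have hb := trap_bulk (A := dy w q) (B := dp w q) (F := c.op w q) (v := w q) (ze := c.ze q)
    hs0 hs1 hsq ha hg hap hdd het
  have hlatb := trap_lat (A := dy w q) (B := dp w q) hs0 hsq ha hd (hT.sq_le hs0)
  have key := trap_point (d := c.d q) (y := q.2) hs0 hs1 t0 l0 b0 st
    (fallP_mem (h := lam * s / 2) (x₀ := -(5 * lam * s / 2)) (q := q)).1 hKs0 hβ.le ha ha2 hb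
    hlatb (by positivity : 0 ≤ c.op w q ^ 2 + (c.ze q * w q) ^ 2) hWq
  simp only [en]
  linear_combination key

theorem trapK_mono {β β' : ℝ} (hβ : 0 < β) (hb : β ≤ β') : trapK β' ≤ trapK β := by
  have : (0 : ℝ) < lam := by norm_num [lam]
  have := Real.sqrt_pos.2 hβ
  have := Real.sqrt_le_sqrt hb
  unfold trapK
  gcongr

/-- TRAPEZOID with one constant for all `β ≥ βm`. -/
theorem trap_level (βm : ℝ) (hβm : 0 < βm) :
    ∃ K, 0 ≤ K ∧ ∀ (β : ℝ), βm ≤ β → β ≤ 1 / 10000 →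
      ∀ (c : Coef) (w : ℝ × ℝ → ℝ) (r : ℝ) (W : ℝ × ℝ → ℝ),
      0 < r → c.Smooth → ContDiff ℝ 2 w → HasCompactSupport w → Integrable W → (∀ q, 0 ≤ W q) →
      (∀ q ∈ tsupport w, InTrap (Real.sqrt β) r q →
        c.a q ≤ -(7 / 10 * β) ∧ |c.a q| ≤ 2 * β ∧ |c.g q| ≤ 8 * β ∧ |dp c.a q| ≤ 8 * β ∧
        |dy c.d q| ≤ β ∧ |c.et q| ≤ β ∧ |c.d q| ≤ Real.sqrt β / 5 ∧
        trap (Real.sqrt β) r q * (c.op w q ^ 2 + (c.ze q * w q) ^ 2)
          + fallP (lam * Real.sqrt β / 2) (-(5 * lam * Real.sqrt β / 2)) q * en β w q ≤ W q) →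
      ∫ q, (trap (Real.sqrt β) r q + bandW (Real.sqrt β) r q) * en β w q ≤ K * ∫ q, W q := by
  refine ⟨trapK βm, ?_, fun β hβ hβ1 c w r W hr hc hw hs hW hW0 hyp => ?_⟩
  · have : (0 : ℝ) < lam := by norm_num [lam]
    unfold trapK; positivity
  · exact (trap_level_at (hβm.trans_le hβ) hβ1 c w r W hr hc hw hs hW hW0 hyp).trans
      (mul_le_mul_of_nonneg_right (trapK_mono hβm hβ) (integral_nonneg hW0))

end Vale.Agent.P229.Est
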