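import Vale.Agent.P229.Est.Step
import Vale.Agent.P229.Est.Residual

/-!
# P229: the bracket of (I0) for weights depending on the first coordinate only
-/

open MeasureTheory
open scoped ContDiff

namespace Vale.Agent.P229.Est

/-- All coefficient derivatives entering the brackets are at most `K` at `q`. -/
structure Coef.Bd (c : Coef) (K : ℝ) (q : ℝ × ℝ) : Prop where
  dy_d : |dy c.d q| ≤ K
  dy_dp_d : |dy (dp c.d) q| ≤ K
  a : |c.a q| ≤ K
  dp_a : |dp c.a q| ≤ K
  dp_dp_a : |dp (dp c.a) q| ≤ K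
  g : |c.g q| ≤ K
  dp_g : |dp c.g q| ≤ K
  dy_et : |dy c.et q| ≤ K
  ze : |c.ze q| ≤ K

/-- A bound for a profile and its first two derivatives. -/
theorem exists_profile_bound {f : ℝ → ℝ} (hf : ContDiff ℝ 2 f) (hf0 : ∀ x, |f x| ≤ 1)
    (hf' : ∀ x, 1 < |x| → deriv f x = 0) :
    ∃ S, 1 ≤ S ∧ ∀ x, |f x| ≤ S ∧ |deriv f x| ≤ S ∧ |deriv (deriv f) x| ≤ S := by
  have h1 : ContDiff ℝ 1 (deriv f) := (show ContDiff ℝ (1 + 1) f by norm_num; exact hf).deriv'
  have hs : HasCompactSupport (deriv f) :=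
    HasCompactSupport.intro (isCompact_Icc (a := (-1 : ℝ)) (b := 1)) fun x hx =>
      hf' x (not_le.1 fun h => hx (Set.mem_Icc.2 (abs_le.1 h)))
  obtain ⟨A, hA⟩ := hs.exists_bound_of_continuous h1.continuous
  obtain ⟨B, hB⟩ := hs.deriv.exists_bound_of_continuous (h1.continuous_deriv le_rfl)
  refine ⟨1 + |A| + |B|, by linarith [abs_nonneg A, abs_nonneg B], fun x => ⟨?_, ?_, ?_⟩⟩
  · linarith [hf0 x, abs_nonneg A, abs_nonneg B]
  · linarith [hA x, (le_abs_self A), abs_nonneg B, Real.norm_eq_abs (deriv f x)]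
  · linarith [hB x, abs_nonneg A, le_abs_self B, Real.norm_eq_abs (deriv (deriv f) x)]

theorem exists_step_bound : ∃ S, 1 ≤ S ∧ ∀ x,
    (|step x| ≤ S ∧ |deriv step x| ≤ S ∧ |deriv (deriv step) x| ≤ S) ∧
    (|slope x| ≤ S ∧ |deriv slope x| ≤ S ∧ |deriv (deriv slope) x| ≤ S) := by
  obtain ⟨S, hS, h1⟩ := exists_profile_bound (f := step) (step_contDiff (n := 2))
    (fun x => abs_le.2 ⟨by linarith [(step_mem x).1], (step_mem x).2⟩)
    fun x hx => by rw [(step_hasDerivAt x).deriv, slope_eq_zero hx.le, neg_zero]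
  obtain ⟨T, hT, h2⟩ := exists_profile_bound (f := slope) (slope_contDiff (n := 2))
    (fun x => abs_le.2 ⟨by linarith [slope_nonneg x], slope_le_one x⟩)
    fun x hx => by
      refine HasDerivAt.deriv ((hasDerivAt_const x (0 : ℝ)).congr_of_eventuallyEq ?_)
      filter_upwards [(continuous_abs.tendsto x).eventually (lt_mem_nhds hx)] with y hy
      exact slope_eq_zero hy.le
  refine ⟨S + T, by linarith, fun x => ?_⟩
  obtain ⟨a1, a2, a3⟩ := h1 x
  obtain ⟨b1, b2, b3⟩ := h2 x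
  exact ⟨⟨by linarith, by linarith, by linarith⟩, ⟨by linarith, by linarith, by linarith⟩⟩

/-- The scaled profile as a function of the first coordinate. -/
noncomputable def prof (f : ℝ → ℝ) (h x₀ : ℝ) (q : ℝ × ℝ) : ℝ := f ((q.1 - x₀) / h)

variable {f : ℝ → ℝ} {h x₀ : ℝ}

theorem prof_contDiff {n : ℕ∞ω} (hf : ContDiff ℝ n f) : ContDiff ℝ n (prof f h x₀) :=
  hf.comp ((contDiff_fst.sub contDiff_const).div_const _)

theorem dp_prof (hf : Differentiable ℝ f) :
    dp (prof f h x₀) = h⁻¹ • prof (deriv f) h x₀ := by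
  funext q
  rw [dp, show prof f h x₀ = fun q : ℝ × ℝ => f ((q.1 - x₀) / h) from rfl,
    (hasFDerivAt_comp_fst (hf _).hasDerivAt).fderiv]
  simp [prof, div_eq_inv_mul]

theorem dy_prof (hf : Differentiable ℝ f) : dy (prof f h x₀) = fun _ => 0 := by
  funext q
  rw [dy, show prof f h x₀ = fun q : ℝ × ℝ => f ((q.1 - x₀) / h) from rfl,
    (hasFDerivAt_comp_fst (hf _).hasDerivAt).fderiv]
  simp

theorem abs_zterm_prof {c : Coef} (hc : c.Smooth) (hf : ContDiff ℝ 2 f) (hh : 0 < h) (hh1 : h ≤ 1)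
    {S K : ℝ} (hS : ∀ x, |f x| ≤ S ∧ |deriv f x| ≤ S ∧ |deriv (deriv f) x| ≤ S) {q : ℝ × ℝ}
    (hK : c.Bd K q) : |c.zterm (prof f h x₀) q| ≤ 20 * K * S / h ^ 2 := by
  have f1 : ContDiff ℝ 1 (deriv f) := (show ContDiff ℝ (1 + 1) f by norm_num; exact hf).deriv'
  set ν := prof f h x₀ with hν
  have dν : Differentiable ℝ ν := (prof_contDiff hf).differentiable two_ne_zero
  have dν' : Differentiable ℝ (prof (deriv f) h x₀) :=
    (prof_contDiff f1).differentiable one_ne_zero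
  have ep : dp ν = h⁻¹ • prof (deriv f) h x₀ := dp_prof (hf.differentiable two_ne_zero)
  have ey : dy ν = fun _ => 0 := dy_prof (hf.differentiable two_ne_zero)
  have ep' : dp (prof (deriv f) h x₀) = h⁻¹ • prof (deriv (deriv f)) h x₀ :=
    dp_prof (f1.differentiable one_ne_zero)
  have ey' : dy (prof (deriv f) h x₀) = fun _ => 0 := dy_prof (f1.differentiable one_ne_zero)
  have k1 : Differentiable ℝ c.d := hc.d.differentiable two_ne_zero
  have k2 : Differentiable ℝ (dp c.d) :=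
    (contDiff_dp (m := 1) hc.d (by norm_num)).differentiable one_ne_zero
  have k3 : Differentiable ℝ c.a := hc.a.differentiable two_ne_zero
  have k4 : Differentiable ℝ (dp c.a) :=
    (contDiff_dp (m := 1) hc.a (by norm_num)).differentiable one_ne_zero
  have k5 : Differentiable ℝ c.g := hc.g.differentiable one_ne_zero
  have k6 : Differentiable ℝ c.et := hc.et.differentiable one_ne_zero
  have e1 : dp (c.d * ν) = dp c.d * ν + h⁻¹ • (c.d * prof (deriv f) h x₀) := by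
    funext r; rw [dp_mul k1 dν, ep]; simp [mul_left_comm]
  have e2 : dp (c.a * ν) = dp c.a * ν + h⁻¹ • (c.a * prof (deriv f) h x₀) := by
    funext r; rw [dp_mul k3 dν, ep]; simp [mul_left_comm]
  rw [Coef.zterm, e1, e2]
  simp (disch := fun_prop) only [dp_add, dy_add, dp_mul, dy_mul, dp_smul, dy_smul, ep, ep', ey,
    ey', Pi.smul_apply, smul_eq_mul, mul_zero, add_zero]
  simp only [dy_const, zero_add]
  obtain ⟨b1, b2, b3, b4, b5, b6, b7, b8, b9⟩ := hK
  obtain ⟨s0, s1, s2⟩ := hS ((q.1 - x₀) / h)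
  have hu : (1 : ℝ) ≤ h⁻¹ := by rw [one_le_inv₀ hh]; exact hh1
  set u := h⁻¹ with hu'
  have hu0 : 0 ≤ u := by linarith
  have hK0 : 0 ≤ K := (abs_nonneg _).trans b1
  have hS0 : 0 ≤ S := (abs_nonneg _).trans s0
  have P : ∀ {x y : ℝ}, |x| ≤ K → |y| ≤ S → |x * y| ≤ K * S := fun {x y} hx hy => by
    rw [abs_mul]; exact mul_le_mul hx hy (abs_nonneg _) hK0
  have q1 := abs_le.1 (P b2 s0)
  have q2 := abs_le.1 (P b1 s1)
  have q3 := abs_le.1 (P b5 s0)
  have q4 := abs_le.1 (P b4 s1)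
  have q5 := abs_le.1 (P b3 s2)
  have q6 := abs_le.1 (P b7 s0)
  have q7 := abs_le.1 (P b6 s1)
  have q8 := abs_le.1 (P b8 s0)
  have q9 := abs_le.1 (P b9 s0)
  have hu2 : 0 ≤ u ^ 2 := sq_nonneg u
  have hKS : 0 ≤ K * S := mul_nonneg hK0 hS0
  have m1 : K * S * u ≤ K * S * u ^ 2 := mul_le_mul_of_nonneg_left (by nlinarith) hKS
  have m2 : K * S * 1 ≤ K * S * u ^ 2 := mul_le_mul_of_nonneg_left (by nlinarith) hKS
  have r2 := mul_le_mul_of_nonneg_left q2.1 hu0
  have r2' := mul_le_mul_of_nonneg_left q2.2 hu0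
  have r4 := mul_le_mul_of_nonneg_left q4.1 hu0
  have r4' := mul_le_mul_of_nonneg_left q4.2 hu0
  have r5 := mul_le_mul_of_nonneg_left q5.1 hu2
  have r5' := mul_le_mul_of_nonneg_left q5.2 hu2
  have r7 := mul_le_mul_of_nonneg_left q7.1 hu0
  have r7' := mul_le_mul_of_nonneg_left q7.2 hu0
  rw [show 20 * K * S / h ^ 2 = 20 * (K * S) * u ^ 2 by rw [hu', inv_pow]; ring, abs_le]
  simp only [hν, prof]
  constructor <;> linarith

end Vale.Agent.P229.Est
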